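import Vale.Agent.P231.AreaA

/-! The area formula for the Hausdorff measure. -/

open scoped Manifold ContDiff Topology ENNReal RealInnerProductSpace
open Set Filter Real Module

set_option linter.unusedSectionVars false

namespace Vale.Agent.P231

open Vale.Agent.P255 Vale.Agent.P234

variable {E : Type} [NormedAddCommGroup E] [NormedSpace ℝ E] [FiniteDimensional ℝ E]
  {M : Type} [MetricSpace M] [CompactSpace M] [ChartedSpace E M] [IsManifold 𝓘(ℝ, E) ∞ M]
  {g : M → E →L[ℝ] E →L[ℝ] ℝ} {κ : ℝ}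
  {n : ℕ}
  [MeasurableSpace M] [BorelSpace M]

open MeasureTheory

namespace AreaAux

theorem lip {X Y Z : Type} [MetricSpace X] [MeasurableSpace X] [BorelSpace X] [MetricSpace Y]
    [MeasurableSpace Y] [BorelSpace Y] [Nonempty Z] {f : Z → X} {k : Z → Y} {A : Set Z} {K : ℝ}
    (hK : 0 ≤ K) (h : ∀ a ∈ A, ∀ b ∈ A, dist (f a) (f b) ≤ K * dist (k a) (k b)) (n : ℕ) :
    (μHE[n] : Measure X) (f '' A) ≤ ENNReal.ofReal (K ^ n) * (μHE[n] : Measure Y) (k '' A) := by
  have h1 : ∀ a ∈ A, f (Function.invFunOn k A (k a)) = f a := by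
    intro a ha
    have := h _ (Function.invFunOn_mem (f := k) ⟨a, ha, rfl⟩) a ha
    rw [Function.invFunOn_eq (f := k) ⟨a, ha, rfl⟩, dist_self, mul_zero] at this
    exact dist_le_zero.1 this
  have h2 : f '' A = (fun y => f (Function.invFunOn k A y)) '' (k '' A) := by
    rw [image_image]
    exact image_congr fun a ha => (h1 a ha).symm
  have h3 : LipschitzOnWith K.toNNReal (fun y => f (Function.invFunOn k A y)) (k '' A) := by
    refine LipschitzOnWith.of_dist_le' ?_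
    rintro _ ⟨a, ha, rfl⟩ _ ⟨b, hb, rfl⟩
    rw [h1 a ha, h1 b hb]
    exact h a ha b hb
  have h4 := h3.hausdorffMeasure_image_le (d := n) (Nat.cast_nonneg n)
  rw [h2, Measure.euclideanHausdorffMeasure_def, Measure.euclideanHausdorffMeasure_def,
    Measure.coe_nnreal_smul_apply, Measure.coe_nnreal_smul_apply, mul_left_comm,
    ENNReal.ofReal_pow hK]
  rw [ENNReal.rpow_natCast] at h4
  exact mul_le_mul_right h4 _

theorem lim {a b : ℝ≥0∞} (m : ℕ) (h : ∀ η : ℝ, 0 < η → a ≤ ENNReal.ofReal ((1 + η) ^ m) * b) :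
    a ≤ b := by
  have h1 : Tendsto (fun η : ℝ => ENNReal.ofReal ((1 + η) ^ m)) (𝓝[>] 0) (𝓝 1) := by
    have h0 : Continuous fun η : ℝ => ENNReal.ofReal ((1 + η) ^ m) :=
      ENNReal.continuous_ofReal.comp (by fun_prop)
    simpa using (h0.tendsto 0).mono_left (nhdsWithin_le_nhds (s := Ioi 0))
  have h2 := ENNReal.Tendsto.mul_const (b := b) h1 (Or.inl one_ne_zero)
  rw [one_mul] at h2
  exact ge_of_tendsto h2 (eventually_mem_nhdsWithin.mono h)

/-- The Jacobian. -/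
noncomputable def JJ (g : M → E →L[ℝ] E →L[ℝ] ℝ) (Ψ : Eu n → M) (y : Eu n) : ℝ :=
  √(gd (g (Ψ y)) fun i => dM E Ψ y (EuclideanSpace.single i 1))

theorem cont (h : RM g) {Ψ : Eu n → M} {y₀ : Eu n} (hΨ : ∀ᶠ y in 𝓝 y₀, SmP E Ψ y) :
    ContinuousAt (JJ g Ψ) y₀ := (continuousAt_gd h hΨ).sqrt

theorem loc (h : RM g) (hn : n = finrank ℝ E) {Ψ : Eu n → M} {y₀ : Eu n}
    (hΨ : ∀ᶠ y in 𝓝 y₀, SmP E Ψ y) (hi : ∀ w, dM E Ψ y₀ w = 0 → w = 0) {η : ℝ} (hη : 0 < η) :
    ∃ N, IsOpen N ∧ y₀ ∈ N ∧ ∀ A ⊆ N, MeasurableSet A →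
      (μHE[n] : Measure M) (Ψ '' A) ≤
        ENNReal.ofReal ((1 + η) ^ (n + 1)) * ∫⁻ y in A, ENNReal.ofReal (JJ g Ψ y) ∧
      ∫⁻ y in A, ENNReal.ofReal (JJ g Ψ y) ≤
        ENNReal.ofReal ((1 + η) ^ (n + 1)) * (μHE[n] : Measure M) (Ψ '' A) := by
  obtain ⟨L, hL, h1⟩ := bilip h hn hΨ hi hη
  have hc := cont h hΨ
  have h0 : 0 < JJ g Ψ y₀ := by
    rw [JJ, ← hL, abs_pos]
    exact (LinearEquiv.isUnit_det' L.toLinearEquiv).ne_zero
  have h2 : ∀ᶠ y in 𝓝 y₀, JJ g Ψ y < (1 + η) * JJ g Ψ y₀ :=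
    hc.eventually (gt_mem_nhds (by nlinarith [mul_pos hη h0]))
  have h3 : ∀ᶠ y in 𝓝 y₀, JJ g Ψ y₀ < (1 + η) * JJ g Ψ y :=
    (hc.const_mul (1 + η)).eventually (lt_mem_nhds (by nlinarith [mul_pos hη h0]))
  obtain ⟨N₁, hN₁, h4⟩ := mem_nhds_prod_iff.1 h1
  obtain ⟨N₂, hN₂, h4⟩ := h4
  obtain ⟨N, h5, h6, h7⟩ := mem_nhds_iff.1 (inter_mem (inter_mem hN₁ hN₂) (h2.and h3))
  have hη1 : 0 ≤ 1 + η := by linarith
  refine ⟨N, h6, h7, fun A hA hm => ?_⟩
  have h8 : ∀ a ∈ A, ∀ b ∈ A, dist (Ψ a) (Ψ b) ≤ (1 + η) * dist (L a) (L b) ∧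
      dist (L a) (L b) ≤ (1 + η) * dist (Ψ a) (Ψ b) := fun a ha b hb =>
    h4 (mk_mem_prod (h5 (hA ha)).1.1 (h5 (hA hb)).1.2)
  have h9 : (μHE[n] : Measure (Eu n)) (L '' A) = ENNReal.ofReal (JJ g Ψ y₀) * volume A := by
    rw [EuclideanSpace.euclideanHausdorffMeasure_eq_volume, JJ, ← hL]
    exact Measure.addHaar_image_continuousLinearEquiv _ L A
  have a1 := lip hη1 (fun a ha b hb => (h8 a ha b hb).1) n
  have a2 := lip hη1 (fun a ha b hb => (h8 a ha b hb).2) n
  rw [h9] at a1 a2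
  constructor
  · refine a1.trans ?_
    rw [pow_succ, ENNReal.ofReal_mul (pow_nonneg hη1 n), mul_assoc, ← setLIntegral_const]
    refine mul_le_mul_right ?_ _
    rw [← lintegral_const_mul' _ _ ENNReal.ofReal_ne_top]
    refine setLIntegral_mono' hm fun y hy => ?_
    rw [← ENNReal.ofReal_mul hη1]
    exact ENNReal.ofReal_le_ofReal (h5 (hA hy)).2.2.le
  · rw [pow_succ', ENNReal.ofReal_mul hη1, mul_assoc]
    refine le_trans ?_ (mul_le_mul_right a2 _)
    rw [← mul_assoc, ← setLIntegral_const, ← ENNReal.ofReal_mul hη1]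
    exact setLIntegral_mono' hm fun y hy => ENNReal.ofReal_le_ofReal (h5 (hA hy)).2.1.le

end AreaAux

/-- For small sets `A` near `y₀`, `μHE (Ψ '' A)` is within `(1 + η) ^ n` of `|det L| * volume A`
(`LipschitzOnWith.hausdorffMeasure_image_le`, `EuclideanSpace.euclideanHausdorffMeasure_eq_volume`,
`addHaar_image_linearMap`). Cover `U` by countably many such neighbourhoods, make them disjoint, images are
measurable (`MeasurableSet.image_of_continuousOn_injOn`); let `η → 0`. -/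
theorem area_set (h : RM g) (hn : n = finrank ℝ E) {Ψ : Eu n → M} {U : Set (Eu n)} (hU : IsOpen U)
    (hΨ : ∀ y ∈ U, SmP E Ψ y) (hi : ∀ y ∈ U, ∀ w, dM E Ψ y w = 0 → w = 0) (hj : InjOn Ψ U)
    {A : Set (Eu n)} (hA : MeasurableSet A) (hAU : A ⊆ U) :
    (μHE[n] : Measure M) (Ψ '' A) = ∫⁻ y in A,
      ENNReal.ofReal √(gd (g (Ψ y)) fun i => dM E Ψ y (EuclideanSpace.single i 1)) := by
  have hc : ContinuousOn Ψ U := fun y hy => (hΨ y hy).continuousAt.continuousWithinAt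
  have key : ∀ η : ℝ, 0 < η → (μHE[n] : Measure M) (Ψ '' A) ≤
      ENNReal.ofReal ((1 + η) ^ (n + 1)) * ∫⁻ y in A, ENNReal.ofReal (AreaAux.JJ g Ψ y) ∧
      ∫⁻ y in A, ENNReal.ofReal (AreaAux.JJ g Ψ y) ≤
        ENNReal.ofReal ((1 + η) ^ (n + 1)) * (μHE[n] : Measure M) (Ψ '' A) := by
    intro η hη
    have h1 := fun y : U => AreaAux.loc h hn (y₀ := y.1)
      ((hU.eventually_mem y.2).mono hΨ) (hi y.1 y.2) hη
    choose N hN1 hN2 hN3 using h1
    rcases A.eq_empty_or_nonempty with rfl | ⟨y₀, hy₀⟩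
    · simp
    have : Nonempty U := ⟨⟨y₀, hAU hy₀⟩⟩
    obtain ⟨f, hf⟩ := (HereditarilyLindelofSpace.isLindelof A).indexed_countable_subcover N hN1
      fun y hy => mem_iUnion.2 ⟨⟨y, hAU hy⟩, hN2 _⟩
    set B : ℕ → Set (Eu n) := fun i => A ∩ disjointed (fun i => N (f i)) i with hB
    have hBm : ∀ i, MeasurableSet (B i) := fun i =>
      hA.inter (MeasurableSet.disjointed (fun i => (hN1 (f i)).measurableSet) i)
    have hBd : Pairwise (Function.onFun Disjoint B) := fun i j hij =>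
      (disjoint_disjointed _ hij).mono inter_subset_right inter_subset_right
    have hBU : ∀ i, B i ⊆ U := fun i => inter_subset_left.trans hAU
    have hAB : A = ⋃ i, B i := by
      rw [hB, ← inter_iUnion, iUnion_disjointed, inter_eq_left.2 hf]
    have hb := fun i => hN3 (f i) (B i) (inter_subset_right.trans (disjointed_subset _ i)) (hBm i)
    have e1 : (μHE[n] : Measure M) (Ψ '' A) = ∑' i, (μHE[n] : Measure M) (Ψ '' B i) := by
      rw [hAB, image_iUnion, measure_iUnion]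
      · intro i j hij
        exact (hBd hij).image hj (hBU i) (hBU j)
      · intro i
        exact (hBm i).image_of_continuousOn_injOn (hc.mono (hBU i)) (hj.mono (hBU i))
    have e2 : ∫⁻ y in A, ENNReal.ofReal (AreaAux.JJ g Ψ y) =
        ∑' i, ∫⁻ y in B i, ENNReal.ofReal (AreaAux.JJ g Ψ y) := by
      conv_lhs => rw [hAB]
      exact lintegral_iUnion hBm hBd _
    rw [e1, e2, ← ENNReal.tsum_mul_left, ← ENNReal.tsum_mul_left]
    exact ⟨ENNReal.tsum_le_tsum fun i => (hb i).1, ENNReal.tsum_le_tsum fun i => (hb i).2⟩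
  exact le_antisymm (AreaAux.lim _ fun η hη => (key η hη).1) (AreaAux.lim _ fun η hη => (key η hη).2)

/-- See `MeasureTheory.lintegral_image_eq_lintegral_abs_det_fderiv_mul`. -/
theorem area (h : RM g) (hn : n = finrank ℝ E) {Ψ : Eu n → M} {U : Set (Eu n)} (hU : IsOpen U)
    (hΨ : ∀ y ∈ U, SmP E Ψ y) (hi : ∀ y ∈ U, ∀ w, dM E Ψ y w = 0 → w = 0) (hj : InjOn Ψ U)
    {f : M → ℝ≥0∞} (hf : Measurable f) :
    ∫⁻ q in Ψ '' U, f q ∂(μHE[n] : Measure M) = ∫⁻ y in U,
      ENNReal.ofReal √(gd (g (Ψ y)) fun i => dM E Ψ y (EuclideanSpace.single i 1)) * f (Ψ y) := by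
  have hc : ContinuousOn Ψ U := fun y hy => (hΨ y hy).continuousAt.continuousWithinAt
  have hJ : AEMeasurable (fun y => ENNReal.ofReal (AreaAux.JJ g Ψ y)) (volume.restrict U) := by
    have : ContinuousOn (AreaAux.JJ g Ψ) U := fun y hy =>
      (AreaAux.cont h ((hU.eventually_mem hy).mono hΨ)).continuousWithinAt
    exact (this.aemeasurable hU.measurableSet).ennreal_ofReal
  have h1 : AEMeasurable Ψ (volume.restrict U) := hc.aemeasurable hU.measurableSet
  have h2 : AEMeasurable Ψ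
      ((volume.restrict U).withDensity fun y => ENNReal.ofReal (AreaAux.JJ g Ψ y)) :=
    h1.mono_ac (withDensity_absolutelyContinuous _ _)
  have h3 : Measure.map Ψ
      ((volume.restrict U).withDensity fun y => ENNReal.ofReal (AreaAux.JJ g Ψ y)) =
      (μHE[n] : Measure M).restrict (Ψ '' U) := by
    refine Measure.ext fun t ht => ?_
    have h4 : NullMeasurableSet (Ψ ⁻¹' t) (volume.restrict U) := h1.nullMeasurableSet_preimage ht
    have h5 : MeasurableSet (Ψ ⁻¹' t ∩ U) := by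
      have := hU.measurableSet.subtype_image (hc.domRestrict.measurable ht)
      convert this using 1
      ext y
      simp [and_comm]
    rw [Measure.map_apply_of_aemeasurable h2 ht, withDensity_apply₀ _ h4,
      Measure.restrict_apply ht, Measure.restrict_restrict₀ h4, ← image_preimage_inter]
    exact (area_set h hn hU hΨ hi hj h5 inter_subset_right).symm
  rw [← h3, lintegral_map' hf.aemeasurable h2]
  exact lintegral_withDensity_eq_lintegral_mul₀ hJ (hf.comp_aemeasurable h1)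

end Vale.Agent.P231
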