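import Vale.Agent.P231.Bl

/-! The canonical one form along families of geodesics. -/

open scoped Manifold ContDiff Topology ENNReal RealInnerProductSpace
open Set Filter Real Module

set_option linter.unusedSectionVars false
set_option maxSynthPendingDepth 3

namespace Vale.Agent.P231

open Vale.Agent.P255 Vale.Agent.P234

variable {E : Type} [NormedAddCommGroup E] [NormedSpace ℝ E] [FiniteDimensional ℝ E]
  {M : Type} [MetricSpace M] [CompactSpace M] [ChartedSpace E M] [IsManifold 𝓘(ℝ, E) ∞ M]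
  {g : M → E →L[ℝ] E →L[ℝ] ℝ} {κ : ℝ}
  {A : Type} [NormedAddCommGroup A] [NormedSpace ℝ A]

/-- The canonical one form. -/
noncomputable def th (g : M → E →L[ℝ] E →L[ℝ] ℝ) (X : A → M) (V : A → E) (u : A) (b : A) : ℝ :=
  g (X b) (V b) (dM E X b u)

/-- The symplectic form. -/
noncomputable def om (g : M → E →L[ℝ] E →L[ℝ] ℝ) (X : A → M) (V : A → E) (a u u' : A) : ℝ :=
  fderiv ℝ (th g X V u') a u - fderiv ℝ (th g X V u) a u'

/-- Derivative of `V` in the preferred chart. -/
noncomputable def dv (X : A → M) (V : A → E) (a : A) : A →L[ℝ] E :=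
  fderiv ℝ (fun b => dC (chartAt E (X a)) (X b) (V b)) a

namespace SympAAux

theorem two_le : (2 : WithTop ℕ∞) ≤ ((⊤ : ℕ∞) : WithTop ℕ∞) :=
  WithTop.coe_le_coe.2 (le_top : (2 : ℕ∞) ≤ ⊤)

theorem hasD1 {f : A → E} {z : A} (hf : ContDiffAt ℝ 2 f z) (p : A) :
    HasFDerivAt (fun b => fderiv ℝ f b p) ((fderiv ℝ (fderiv ℝ f) z).flip p) z := by
  have h1 : ContDiffAt ℝ 1 (fderiv ℝ f) z := hf.fderiv_right (m := 1) (by norm_num)
  have := (h1.differentiableAt (by simp)).hasFDerivAt.clm_apply (hasFDerivAt_const p z)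
  simpa using this

theorem symm2 {F : Type} [NormedAddCommGroup F] [NormedSpace ℝ F] {f : A → F} {z : A}
    (hf : ContDiffAt ℝ 2 f z) (p q : A) :
    fderiv ℝ (fderiv ℝ f) z p q = fderiv ℝ (fderiv ℝ f) z q p :=
  (hf.isSymmSndFDerivAt (by simp)).eq p q

/-- Derivative of a pairing in coordinates. -/
theorem pair {G : E → E →L[ℝ] E →L[ℝ] ℝ} {f y w : A → E} {z : A} {f' y' w' : A →L[ℝ] E}
    (hG : DifferentiableAt ℝ G (f z)) (hf : HasFDerivAt f f' z) (hy : HasFDerivAt y y' z)
    (hw : HasFDerivAt w w' z) : DifferentiableAt ℝ (fun b => G (f b) (y b) (w b)) z ∧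
      ∀ r, fderiv ℝ (fun b => G (f b) (y b) (w b)) z r =
        fderiv ℝ G (f z) (f' r) (y z) (w z) + G (f z) (y' r) (w z) + G (f z) (y z) (w' r) := by
  have h0 : HasFDerivAt (fun b => G (f b)) ((fderiv ℝ G (f z)).comp f') z :=
    hG.hasFDerivAt.comp z hf
  have h00 := h0.clm_apply hy
  have h1 := h00.clm_apply hw
  refine ⟨h1.differentiableAt, fun r => ?_⟩
  rw [h1.fderiv]
  simp only [add_apply, ContinuousLinearMap.comp_apply,
    ContinuousLinearMap.flip_apply]
  ring

theorem slice {F : Type} [NormedAddCommGroup F] [NormedSpace ℝ F] {f : A × ℝ → F} {v : A} {r : ℝ}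
    (hf : DifferentiableAt ℝ f (v, r)) :
    HasDerivAt (fun x => f (v, x)) (fderiv ℝ f (v, r) (0, 1)) r :=
  hf.hasFDerivAt.comp_hasDerivAt r ((hasDerivAt_const r v).prodMk (hasDerivAt_id r))

theorem slice' {F : Type} [NormedAddCommGroup F] [NormedSpace ℝ F] {f : A × ℝ → F} {v : A} {r : ℝ}
    (hf : DifferentiableAt ℝ f (v, r)) :
    HasFDerivAt (fun c => f (c, r)) ((fderiv ℝ f (v, r)).comp (ContinuousLinearMap.inl ℝ A ℝ)) v :=
  hf.hasFDerivAt.comp v (hasFDerivAt_prodMk_left v r)

theorem tend (v : A) (r : ℝ) : Tendsto (fun x : ℝ => ((v, x) : A × ℝ)) (𝓝 r) (𝓝 (v, r)) :=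
  (continuous_const.prodMk continuous_id).tendsto r

theorem tend' (v : A) (r : ℝ) : Tendsto (fun c : A => ((c, r) : A × ℝ)) (𝓝 v) (𝓝 (v, r)) :=
  (continuous_id.prodMk continuous_const).tendsto v

/-- First variation in coordinates. -/
theorem coord {G : E → E →L[ℝ] E →L[ℝ] ℝ} {U : Set E} (hc : CM G U) {f : A × ℝ → E} {b : A} {s : ℝ}
    (hU : f (b, s) ∈ U) (hf : ContDiffAt ℝ 2 f (b, s))
    (hg : cov G (fun x => f (b, x)) (deriv fun x => f (b, x)) s = 0) (u : A) :
    HasDerivAt (fun x => G (f (b, x)) (fderiv ℝ f (b, x) (0, 1)) (fderiv ℝ f (b, x) (u, 0)))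
      (fderiv ℝ (fun c => G (f (c, s)) (fderiv ℝ f (c, s) (0, 1)) (fderiv ℝ f (c, s) (0, 1)) / 2)
        b u) s := by
  have hd := (hf.differentiableAt (by simp)).hasFDerivAt
  have hG := hc.differentiableAt_G hU
  obtain ⟨a1, a2⟩ := pair hG hd (hasD1 hf (0, 1)) (hasD1 hf (u, 0))
  obtain ⟨b1, b2⟩ := pair hG hd (hasD1 hf (0, 1)) (hasD1 hf (0, 1))
  have e1 : deriv (fun x => f (b, x)) =ᶠ[𝓝 s] fun x => fderiv ℝ f (b, x) (0, 1) :=
    ((tend b s).eventually (hf.eventually (by simp))).mono fun _ hx =>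
      (slice (hx.differentiableAt (by simp))).deriv
  have e2 := slice (hasD1 hf (0, 1)).differentiableAt
  rw [(hasD1 hf (0, 1)).fderiv] at e2
  rw [cov, e1.deriv_eq, e2.deriv, e1.self_of_nhds] at hg
  have b3 := ((slice' b1).mul_const (2 : ℝ)⁻¹).fderiv
  refine (slice a1).congr_deriv ?_
  simp only [div_eq_mul_inv]
  rw [b3, a2]
  have b4 := b2 (u, 0)
  simp only [ContinuousLinearMap.flip_apply] at hg b4 ⊢
  have k := hc.koszul hU (fderiv ℝ f (b, s) (0, 1)) (fderiv ℝ f (b, s) (0, 1))
    (fderiv ℝ f (b, s) (u, 0))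
  have k2 := congrArg (fun w => G (f (b, s)) w (fderiv ℝ f (b, s) (u, 0))) hg
  simp only [map_add, add_apply, map_zero, zero_apply] at k2
  have k3 := hc.symm _ hU (fderiv ℝ (fderiv ℝ f) (b, s) (u, 0) (0, 1)) (fderiv ℝ f (b, s) (0, 1))
  rw [symm2 hf (0, 1) (u, 0)]
  simp only [smul_apply, ContinuousLinearMap.comp_apply,
    ContinuousLinearMap.inl_apply, smul_eq_mul]
  linarith

end SympAAux

open SympAAux

theorem SmP.eventually {X : A → M} {a : A} (h : ∀ᶠ b in 𝓝 a, SmP E X b) (u : A) :
    ∀ᶠ b in 𝓝 a, SmV X (fun c => dM E X c u) b := by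
  filter_upwards [h.eventually_nhds] with b hb
  have hX := hb.self_of_nhds
  refine ⟨hX, fun e he hs => ?_⟩
  have h1 : ContDiffAt ℝ ∞ (fderiv ℝ fun c => e (X c)) b := (hX.chart he hs).fderiv_right (by simp)
  refine (h1.clm_apply (contDiffAt_const (c := u))).congr_of_eventuallyEq ?_
  filter_upwards [hb, hX.continuousAt.preimage_mem_nhds (e.open_source.mem_nhds hs)] with c hc hc'
  exact hc.dC_dM he hc' u

/-- First variation: in a chart the time derivative of the left side is
`fderiv (G(c)(c', c')) u / 2` (`CM.el` or `CM.koszul`, symmetry of second derivatives of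
`(b, t) ↦ e (geo g (X b) (V b) t)`, see `P255/Jac_x.lean`), and the energy is conserved. -/
theorem th_flow (h : RM g) {X : A → M} {V : A → E} {b : A} (hV : ∀ᶠ c in 𝓝 b, SmV X V c) (t : ℝ)
    (u : A) : th g (fun c => geo g (X c) (V c) t) (fun c => vl g (X c) (V c) t) u b =
      th g X V u b + t * fderiv ℝ (fun c => g (X c) (V c) (V c) / 2) b u := by
  set F : A × ℝ → M := fun p => geo g (X p.1) (V p.1) p.2 with hF
  have hs : ∀ c, SmV X V c → ∀ s, SmP E F (c, s) := fun c hc s =>
    ((SmV.comp (φ := fun p : A × ℝ => p.1) (b := (c, s)) hc contDiffAt_fst).flow h contDiffAt_snd).1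
  set D := fderiv ℝ (fun c => g (X c) (V c) (V c) / 2) b u with hD
  have hvel : ∀ (e : OpenPartialHomeomorph M E), e ∈ atlas E M → ∀ c, SmV X V c → ∀ s,
      F (c, s) ∈ e.source →
      dC e (F (c, s)) (vl g (X c) (V c) s) = fderiv ℝ (fun p => e (F p)) (c, s) (0, 1) := by
    intro e he c hc s hm
    have h1 := slice (((hs c hc s).chart he hm).differentiableAt (by simp))
    rw [← h1.deriv]
    exact dC_vel (γ := geo g (X c) (V c)) he hm (continuous_geo h _ _).continuousAt
      h1.differentiableAt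
  have hvar : ∀ (e : OpenPartialHomeomorph M E), e ∈ atlas E M → ∀ s, F (b, s) ∈ e.source →
      dC e (F (b, s)) (dM E (fun c => F (c, s)) b u) =
        fderiv ℝ (fun p => e (F p)) (b, s) (u, 0) := by
    intro e he s hm
    have h0 := hs b hV.self_of_nhds s
    have h1 := slice' ((h0.chart he hm).differentiableAt (by simp))
    have h2 : SmP E (fun c => F (c, s)) b :=
      SmP.comp (φ := fun c : A => ((c, s) : A × ℝ)) h0 (by fun_prop)
    rw [h2.dC_dM he hm, h1.fderiv]
    rfl
  have hd : ∀ s, HasDerivAt (fun s => g (F (b, s)) (vl g (X b) (V b) s)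
      (dM E (fun c => F (c, s)) b u) - s * D) 0 s := by
    intro s
    have he := chart_mem_atlas E (F (b, s))
    have hr := mem_chart_source E (F (b, s))
    set e := chartAt E (F (b, s))
    have h0 := hs b hV.self_of_nhds s
    have hev : ∀ᶠ p in 𝓝 (b, s), F p ∈ e.source :=
      h0.continuousAt.preimage_mem_nhds (e.open_source.mem_nhds hr)
    have a1 := coord (f := fun p => e (F p)) (h.cm he) (e.map_source hr)
      ((h0.chart he hr).of_le two_le) (((h.geo_spec (X b) (V b)).1.2 e he s (mem_univ _) hr).2) u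
    have a2 : (fun c => gc g e (e (F (c, s))) (fderiv ℝ (fun p => e (F p)) (c, s) (0, 1))
        (fderiv ℝ (fun p => e (F p)) (c, s) (0, 1)) / 2) =ᶠ[𝓝 b]
        fun c => g (X c) (V c) (V c) / 2 := by
      filter_upwards [hV, (tend' b s).eventually hev] with c hc hm
      rw [← hvel e he c hc s hm, gc_dC g he hm]
      have := h.energy (X c) (V c) s
      rw [← h.geo_eq] at this
      exact congrArg (· / 2) this
    rw [a2.fderiv_eq, ← hD] at a1
    have a3 := (a1.congr_of_eventuallyEq (f₁ := fun s => g (F (b, s)) (vl g (X b) (V b) s)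
      (dM E (fun c => F (c, s)) b u)) (by
        filter_upwards [(tend b s).eventually hev] with x hx
        rw [← hvel e he b hV.self_of_nhds x hx, ← hvar e he x hx, gc_dC g he hx])).sub
      ((hasDerivAt_id s).mul_const D)
    exact a3.congr_deriv (by ring)
  have h0 := is_const_of_deriv_eq_zero (fun r => (hd r).differentiableAt) (fun r => (hd r).deriv) t 0
  have h1 : (fun c => F (c, 0)) = X := funext fun c => h.geo_zero _ _
  have h2 : F (b, 0) = X b := h.geo_zero _ _
  rw [h1, h2, h.vl_zero] at h0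
  show g (F (b, t)) (vl g (X b) (V b) t) (dM E (fun c => F (c, t)) b u) =
    g (X b) (V b) (dM E X b u) + t * D
  linarith

/-- `th_flow` near `a` and the symmetry of the Hessian of the energy. -/
theorem om_flow (h : RM g) {X : A → M} {V : A → E} {a : A} (hV : ∀ᶠ c in 𝓝 a, SmV X V c) (t : ℝ)
    (u u' : A) : om g (fun c => geo g (X c) (V c) t) (fun c => vl g (X c) (V c) t) a u u' =
      om g X V a u u' := by
  set H : A → ℝ := fun c => g (X c) (V c) (V c) / 2 with hH
  have hH2 : ContDiffAt ℝ 2 H a :=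
    ((hV.self_of_nhds.inner h hV.self_of_nhds).div_const 2).of_le two_le
  have hth : ∀ w, DifferentiableAt ℝ (th g X V w) a := fun w =>
    (hV.self_of_nhds.inner h (SmP.eventually (hV.mono fun c hc => hc.1) w).self_of_nhds
      ).differentiableAt (by simp)
  have hD : ∀ w, HasFDerivAt (fun b => fderiv ℝ H b w) ((fderiv ℝ (fderiv ℝ H) a).flip w) a := by
    intro w
    have h1 : ContDiffAt ℝ 1 (fderiv ℝ H) a := hH2.fderiv_right (m := 1) (by norm_num)
    have := (h1.differentiableAt (by simp)).hasFDerivAt.clm_apply (hasFDerivAt_const w a)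
    simpa using this
  have key : ∀ w w', fderiv ℝ
      (th g (fun c => geo g (X c) (V c) t) (fun c => vl g (X c) (V c) t) w) a w' =
      fderiv ℝ (th g X V w) a w' + t * fderiv ℝ (fderiv ℝ H) a w' w := by
    intro w w'
    have e1 : th g (fun c => geo g (X c) (V c) t) (fun c => vl g (X c) (V c) t) w =ᶠ[𝓝 a]
        fun b => th g X V w b + t * fderiv ℝ H b w := by
      filter_upwards [hV.eventually_nhds] with b hb using th_flow h hb t w
    have e2 := ((hth w).hasFDerivAt.add ((hD w).const_mul t)).fderiv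
    rw [e1.fderiv_eq]
    refine (congrArg (fun L : A →L[ℝ] ℝ => L w') e2).trans ?_
    simp
  rw [om, om, key, key, symm2 hH2 u u']
  ring

/-- Chart formula: with `G = gc g e`, `z = e ∘ X`, `y b = dC e (X b) (V b)`, `e = chartAt E (X a)`. -/
theorem om_eq (h : RM g) {X : A → M} {V : A → E} {a : A} (hV : ∀ᶠ c in 𝓝 a, SmV X V c) (u u' : A) :
    om g X V a u u' = g (X a) (dv X V a u) (dM E X a u') - g (X a) (dv X V a u') (dM E X a u) +
      (fderiv ℝ (gc g (chartAt E (X a))) (chartAt E (X a) (X a)) (dM E X a u) (V a) (dM E X a u') -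
        fderiv ℝ (gc g (chartAt E (X a))) (chartAt E (X a) (X a)) (dM E X a u') (V a)
          (dM E X a u)) := by
  have he := chart_mem_atlas E (X a)
  have hr := mem_chart_source E (X a)
  have hX := hV.self_of_nhds.1
  have hz : ContDiffAt ℝ 2 (fun b => chartAt E (X a) (X b)) a := (hX.chart he hr).of_le two_le
  have hy : HasFDerivAt (fun b => dC (chartAt E (X a)) (X b) (V b)) (dv X V a) a :=
    ((hV.self_of_nhds.2 _ he hr).differentiableAt (by simp)).hasFDerivAt
  have hdz : ∀ w, fderiv ℝ (fun b => chartAt E (X a) (X b)) a w = dM E X a w := fun w => by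
    rw [← hX.dC_dM he hr, dC_chartAt]
  have hg : ∀ v w, gc g (chartAt E (X a)) (chartAt E (X a) (X a)) v w = g (X a) v w := fun v w => by
    rw [← gc_dC g he hr, dC_chartAt, dC_chartAt]
  have key : ∀ w w', fderiv ℝ (th g X V w) a w' =
      fderiv ℝ (gc g (chartAt E (X a))) (chartAt E (X a) (X a)) (dM E X a w') (V a) (dM E X a w) +
        g (X a) (dv X V a w') (dM E X a w) +
        g (X a) (V a) (fderiv ℝ (fderiv ℝ fun b => chartAt E (X a) (X b)) a w' w) := by
    intro w w'
    have e1 : th g X V w =ᶠ[𝓝 a] fun b => gc g (chartAt E (X a)) (chartAt E (X a) (X b))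
        (dC (chartAt E (X a)) (X b) (V b)) (fderiv ℝ (fun b => chartAt E (X a) (X b)) b w) := by
      filter_upwards [hV, hX.continuousAt.preimage_mem_nhds
        ((chartAt E (X a)).open_source.mem_nhds hr)] with b hb hb'
      rw [← hb.1.dC_dM he hb', gc_dC g he hb', th]
    rw [e1.fderiv_eq, (pair (f := fun b => chartAt E (X a) (X b)) ((h.cm he).differentiableAt_G ((chartAt E (X a)).map_source hr))
      (hz.differentiableAt (by simp)).hasFDerivAt hy (hasD1 hz w)).2 w', hdz, hdz, hg, hg,
      dC_chartAt, ContinuousLinearMap.flip_apply]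
  rw [om, key, key, symm2 hz u u']
  ring

/-- Chain rule through the chart coordinates of `(X, V)`. -/
theorem dM_geo_ker (h : RM g) {X : A → M} {V : A → E} {a u : A} (hV : SmV X V a)
    (hu : dM E X a u = 0) (t : ℝ) :
    dM E (fun c => geo g (X c) (V c) t) a u = JF g (X a) (V a) t (dv X V a u) := by
  have he := chart_mem_atlas E (X a)
  have hr := mem_chart_source E (X a)
  set e := chartAt E (X a) with hee
  set F : E × E → M := fun p => geo g (e.symm p.1) (dS e p.1 p.2) t with hF
  have hVa : dC e (X a) (V a) = V a := dC_chartAt _ _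
  have hs : SmP E F (e (X a), V a) :=
    ((smV_symm he (β := fun p : E × E => p.1) (W := fun p : E × E => p.2) contDiffAt_fst
      (e.map_source hr) contDiffAt_snd).flow h (T := fun _ => t) contDiffAt_const).1
  have hz : HasFDerivAt (fun b => e (X b)) (fderiv ℝ (fun b => e (X b)) a) a :=
    ((hV.1.chart he hr).differentiableAt (by simp)).hasFDerivAt
  have hy : HasFDerivAt (fun b => dC e (X b) (V b)) (dv X V a) a :=
    ((hV.2 _ he hr).differentiableAt (by simp)).hasFDerivAt
  have e1 : (fun c => geo g (X c) (V c) t) =ᶠ[𝓝 a]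
      fun c => F (e (X c), dC e (X c) (V c)) := by
    filter_upwards [hV.1.continuousAt.preimage_mem_nhds (e.open_source.mem_nhds hr)] with b hb
    simp only [hF]
    rw [dS_dC he hb, e.left_inv hb]
  have e2 := dM_comp (X := F) (φ := fun c => (e (X c), dC e (X c) (V c))) (b := a)
    (by rw [hVa]; exact hs) (hz.prodMk hy).differentiableAt u
  rw [(hz.prodMk hy).fderiv, ContinuousLinearMap.prod_apply, ← hV.1.dC_dM he hr, hu, map_zero,
    hVa] at e2
  rw [dM_congr e1, e2]
  have e3 := dM_comp (X := F) (φ := fun w : E => ((e (X a), w) : E × E)) (b := V a) hs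
    (hasFDerivAt_prodMk_right _ _).differentiableAt (dv X V a u)
  rw [(hasFDerivAt_prodMk_right _ _).fderiv, ContinuousLinearMap.inr_apply] at e3
  rw [← e3]
  have e4 : (fun w : E => F (e (X a), w)) = fun w => ex g (X a) (t • w) := by
    funext w
    simp only [hF]
    have : dS e (e (X a)) w = w := by
      conv_lhs => rw [← dC_chartAt (X a) w]
      exact dS_dC he hr w
    rw [this, e.left_inv hr, h.geo_eq]
  have e5 : HasFDerivAt (fun w : E => t • w) (t • ContinuousLinearMap.id ℝ E) (V a) :=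
    (hasFDerivAt_id (V a)).const_smul t
  rw [e4, dM_comp (X := ex g (X a)) (φ := fun w : E => t • w) (h.smP_ex _ contDiffAt_id)
    e5.differentiableAt, e5.fderiv]
  rfl

end Vale.Agent.P231
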