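import Vale.Agent.P231.Gram
import Vale.Agent.P231.SympA
import Vale.Agent.P234.LocInv

/-! Local bi-Lipschitz estimates. -/

open scoped Manifold ContDiff Topology ENNReal RealInnerProductSpace
open Set Filter Real Module

set_option linter.unusedSectionVars false
set_option maxSynthPendingDepth 3

namespace Vale.Agent.P231

open Vale.Agent.P255 Vale.Agent.P234

variable {E : Type} [NormedAddCommGroup E] [NormedSpace ℝ E] [FiniteDimensional ℝ E]
  {M : Type} [MetricSpace M] [CompactSpace M] [ChartedSpace E M] [IsManifold 𝓘(ℝ, E) ∞ M]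
  {g : M → E →L[ℝ] E →L[ℝ] ℝ} {κ : ℝ}
  {n : ℕ}

namespace AreaAAux

theorem unif {T V : Type} [TopologicalSpace T] [NormedAddCommGroup V] [NormedSpace ℝ V]
    [FiniteDimensional ℝ V] {Q : T → V → ℝ} {t₀ : T}
    (hom : ∀ t (c : ℝ) w, Q t (c • w) = c ^ 2 * Q t w)
    (cont : ∀ w, ContinuousAt (fun p : T × V => Q p.1 p.2) (t₀, w))
    (pos : ∀ w, w ≠ 0 → 0 < Q t₀ w) : ∀ᶠ t in 𝓝 t₀, ∀ w, 0 ≤ Q t w := by
  have h1 := (isCompact_sphere (0 : V) 1).eventually_forall_of_forall_eventually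
    (x₀ := t₀) (P := fun t w => 0 < Q t w) fun w hw =>
      (cont w).eventually (lt_mem_nhds (pos w (by rintro rfl; simp at hw)))
  filter_upwards [h1] with t ht w
  by_cases hw : w = 0
  · have := hom t 0 w
    rw [zero_smul] at this
    rw [hw, this]
    simp
  · have hn : 0 < ‖w‖ := norm_pos_iff.2 hw
    have h2 := ht (‖w‖⁻¹ • w) (by simp [norm_smul, hn.ne'])
    rw [hom] at h2
    exact ((mul_pos_iff_of_pos_left (by positivity)).1 h2).le

theorem upper (h : RM g) {Ψ : Eu n → M} {y₀ : Eu n} (hΨ : ∀ᶠ y in 𝓝 y₀, SmP E Ψ y)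
    {L : Eu n ≃L[ℝ] Eu n} (hL : ∀ a, g (Ψ y₀) (dM E Ψ y₀ a) (dM E Ψ y₀ a) = ‖L a‖ ^ 2) {η : ℝ}
    (hη : 0 < η) :
    ∀ᶠ z in 𝓝 (y₀, y₀), dist (Ψ z.1) (Ψ z.2) ≤ (1 + η) * dist (L z.1) (L z.2) := by
  have he := chart_mem_atlas E (Ψ y₀)
  have hr := mem_chart_source E (Ψ y₀)
  set e := chartAt E (Ψ y₀) with hee
  have h0 := hΨ.self_of_nhds
  have hf := h0.chart he hr
  have hG : ContinuousAt (gc g e) (e (Ψ y₀)) :=
    ((h.cm he).contDiffAt_G (e.map_source hr)).continuousAt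
  have hD : ContinuousAt (fderiv ℝ fun y => e (Ψ y)) y₀ := hf.continuousAt_fderiv (by simp)
  have h1 := unif (t₀ := y₀) (Q := fun y w => (1 + η) ^ 2 * ‖L w‖ ^ 2 -
      gc g e (e (Ψ y)) (fderiv ℝ (fun y => e (Ψ y)) y w) (fderiv ℝ (fun y => e (Ψ y)) y w))
    (fun t c w => by
      simp only [map_smul, smul_apply, smul_eq_mul, norm_smul, mul_pow, Real.norm_eq_abs, sq_abs]
      ring)
    (fun w => by
      have a1 : ContinuousAt (fun p : Eu n × Eu n => gc g e (e (Ψ p.1))) (y₀, w) :=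
        ContinuousAt.comp (f := fun p : Eu n × Eu n => e (Ψ p.1)) (x := (y₀, w)) hG
          (ContinuousAt.comp (f := fun p : Eu n × Eu n => p.1) (x := (y₀, w)) hf.continuousAt
            continuousAt_fst)
      have a2 : ContinuousAt (fun p : Eu n × Eu n => fderiv ℝ (fun y => e (Ψ y)) p.1 p.2) (y₀, w) :=
        (ContinuousAt.comp (f := fun p : Eu n × Eu n => p.1) hD continuousAt_fst).clm_apply
          continuousAt_snd
      exact ContinuousAt.sub (by fun_prop) ((a1.clm_apply a2).clm_apply a2))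
    (fun w hw => by
      have a1 : 0 < ‖L w‖ := norm_pos_iff.2 (by simpa using hw)
      rw [← h0.dC_dM he hr, gc_dC g he hr, hL]
      nlinarith [mul_pos (mul_pos hη hη) (mul_pos a1 a1), mul_pos hη (mul_pos a1 a1)])
  have h2 : ∀ᶠ y in 𝓝 y₀, SmP E Ψ y ∧ ∀ w, nr g (Ψ y) (dM E Ψ y w) ≤ (1 + η) * ‖L w‖ := by
    filter_upwards [hΨ, h1, h0.continuousAt.preimage_mem_nhds (e.open_source.mem_nhds hr)]
      with y a1 a2 a3
    refine ⟨a1, fun w => ?_⟩
    have a4 := a2 w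
    rw [← a1.dC_dM he a3, gc_dC g he a3, ← h.nr_sq, ← mul_pow, sub_nonneg] at a4
    exact (sq_le_sq₀ (nr_nonneg _ _) (by positivity)).1 a4
  obtain ⟨ρ, hρ, h3⟩ := Metric.eventually_nhds_iff_ball.1 h2
  filter_upwards [prod_mem_nhds (Metric.ball_mem_nhds y₀ hρ) (Metric.ball_mem_nhds y₀ hρ)]
    with z hz
  have h4 := h.len (fun t => Ψ (z.2 + t • (z.1 - z.2))) 0 1 ((1 + η) * ‖L (z.1 - z.2)‖)
    zero_le_one (by
    intro t ht
    obtain ⟨a1, a2⟩ := h3 _ ((convex_ball y₀ ρ).add_smul_sub_mem hz.2 hz.1 ht)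
    have a3 : SmP E (fun t : ℝ => Ψ (z.2 + t • (z.1 - z.2))) t :=
      SmP.comp (φ := fun t : ℝ => z.2 + t • (z.1 - z.2)) a1 (by fun_prop)
    refine ⟨ContMDiffAt.of_le a3 (by simp), ?_⟩
    have a4 : HasDerivAt (fun s : ℝ => z.2 + s • (z.1 - z.2)) (z.1 - z.2) t := by
      simpa using ((hasDerivAt_id t).smul_const (z.1 - z.2)).const_add z.2
    have a5 := dM_comp (X := Ψ) (φ := fun s : ℝ => z.2 + s • (z.1 - z.2)) (b := t) a1
      a4.differentiableAt 1
    rw [fderiv_apply_one_eq_deriv, a4.deriv] at a5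
    rw [vel, a5]
    exact a2 _)
  rw [dist_comm, dist_eq_norm (L z.1), ← map_sub]
  simpa using h4

theorem lower (h : RM g) {Ψ : Eu n → M} {y₀ : Eu n} (hΨ : ∀ᶠ y in 𝓝 y₀, SmP E Ψ y)
    {ι : Eu n ≃L[ℝ] E} (hι : ∀ a, g (Ψ y₀) (ι a) (ι a) = ‖a‖ ^ 2)
    {L : Eu n ≃L[ℝ] Eu n} (hL : ∀ a, ι (L a) = dM E Ψ y₀ a) {η : ℝ} (hη : 0 < η) :
    ∀ᶠ z in 𝓝 (y₀, y₀), dist (L z.1) (L z.2) ≤ (1 + η) * dist (Ψ z.1) (Ψ z.2) := by
  have he := chart_mem_atlas E (Ψ y₀)
  have hr := mem_chart_source E (Ψ y₀)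
  have hdC := dC_chartAt (E := E) (Ψ y₀)
  set e := chartAt E (Ψ y₀) with hee
  have h0 := hΨ.self_of_nhds
  have hsrc := h0.continuousAt.preimage_mem_nhds (e.open_source.mem_nhds hr)
  set F : Eu n → Eu n := fun y => ι.symm (e (Ψ y)) with hF
  have hFs : ∀ᶠ y in 𝓝 y₀, ContDiffAt ℝ ∞ F y := by
    filter_upwards [hΨ, hsrc] with y a1 a2
    exact ι.symm.contDiff.contDiffAt.comp y (a1.chart he a2)
  have hFd : HasFDerivAt F (L : Eu n →L[ℝ] Eu n) y₀ := by
    have a1 := ι.symm.hasFDerivAt.comp y₀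
      ((h0.chart he hr).differentiableAt (by simp)).hasFDerivAt
    refine a1.congr_fderiv ?_
    ext1 a
    simp only [ContinuousLinearMap.comp_apply, ContinuousLinearEquiv.coe_coe]
    rw [← h0.dC_dM he hr, hdC, ← hL, ι.symm_apply_apply]
  obtain ⟨G, hG1, hG2⟩ := LocInvAux.inv hFs (fun u hu => by
    rw [hFd.fderiv] at hu
    simpa using hu)
  have hG0 := hG2.self_of_nhds.2
  have hGd : ∀ c, L (fderiv ℝ G (F y₀) c) = c := by
    intro c
    have a1 := ((hG0.differentiableAt (by simp)).hasFDerivAt.comp y₀ hFd).unique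
      ((hasFDerivAt_id y₀).congr_of_eventuallyEq hG1)
    have a2 := congrArg (fun T : Eu n →L[ℝ] Eu n => L (T (L.symm c))) a1
    simpa using a2
  have hGc : ContinuousAt (gc g e) (e (Ψ y₀)) :=
    ((h.cm he).contDiffAt_G (e.map_source hr)).continuousAt
  have hD : ContinuousAt (fun b => fderiv ℝ G (ι.symm b)) (e (Ψ y₀)) :=
    ContinuousAt.comp (f := fun b => ι.symm b) (hG0.continuousAt_fderiv (by simp))
      ι.symm.continuous.continuousAt
  have h1 := unif (t₀ := e (Ψ y₀)) (Q := fun b w => (1 + η) ^ 2 * gc g e b w w -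
      ‖L (fderiv ℝ G (ι.symm b) (ι.symm w))‖ ^ 2)
    (fun t c w => by
      simp only [map_smul, smul_apply, smul_eq_mul, norm_smul, mul_pow, Real.norm_eq_abs, sq_abs]
      ring)
    (fun w => by
      have a1 : ContinuousAt (fun p : E × E => gc g e p.1) (e (Ψ y₀), w) :=
        ContinuousAt.comp (f := fun p : E × E => p.1) (x := (e (Ψ y₀), w)) hGc continuousAt_fst
      have a2 : ContinuousAt (fun p : E × E => fderiv ℝ G (ι.symm p.1) (ι.symm p.2))
          (e (Ψ y₀), w) :=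
        (ContinuousAt.comp (f := fun p : E × E => p.1) (x := (e (Ψ y₀), w)) hD
          continuousAt_fst).clm_apply (ι.symm.continuous.comp continuous_snd).continuousAt
      exact (continuousAt_const.mul ((a1.clm_apply continuousAt_snd).clm_apply
        continuousAt_snd)).sub ((L.continuous.continuousAt.comp a2).norm.pow 2))
    (fun w hw => by
      have a1 : 0 < ‖ι.symm w‖ := norm_pos_iff.2 (by simpa using hw)
      have a2 : gc g e (e (Ψ y₀)) w w = ‖ι.symm w‖ ^ 2 := by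
        rw [← hι, ι.apply_symm_apply, ← gc_dC g he hr, hdC]
      rw [hGd, a2]
      nlinarith [mul_pos (mul_pos hη hη) (mul_pos a1 a1), mul_pos hη (mul_pos a1 a1)])
  have hec : ContinuousAt e (Ψ y₀) := e.continuousAt hr
  have h2 : ∀ᶠ m in 𝓝 (Ψ y₀), m ∈ e.source ∧ ContDiffAt ℝ ∞ G (ι.symm (e m)) ∧
      ∀ w, ‖L (fderiv ℝ G (ι.symm (e m)) (ι.symm w))‖ ≤ (1 + η) * √(gc g e (e m) w w) := by
    have a0 : ContinuousAt (fun m => ι.symm (e m)) (Ψ y₀) :=
      ι.symm.continuous.continuousAt.comp hec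
    filter_upwards [e.open_source.mem_nhds hr, hec.eventually h1, a0.eventually hG2]
      with m a1 a2 a3
    refine ⟨a1, a3.2, fun w => ?_⟩
    have a4 := a2 w
    have a5 : 0 ≤ gc g e (e m) w w := by
      rw [gc_apply]
      exact h.nonneg _ _
    refine (sq_le_sq₀ (norm_nonneg _) (by positivity)).1 ?_
    rw [mul_pow, Real.sq_sqrt a5]
    linarith
  obtain ⟨ρ, hρ, h3⟩ := Metric.eventually_nhds_iff_ball.1 h2
  have h4 : ∀ᶠ y in 𝓝 y₀, Ψ y ∈ Metric.ball (Ψ y₀) (ρ / 4) ∧ G (F y) = y :=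
    (h0.continuousAt.eventually (Metric.ball_mem_nhds _ (by positivity))).and hG1
  filter_upwards [prod_mem_nhds h4 h4] with z hz
  obtain ⟨⟨b1, b2⟩, b3, b4⟩ := hz
  rw [Metric.mem_ball] at b1 b3
  set d := L z.2 - L z.1 with hd
  rw [dist_comm (L z.1), dist_eq_norm, ← hd]
  rcases (norm_nonneg d).eq_or_lt with hd0 | hd0
  · rw [← hd0]
    positivity
  have hc : 0 < (1 + η) * ‖d‖ := by positivity
  have h5 := h.cal e he (fun b => ((1 + η) * ‖d‖)⁻¹ * ⟪d, L (G (ι.symm b))⟫) (Ψ z.1) (Ψ z.2)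
    (ρ / 2) (by linarith [dist_triangle_right (Ψ z.1) (Ψ z.2) (Ψ y₀)]) (by
    intro m hm
    rw [Metric.mem_ball] at hm
    obtain ⟨a1, a2, a3⟩ := h3 m (by
      rw [Metric.mem_ball]
      linarith [dist_triangle m (Ψ z.1) (Ψ y₀)])
    have a4 : ContDiffAt ℝ 1 (fun b => L (G (ι.symm b))) (e m) :=
      L.contDiff.contDiffAt.comp _ (ContDiffAt.comp (f := fun b => ι.symm b) _
        (a2.of_le (by simp)) ι.symm.contDiff.contDiffAt)
    refine ⟨a1, contDiffAt_const.mul (contDiffAt_const.inner ℝ a4), fun w => ?_⟩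
    have a5 : HasFDerivAt (fun b => L (G (ι.symm b)))
        ((L : Eu n →L[ℝ] Eu n).comp ((fderiv ℝ G (ι.symm (e m))).comp
          (ι.symm : E →L[ℝ] Eu n))) (e m) :=
      L.hasFDerivAt.comp _ ((a2.differentiableAt (by simp)).hasFDerivAt.comp _ ι.symm.hasFDerivAt)
    have a6 := (((innerSL ℝ d).hasFDerivAt.comp _ a5).const_mul ((1 + η) * ‖d‖)⁻¹).fderiv
    refine (congrArg (fun T : E →L[ℝ] ℝ => T w) a6).trans_le ?_
    simp only [smul_apply, ContinuousLinearMap.comp_apply, ContinuousLinearEquiv.coe_coe,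
      innerSL_apply_apply, smul_eq_mul]
    rw [inv_mul_le_iff₀ hc]
    refine (real_inner_le_norm _ _).trans ?_
    nlinarith [mul_le_mul_of_nonneg_left (a3 w) hd0.le])
  have e1 : G (ι.symm (e (Ψ z.1))) = z.1 := b2
  have e2 : G (ι.symm (e (Ψ z.2))) = z.2 := b4
  rw [e1, e2, ← mul_sub, ← inner_sub_right, ← hd, real_inner_self_eq_norm_sq,
    inv_mul_le_iff₀ hc] at h5
  have := (mul_le_mul_iff_right₀ hd0).1 (show ‖d‖ * ‖d‖ ≤ ‖d‖ * ((1 + η) * dist (Ψ z.1) (Ψ z.2))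
    by nlinarith)
  exact this

end AreaAAux

/-- `L` with `⟪L a, L b⟫ = g (dΨ a) (dΨ b)` at `y₀`. Upper bound: `h.len` along segments. Lower bound: `h.cal`
for `F = (1 + η)⁻¹ ⟪ℓ, L (φ ·)⟫`, `‖ℓ‖ = 1`, `φ` the local inverse of `e ∘ Ψ` (inverse function theorem,
see `P234/LocInv.lean`). -/
theorem bilip (h : RM g) (hn : n = finrank ℝ E) {Ψ : Eu n → M} {y₀ : Eu n}
    (hΨ : ∀ᶠ y in 𝓝 y₀, SmP E Ψ y) (hi : ∀ w, dM E Ψ y₀ w = 0 → w = 0) {η : ℝ} (hη : 0 < η) :
    ∃ L : Eu n ≃L[ℝ] Eu n,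
      |LinearMap.det (L : Eu n →ₗ[ℝ] Eu n)| =
        √(gd (g (Ψ y₀)) fun i => dM E Ψ y₀ (EuclideanSpace.single i 1)) ∧
      ∀ᶠ z in 𝓝 (y₀, y₀), dist (Ψ z.1) (Ψ z.2) ≤ (1 + η) * dist (L z.1) (L z.2) ∧
        dist (L z.1) (L z.2) ≤ (1 + η) * dist (Ψ z.1) (Ψ z.2) := by
  subst hn
  obtain ⟨ι, hι⟩ := exists_iso h (Ψ y₀) one_pos
  simp only [one_pow, one_mul] at hι
  set T : Eu (finrank ℝ E) →L[ℝ] Eu (finrank ℝ E) :=
    (ι.symm : E →L[ℝ] Eu (finrank ℝ E)).comp (dM E Ψ y₀) with hT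
  have hinj : Function.Injective (T : Eu (finrank ℝ E) →ₗ[ℝ] Eu (finrank ℝ E)) :=
    (injective_iff_map_eq_zero _).2 fun w hw => hi w (by simpa [hT] using hw)
  set L := (LinearEquiv.ofInjectiveEndo _ hinj).toContinuousLinearEquiv with hLd
  have hL : ∀ a, ι (L a) = dM E Ψ y₀ a := fun a => ι.apply_symm_apply _
  refine ⟨L, ?_, (AreaAAux.upper h hΨ (fun a => ?_) hη).and
    (AreaAAux.lower h hΨ (fun a => ?_) hL hη)⟩
  · set b := (EuclideanSpace.basisFun (Fin (finrank ℝ E)) ℝ).toBasis with hb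
    have h1 := gd_mul (g (Ψ y₀)) (fun i => ι (b i))
      (LinearMap.toMatrix b b (L : Eu (finrank ℝ E) →ₗ[ℝ] Eu (finrank ℝ E)))
    have h2 : gd (g (Ψ y₀)) (fun i => ι (b i)) = 1 := by
      rw [gd, ← Matrix.det_one (n := Fin (finrank ℝ E))]
      congr 1
      ext i j
      simp [hι, hb, Matrix.one_apply, EuclideanSpace.inner_single_left, PiLp.single_apply]
    have h3 : (fun j => ∑ i, LinearMap.toMatrix b b
        (L : Eu (finrank ℝ E) →ₗ[ℝ] Eu (finrank ℝ E)) i j • ι (b i)) =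
        fun i => dM E Ψ y₀ (EuclideanSpace.single i 1) := by
      funext j
      rw [← hL]
      simp only [← map_smul, ← map_sum, LinearMap.toMatrix_apply]
      rw [b.sum_repr]
      simp [hb]
    rw [h3, h2, mul_one, LinearMap.det_toMatrix] at h1
    rw [h1, Real.sqrt_sq_eq_abs]
  · rw [← hL, hι, real_inner_self_eq_norm_sq]
  · rw [hι, real_inner_self_eq_norm_sq]

theorem continuousAt_gd (h : RM g) {Ψ : Eu n → M} {y₀ : Eu n} (hΨ : ∀ᶠ y in 𝓝 y₀, SmP E Ψ y) :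
    ContinuousAt (fun y => gd (g (Ψ y)) fun i => dM E Ψ y (EuclideanSpace.single i 1)) y₀ := by
  have h1 : ContinuousAt (fun y => (Matrix.of fun i j : Fin n => g (Ψ y)
      (dM E Ψ y (EuclideanSpace.single i 1)) (dM E Ψ y (EuclideanSpace.single j 1)))) y₀ :=
    continuousAt_pi.2 fun i => continuousAt_pi.2 fun j =>
      ((SmP.eventually hΨ _).self_of_nhds.inner h (SmP.eventually hΨ _).self_of_nhds).continuousAt
  exact (continuous_id.matrix_det).continuousAt.comp h1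

end Vale.Agent.P231
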