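import Vale.Agent.P231.Base

/-! The cancellation identity of Kazdan. -/

open scoped Topology Matrix
open Set Filter Real Module

set_option linter.unusedSectionVars false

namespace Vale.Agent.P231

variable {d K H : Type} [Fintype d] [DecidableEq d] [Fintype K] [Fintype H] [DecidableEq K]
  [DecidableEq H]

open MeasureTheory

namespace KazAux

/-- primitive of the weighted function -/
noncomputable def ZZ (u : ℝ → ℝ) (t : ℝ) : ℝ := ∫ s in π / 2..t, u s / sin s ^ 2

theorem contOn {u : ℝ → ℝ} (hu : ContinuousOn u (Icc 0 π)) :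
    ContinuousOn (fun s => u s / sin s ^ 2) (Ioo 0 π) :=
  (hu.mono Ioo_subset_Icc_self).div (by fun_prop) fun s hs =>
    pow_ne_zero _ (sin_pos_of_mem_Ioo hs).ne'

theorem half_mem : π / 2 ∈ Ioo 0 π := ⟨by positivity, by linarith [pi_pos]⟩

theorem intInt {u : ℝ → ℝ} (hu : ContinuousOn u (Icc 0 π)) {x y : ℝ} (hx : x ∈ Ioo 0 π)
    (hy : y ∈ Ioo 0 π) : IntervalIntegrable (fun s => u s / sin s ^ 2) volume x y :=
  ((contOn hu).mono (ordConnected_Ioo.uIcc_subset hx hy)).intervalIntegrable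

theorem ZZ_deriv {u : ℝ → ℝ} (hu : ContinuousOn u (Icc 0 π)) {t : ℝ} (ht : t ∈ Ioo 0 π) :
    HasDerivAt (ZZ u) (u t / sin t ^ 2) t :=
  intervalIntegral.integral_hasDerivAt_right (intInt hu half_mem ht)
    ((contOn hu).stronglyMeasurableAtFilter isOpen_Ioo t ht)
    ((contOn hu).continuousAt (isOpen_Ioo.mem_nhds ht))

theorem ZZ_const (C : ℝ) {t : ℝ} (ht : t ∈ Ioo 0 π) :
    ∫ s in π / 2..t, C / sin s ^ 2 = -(C * cos t / sin t) := by
  have h := intervalIntegral.integral_eq_sub_of_hasDerivAt (a := π / 2) (b := t)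
    (f := fun s => -(C * cos s / sin s)) (f' := fun s => C / sin s ^ 2) (fun s hs => by
      have hs' := (sin_pos_of_mem_Ioo (ordConnected_Ioo.uIcc_subset half_mem ht hs)).ne'
      have h1 := (((hasDerivAt_cos s).const_mul C).div (hasDerivAt_sin s) hs').neg
      refine h1.congr_deriv ?_
      have := sin_sq_add_cos_sq s
      field_simp
      linear_combination C * this) (intInt (u := fun _ => C) continuousOn_const half_mem ht)
  rw [h]
  simp

theorem y_bound {u : ℝ → ℝ} (hu : ContinuousOn u (Icc 0 π)) :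
    ∃ C, ∀ t ∈ Ioo 0 π, |sin t * ZZ u t| ≤ C := by
  obtain ⟨C, hC⟩ := isCompact_Icc.exists_bound_of_continuousOn hu
  have hC0 : 0 ≤ C := (norm_nonneg _).trans (hC 0 ⟨le_rfl, pi_pos.le⟩)
  refine ⟨C, fun t ht => ?_⟩
  have hs := sin_pos_of_mem_Ioo ht
  have h1 : ‖ZZ u t‖ ≤ |∫ s in π / 2..t, C / sin s ^ 2| := by
    refine intervalIntegral.norm_integral_le_abs_of_norm_le ?_
      (intInt (u := fun _ => C) continuousOn_const half_mem ht)
    refine (ae_restrict_iff' measurableSet_uIoc).2 (Eventually.of_forall fun s hs => ?_)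
    have hs' := ordConnected_Ioo.uIcc_subset half_mem ht (uIoc_subset_uIcc hs)
    rw [norm_div, Real.norm_of_nonneg (sq_nonneg (sin s))]
    exact div_le_div_of_nonneg_right (hC s (Ioo_subset_Icc_self hs')) (sq_nonneg _)
  rw [ZZ_const C ht, abs_neg, abs_div, abs_of_pos hs, Real.norm_eq_abs, le_div_iff₀ hs,
    abs_mul, abs_of_nonneg hC0] at h1
  rw [abs_mul, abs_of_pos hs, mul_comm]
  exact h1.trans (mul_le_of_le_one_right hC0 (abs_cos_le_one t))

theorem y_int {u : ℝ → ℝ} (hu : ContinuousOn u (Icc 0 π)) :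
    IntervalIntegrable (fun t => sin t * ZZ u t) volume 0 π := by
  obtain ⟨C, hC⟩ := y_bound hu
  rw [intervalIntegrable_iff_integrableOn_Ioo_of_le pi_pos.le]
  have hc : ContinuousOn (fun t => sin t * ZZ u t) (Ioo 0 π) := fun t ht =>
    (continuous_sin.continuousAt.mul (ZZ_deriv hu ht).continuousAt).continuousWithinAt
  exact Integrable.of_bound (hc.aestronglyMeasurable measurableSet_Ioo) C
    ((ae_restrict_iff' measurableSet_Ioo).2 (Eventually.of_forall hC))

theorem y_cos {u : ℝ → ℝ} (hu : ContinuousOn u (Icc 0 π)) :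
    ∫ t in (0 : ℝ)..π, (2 * cos t * (sin t * ZZ u t) + u t) = 0 := by
  obtain ⟨C, hC⟩ := y_bound hu
  have hlim : ∀ l : Filter ℝ, (∀ᶠ t in l, t ∈ Ioo 0 π) → Tendsto sin l (𝓝 0) →
      Tendsto (fun t => sin t * (sin t * ZZ u t)) l (𝓝 0) := by
    intro l h1 h2
    refine NormedField.tendsto_zero_smul_of_tendsto_zero_of_bounded (𝕜 := ℝ) h2
      (isBoundedUnder_of_eventually_le (a := C) ?_)
    filter_upwards [h1] with t ht using hC t ht
  have h := intervalIntegral.integral_eq_sub_of_hasDerivAt_of_tendsto pi_pos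
    (f := fun t => sin t * (sin t * ZZ u t))
    (f' := fun t => 2 * cos t * (sin t * ZZ u t) + u t) (fa := 0) (fb := 0) (fun t ht => by
      have hs := (sin_pos_of_mem_Ioo ht).ne'
      refine ((hasDerivAt_sin t).mul ((hasDerivAt_sin t).mul (ZZ_deriv hu ht))).congr_deriv ?_
      simp only [Pi.mul_apply]
      field_simp
      ring)
    (((y_int hu).continuousOn_mul (by fun_prop)).add
      (hu.intervalIntegrable_of_Icc pi_pos.le))
    (hlim _ (Ioo_mem_nhdsGT pi_pos)
      ((continuous_sin.tendsto' 0 0 sin_zero).mono_left nhdsWithin_le_nhds))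
    (hlim _ (Ioo_mem_nhdsLT pi_pos)
      ((continuous_sin.tendsto' π 0 sin_pi).mono_left nhdsWithin_le_nhds))
  rw [h, sub_zero]

theorem one {u : ℝ → ℝ} (hu : ContinuousOn u (Icc 0 π)) {r : ℝ} (hr : r ∈ Ioo 0 π) :
    IntervalIntegrable (fun x => av2 u x (x + r)) volume 0 (π - r) ∧
    (∫ x in (0 : ℝ)..π - r, av2 u x (x + r)) =
      ((∫ t in r..π, sin (t - r) * (sin t * ZZ u t)) -
        ∫ t in (0 : ℝ)..π - r, sin (t + r) * (sin t * ZZ u t)) / sin r := by
  have hr' : 0 ≤ π - r := by linarith [hr.2]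
  have hs := (sin_pos_of_mem_Ioo hr).ne'
  have hy := y_int hu
  have h1 : IntervalIntegrable (fun t => sin (t - r) * (sin t * ZZ u t)) volume r π :=
    (hy.mono_set (by
      rw [uIcc_of_le hr.2.le, uIcc_of_le pi_pos.le]
      exact Icc_subset_Icc hr.1.le le_rfl)).continuousOn_mul (by fun_prop)
  have h2 : IntervalIntegrable (fun t => sin (t + r) * (sin t * ZZ u t)) volume 0 (π - r) :=
    (hy.mono_set (by
      rw [uIcc_of_le hr', uIcc_of_le pi_pos.le]
      exact Icc_subset_Icc le_rfl (by linarith [hr.1]))).continuousOn_mul (by fun_prop)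
  have h3 := h1.comp_add_right r
  rw [sub_self] at h3
  have e : EqOn (fun x => av2 u x (x + r))
      (fun x => (sin (x + r - r) * (sin (x + r) * ZZ u (x + r)) -
        sin (x + r) * (sin x * ZZ u x)) / sin r) (Ioo 0 (π - r)) := by
    intro x hx
    have hx1 : x ∈ Ioo 0 π := ⟨hx.1, by linarith [hx.2, hr.1]⟩
    have hx2 : x + r ∈ Ioo 0 π := ⟨by linarith [hx.1, hr.1], by linarith [hx.2]⟩
    have h4 := intervalIntegral.integral_interval_sub_left (intInt hu half_mem hx2)
      (intInt hu half_mem hx1)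
    have s1 := (sin_pos_of_mem_Ioo hx1).ne'
    have s2 := (sin_pos_of_mem_Ioo hx2).ne'
    simp only [av2, ← h4, add_sub_cancel_left, add_sub_cancel_right, ZZ]
    field_simp
  have h5 := (h3.sub h2).div_const (sin r)
  constructor
  · rw [intervalIntegrable_iff_integrableOn_Ioo_of_le hr'] at h5 ⊢
    exact h5.congr_fun e.symm measurableSet_Ioo
  · rw [intervalIntegral.integral_congr_Ioo_of_le hr' e, intervalIntegral.integral_div,
      intervalIntegral.integral_sub h3 h2,
      intervalIntegral.integral_comp_add_right (fun t => sin (t - r) * (sin t * ZZ u t)),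
      zero_add, sub_add_cancel]

theorem av1_eq (u : ℝ → ℝ) {a : ℝ} (ha : a = 0 ∨ a = π / 2) (x y : ℝ) :
    av1 u x y = av2 (fun s => u (a + s / 2)) (2 * (x - a)) (2 * (y - a)) := by
  obtain ⟨ε, hε, h⟩ : ∃ ε : ℝ, ε * ε = 1 ∧ ∀ t, sin (2 * (t - a)) = ε * (2 * (sin t * cos t)) := by
    rcases ha with rfl | rfl
    · exact ⟨1, one_mul _, fun t => by rw [sub_zero, sin_two_mul]; ring⟩
    · exact ⟨-1, by norm_num, fun t => by
        rw [show 2 * (t - π / 2) = 2 * t - π by ring, sin_sub_pi, sin_two_mul]; ring⟩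
  have h1 := intervalIntegral.integral_comp_mul_sub (a := x) (b := y)
    (fun s => u (a + s / 2) / sin s ^ 2) (c := 2) two_ne_zero (2 * a)
  have h2 : (fun t => u (a + (2 * t - 2 * a) / 2) / sin (2 * t - 2 * a) ^ 2) =
      fun t => u t / (sin t * cos t) ^ 2 / 4 := by
    funext t
    rw [show a + (2 * t - 2 * a) / 2 = t by ring, ← mul_sub, h, mul_pow, sq ε, hε, div_div]
    congr 1
    ring
  rw [h2, intervalIntegral.integral_div, ← mul_sub, ← mul_sub, smul_eq_mul] at h1
  have h3 : ∫ s in 2 * (x - a)..2 * (y - a), u (a + s / 2) / sin s ^ 2 =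
      (∫ t in x..y, u t / (sin t * cos t) ^ 2) / 2 := by linarith
  have h4 : ε * (2 * (sin x * cos x)) * (ε * (2 * (sin y * cos y))) =
      4 * (sin x * cos x * (sin y * cos y)) := by
    linear_combination (4 * (sin x * cos x * (sin y * cos y))) * hε
  rw [av1, av2, h3, h, h, h4, show 2 * (y - a) - 2 * (x - a) = 2 * (y - x) by ring, sin_two_mul,
    div_div_eq_mul_div, div_div_eq_mul_div]
  by_cases h5 : sin (y - x) * cos (y - x) = 0
  · rw [h5, mul_assoc 2, h5]
    simp
  · have h6 := left_ne_zero_of_mul h5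
    have h7 := right_ne_zero_of_mul h5
    field_simp
    ring

theorem scale {f : ℝ → ℝ} (a b : ℝ) (hf : IntervalIntegrable f volume 0 (2 * b)) :
    IntervalIntegrable (fun x => f (2 * (x - a))) volume a (a + b) ∧
      ∫ x in a..a + b, f (2 * (x - a)) = (∫ s in (0 : ℝ)..2 * b, f s) / 2 := by
  constructor
  · have h1 := (hf.comp_mul_left (c := 2)).comp_sub_right a
    rwa [zero_div, zero_add, mul_div_cancel_left₀ b two_ne_zero, add_comm b] at h1
  · rw [intervalIntegral.integral_comp_sub_right (fun x => f (2 * x)),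
      intervalIntegral.integral_comp_mul_left f two_ne_zero, sub_self, mul_zero,
      add_sub_cancel_left, smul_eq_mul]
    ring

end KazAux

/-- `Z t = ∫ s in π/2..t, u s / sin s ^ 2`, `y t = sin t * Z t` is continuous on `(0, π)` and bounded
(`|Z| ≤ C |cot|`). `sin r * av2 u x (x + r) = sin x * y (x + r) - sin (x + r) * y x`. After translating, the sum
is `∫ t in 0..π, y t * (sin (t - r) - sin (t + r)) = -2 sin r ∫ sin cos Z`, and `(sin² Z)' = 2 sin cos Z + u`,
`sin² Z → 0` at both ends. -/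
theorem kaz2 {u : ℝ → ℝ} (hu : ContinuousOn u (Icc 0 π)) {r : ℝ} (hr : r ∈ Ioo 0 π) :
    IntervalIntegrable (fun x => av2 u x (x + r)) volume 0 (π - r) ∧
    IntervalIntegrable (fun x => av2 u x (x + (π - r))) volume 0 r ∧
    (∫ x in (0 : ℝ)..π - r, av2 u x (x + r)) + ∫ x in (0 : ℝ)..r, av2 u x (x + (π - r)) =
      ∫ x in (0 : ℝ)..π, u x := by
  have hr' : π - r ∈ Ioo 0 π := ⟨by linarith [hr.2], by linarith [hr.1]⟩
  obtain ⟨i1, e1⟩ := KazAux.one hu hr
  obtain ⟨i2, e2⟩ := KazAux.one hu hr'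
  rw [sub_sub_cancel] at i2 e2
  refine ⟨i1, i2, ?_⟩
  have hs := (sin_pos_of_mem_Ioo hr).ne'
  have hy := KazAux.y_int hu
  have sub : ∀ (f : ℝ → ℝ), Continuous f → ∀ c ∈ Ioo 0 π,
      (∫ t in (0 : ℝ)..c, f t * (sin t * KazAux.ZZ u t)) +
        ∫ t in c..π, f t * (sin t * KazAux.ZZ u t) =
      ∫ t in (0 : ℝ)..π, f t * (sin t * KazAux.ZZ u t) := by
    intro f hf c hc
    have h0 := hy.continuousOn_mul hf.continuousOn
    refine intervalIntegral.integral_add_adjacent_intervals (h0.mono_set ?_) (h0.mono_set ?_)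
    · rw [uIcc_of_le hc.1.le, uIcc_of_le pi_pos.le]
      exact Icc_subset_Icc le_rfl hc.2.le
    · rw [uIcc_of_le hc.2.le, uIcc_of_le pi_pos.le]
      exact Icc_subset_Icc hc.1.le le_rfl
  have a1 := sub (fun t => sin (t - r)) (by fun_prop) r hr
  have a2 := sub (fun t => sin (t + r)) (by fun_prop) (π - r) hr'
  have b1 : (fun t => sin (t - (π - r)) * (sin t * KazAux.ZZ u t)) =
      fun t => -(sin (t + r) * (sin t * KazAux.ZZ u t)) := by
    funext t
    rw [show t - (π - r) = t + r - π by ring, sin_sub_pi, neg_mul]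
  have b2 : (fun t => sin (t + (π - r)) * (sin t * KazAux.ZZ u t)) =
      fun t => -(sin (t - r) * (sin t * KazAux.ZZ u t)) := by
    funext t
    rw [show t + (π - r) = t - r + π by ring, sin_add_pi, neg_mul]
  rw [b1, b2, intervalIntegral.integral_neg, intervalIntegral.integral_neg, sin_pi_sub] at e2
  have c1 := KazAux.y_cos hu
  have j1 : IntervalIntegrable (fun t => 2 * cos t * (sin t * KazAux.ZZ u t)) volume 0 π :=
    hy.continuousOn_mul (by fun_prop)
  rw [intervalIntegral.integral_add j1 (hu.intervalIntegrable_of_Icc pi_pos.le)] at c1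
  have c2 : (∫ t in (0 : ℝ)..π, sin (t - r) * (sin t * KazAux.ZZ u t)) -
      ∫ t in (0 : ℝ)..π, sin (t + r) * (sin t * KazAux.ZZ u t) =
      -sin r * ∫ t in (0 : ℝ)..π, 2 * cos t * (sin t * KazAux.ZZ u t) := by
    rw [← intervalIntegral.integral_sub (hy.continuousOn_mul (by fun_prop))
      (hy.continuousOn_mul (by fun_prop)), ← intervalIntegral.integral_const_mul]
    congr 1
    funext t
    rw [sin_sub, sin_add]
    ring
  rw [e1, e2, ← add_div, div_eq_iff hs]
  linear_combination a1 - a2 + c2 - sin r * c1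

/-- `av1 u x y = av2 (fun s => u (a + s / 2)) (2 * (x - a)) (2 * (y - a))`. -/
theorem kaz1 {u : ℝ → ℝ} {a : ℝ} (ha : a = 0 ∨ a = π / 2) (hu : ContinuousOn u (Icc a (a + π / 2)))
    {r : ℝ} (hr : r ∈ Ioo 0 (π / 2)) :
    IntervalIntegrable (fun x => av1 u x (x + r)) volume a (a + (π / 2 - r)) ∧
    IntervalIntegrable (fun x => av1 u x (x + (π / 2 - r))) volume a (a + r) ∧
    (∫ x in a..a + (π / 2 - r), av1 u x (x + r)) + ∫ x in a..a + r, av1 u x (x + (π / 2 - r)) =
      ∫ x in a..a + π / 2, u x := by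
  have hv : ContinuousOn (fun s => u (a + s / 2)) (Icc 0 π) :=
    hu.comp (by fun_prop) fun s hs => ⟨by linarith [hs.1], by linarith [hs.2]⟩
  have hr' : 2 * r ∈ Ioo 0 π := ⟨by linarith [hr.1], by linarith [hr.2]⟩
  obtain ⟨i1, i2, e⟩ := kaz2 hv hr'
  rw [show π - 2 * r = 2 * (π / 2 - r) by ring] at i1 i2 e
  obtain ⟨j1, e1⟩ := KazAux.scale a _ i1
  obtain ⟨j2, e2⟩ := KazAux.scale a _ i2
  obtain ⟨-, e3⟩ := KazAux.scale (f := fun s => u (a + s / 2)) a (π / 2) (by
    rw [mul_div_cancel₀ π two_ne_zero]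
    exact hv.intervalIntegrable_of_Icc pi_pos.le)
  have b : ∀ c, (fun x => av1 u x (x + c)) =
      fun x => av2 (fun s => u (a + s / 2)) (2 * (x - a)) (2 * (x - a) + 2 * c) := by
    intro c
    funext x
    rw [KazAux.av1_eq u ha, show 2 * (x + c - a) = 2 * (x - a) + 2 * c by ring]
  have b3 : (fun x => u (a + 2 * (x - a) / 2)) = u := by
    funext x
    rw [show a + 2 * (x - a) / 2 = x by ring]
  rw [b3, mul_div_cancel₀ π two_ne_zero] at e3
  rw [b, b]
  refine ⟨j1, j2, ?_⟩
  rw [e1, e2, e3, ← e, add_div]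

end Vale.Agent.P231
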