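import Vale.Agent.P231.BKPt
import Vale.Agent.P231.Kaz

/-! The generalized Berger-Kazdan inequality. -/

open scoped Topology Matrix
open Set Filter Real Module

set_option linter.unusedSectionVars false

namespace Vale.Agent.P231

variable {d K H : Type} [Fintype d] [DecidableEq d] [Fintype K] [Fintype H] [DecidableEq K]
  [DecidableEq H]
  {G S : ℝ → Matrix (K ⊕ H) (K ⊕ H) ℝ}

open MeasureTheory

namespace BKAux

/-- Integrable with the given integral. -/
def IE (f : ℝ → ℝ) (a b v : ℝ) : Prop := IntervalIntegrable f volume a b ∧ ∫ x in a..b, f x = v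

theorem IE.congr {f g : ℝ → ℝ} {a b v : ℝ} (h : IE f a b v) (hab : a ≤ b) (e : EqOn f g (Ioo a b)) :
    IE g a b v := by
  refine ⟨?_, (intervalIntegral.integral_congr_Ioo_of_le hab e).symm.trans h.2⟩
  have h1 := h.1
  rw [intervalIntegrable_iff_integrableOn_Ioo_of_le hab] at h1 ⊢
  exact h1.congr_fun e measurableSet_Ioo

theorem IE.glue {f g : ℝ → ℝ} {a b c v w : ℝ} (hf : IE f a b v) (hg : IE g b c w) (hab : a ≤ b)
    (hbc : b ≤ c) : IE (fun x => if x < b then f x else g x) a c (v + w) := by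
  have h1 : IE (fun x => if x < b then f x else g x) a b v :=
    hf.congr hab fun x hx => (if_pos hx.2).symm
  have h2 : IE (fun x => if x < b then f x else g x) b c w :=
    hg.congr hbc fun x hx => (if_neg hx.1.le.not_gt).symm
  exact ⟨h1.1.trans h2.1, by
    rw [← intervalIntegral.integral_add_adjacent_intervals h1.1 h2.1, h1.2, h2.2]⟩

theorem shift {f g : ℝ → ℝ} {a b a' b' : ℝ} (c : ℝ) (hf : IntervalIntegrable f volume a b)
    (ha : a' + c = a) (hb : b' + c = b) (e : ∀ x, g x = f (x + c)) :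
    IE g a' b' (∫ x in a..b, f x) := by
  subst ha hb
  rw [show g = fun x => f (x + c) from funext e]
  exact ⟨(IntervalIntegrable.comp_add_right_iff (by finiteness)).2 hf, intervalIntegral.integral_comp_add_right _ _⟩

theorem ae_good (a b c : ℝ) {s : Set ℝ} (hs : MeasurableSet s) (h : s ⊆ Icc 0 π) :
    ∀ᵐ x ∂(volume : Measure ℝ).restrict s, x ∈ Ioo 0 π ∧ x ≠ a ∧ x ≠ b ∧ x ≠ c := by
  rw [ae_restrict_iff' hs]
  filter_upwards [Measure.ae_ne volume 0, Measure.ae_ne volume π, Measure.ae_ne volume a,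
    Measure.ae_ne volume b, Measure.ae_ne volume c] with x h1 h2 h3 h4 h5 hx
  exact ⟨⟨(h hx).1.lt_of_ne' h1, (h hx).2.lt_of_ne h2⟩, h3, h4, h5⟩

theorem lim0 {f g : ℝ → ℝ} {t : ℝ} (ht : t ∈ Ioo 0 (π / 2)) (hf : ContinuousOn f (Icc 0 π))
    (hg : Continuous g) (e : ∀ s ∈ Ioo 0 t, f s = g s) : f 0 = g 0 := by
  have := left_nhdsWithin_Ioo_neBot ht.1
  have h1 : ContinuousWithinAt f (Ioo 0 t) 0 := (hf 0 ⟨le_rfl, pi_pos.le⟩).mono fun s hs =>
    ⟨hs.1.le, by linarith [hs.2, ht.2, pi_pos]⟩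
  exact tendsto_nhds_unique_of_eventuallyEq h1 hg.continuousWithinAt
    (eventually_nhdsWithin_of_forall e)

end BKAux

open BKAux

/-- `R` is the left side of `case1` on `(0, π/2 - r)` and `(π/2, π - r)` (`y = x + r`), of `case2` on
`(π/2 - r, π/2)`, of `case3` (for the pair `x + r - π`, `x`) on `(π - r, π)`. The end point terms integrate to
`2 ∫ (PP + QQ)`, the averages to the same by `kaz2` and `kaz1` (for `a = 0`: first and last interval; for
`a = π/2`: third and second interval). -/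
theorem BKD.exists_R (h : BKD G S) (hk : BKK S) {r : ℝ} (hr : r ∈ Ioo 0 (π / 2)) :
    ∃ R : ℝ → ℝ, IntervalIntegrable R volume 0 π ∧
      ∫ x in (0 : ℝ)..π, R x =
        π * log (F0 (Fintype.card K + Fintype.card H) (Fintype.card K) r) ∧
      (∀ L, IsL G S r L → ∀ x ∈ Ioo 0 π, x ≠ π / 2 - r → x ≠ π / 2 → x ≠ π - r → R x ≤ log (L x)) ∧
      ∀ x ∈ Ioo 0 (π / 2 - r), R x =
        log (F0 (Fintype.card K + Fintype.card H) (Fintype.card K) (x + r - x)) +
          (PP G x + QQ G x) + (PP G (x + r) + QQ G (x + r)) - 2 * av1 (PP G) x (x + r) -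
            2 * av2 (QQ G) x (x + r) := by
  have pi0 := pi_pos
  obtain ⟨r0, r1⟩ := hr
  have cP := h.cont_PP
  have cQ := h.cont_QQ
  have cu : ContinuousOn (fun x => PP G x + QQ G x) (Icc 0 π) := cP.add cQ
  have iu : ∀ {f : ℝ → ℝ}, ContinuousOn f (Icc 0 π) → ∀ a b, 0 ≤ a → a ≤ b → b ≤ π →
      IntervalIntegrable f volume a b := fun hf a b ha hab hb =>
    (hf.mono (Icc_subset_Icc ha hb)).intervalIntegrable_of_Icc hab
  have hE := (shift (g := fun x => PP G (x + r) + QQ G (x + r)) (a' := 0) (b' := π - r) r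
    (iu cu r π r0.le (by linarith) le_rfl) (by ring) (by ring) fun _ => rfl).glue
    (shift (g := fun x => PP G (x + r - π) + QQ G (x + r - π)) (a' := π - r) (b' := π) (r - π)
      (iu cu 0 r le_rfl r0.le (by linarith)) (by ring) (by ring) fun x => by rw [add_sub_assoc])
    (by linarith) (by linarith)
  rw [add_comm, intervalIntegral.integral_add_adjacent_intervals
    (iu cu 0 r le_rfl r0.le (by linarith)) (iu cu r π r0.le (by linarith) le_rfl)] at hE
  obtain ⟨q1, q2, q3⟩ := kaz2 cQ (r := r) ⟨r0, by linarith⟩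
  have hB := IE.glue ⟨q1, rfl⟩
    (shift (g := fun x => av2 (QQ G) (x + r - π) x) (a' := π - r) (b' := π) (r - π) q2
      (by ring) (by ring) fun x => congrArg₂ _ (by ring) (by ring)) (by linarith) (by linarith)
  rw [q3] at hB
  obtain ⟨p1, p2, p3⟩ := kaz1 (a := 0) (Or.inl rfl)
    (cP.mono (Icc_subset_Icc le_rfl (by linarith))) ⟨r0, r1⟩
  obtain ⟨p4, p5, p6⟩ := kaz1 (a := π / 2) (Or.inr rfl)
    (cP.mono (Icc_subset_Icc (by linarith) (by linarith))) ⟨r0, r1⟩
  simp only [zero_add] at p1 p2 p3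
  rw [show π / 2 + (π / 2 - r) = π - r by ring] at p4 p6
  rw [add_halves] at p6
  have hA := IE.glue ⟨p1, rfl⟩ (IE.glue
    (shift (g := fun x => av1 (PP G) (x + r) (x + π / 2)) (a' := π / 2 - r) (b' := π / 2) r p5
      (by ring) (by ring) fun x => congrArg _ (by ring))
    (IE.glue ⟨p4, rfl⟩
      (shift (g := fun x => av1 (PP G) (x + r - π) (x - π / 2)) (a' := π - r) (b' := π) (r - π) p2
        (by ring) (by ring) fun x => congrArg₂ _ (by ring) (by ring)) (by linarith) (by linarith))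
    (by linarith) (by linarith)) (by linarith) (by linarith)
  have hP := intervalIntegral.integral_add_adjacent_intervals
    (iu cP 0 (π / 2) le_rfl (by linarith) (by linarith))
    (iu cP (π / 2) π (by linarith) (by linarith) le_rfl)
  have i1 := iu cu 0 π le_rfl pi0.le le_rfl
  have hu := intervalIntegral.integral_add (iu cP 0 π le_rfl pi0.le le_rfl)
    (iu cQ 0 π le_rfl pi0.le le_rfl)
  set c := log (F0 (Fintype.card K + Fintype.card H) (Fintype.card K) r) with hc
  have i0 : IntervalIntegrable (fun _ : ℝ => c) volume 0 π := intervalIntegrable_const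
  refine ⟨_, (((i0.add i1).add hE.1).sub (hA.1.const_mul 2)).sub (hB.1.const_mul 2), ?_,
    fun L hL x hx n1 n2 n3 => ?_, fun x hx => ?_⟩
  · rw [intervalIntegral.integral_sub (((i0.add i1).add hE.1).sub (hA.1.const_mul 2))
      (hB.1.const_mul 2), intervalIntegral.integral_sub ((i0.add i1).add hE.1) (hA.1.const_mul 2),
      intervalIntegral.integral_add (i0.add i1) hE.1, intervalIntegral.integral_add i0 i1,
      intervalIntegral.integral_const_mul, intervalIntegral.integral_const_mul, hE.2, hA.2, hB.2,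
      intervalIntegral.integral_const, hu, smul_eq_mul]
    linarith
  · obtain ⟨x0, x1⟩ := hx
    have e1 : x + r - x = r := by ring
    by_cases c1 : x < π / 2 - r
    · have hI : Icc x (x + r) ⊆ II := fun t ht =>
        ⟨⟨by linarith [ht.1], by linarith [ht.2]⟩, fun e : t = π / 2 => by linarith [ht.2]⟩
      have k := (h.case1 hI (by linarith)).2.1
      rw [e1, ← hL.1 x (hI ⟨le_rfl, by linarith⟩) (hI ⟨by linarith, le_rfl⟩)] at k
      simp only [if_pos c1, if_pos (show x < π - r by linarith)]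
      exact k
    have c1' : π / 2 - r < x := (not_lt.1 c1).lt_of_ne' n1
    by_cases c2 : x < π / 2
    · have k := (h.case2 hk (y := x + r) x0 c2 (by linarith) (by linarith)).2
      rw [e1, ← hL.1 x ⟨⟨x0, x1⟩, n2⟩
        ⟨⟨by linarith, by linarith⟩, fun e : x + r = π / 2 => by linarith⟩] at k
      simp only [if_neg c1, if_pos c2, if_pos (show x < π - r by linarith)]
      exact k
    have c2' : π / 2 < x := (not_lt.1 c2).lt_of_ne' n2
    by_cases c3 : x < π - r
    · have hI : Icc x (x + r) ⊆ II := fun t ht =>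
        ⟨⟨by linarith [ht.1], by linarith [ht.2]⟩, fun e : t = π / 2 => by linarith [ht.1]⟩
      have k := (h.case1 hI (by linarith)).2.1
      rw [e1, ← hL.1 x (hI ⟨le_rfl, by linarith⟩) (hI ⟨by linarith, le_rfl⟩)] at k
      simp only [if_neg c1, if_neg c2, if_pos c3]
      exact k
    have c3' : π - r < x := (not_lt.1 c3).lt_of_ne' n3
    have k := (h.case3 hk (x := x + r - π) (y := x) (by linarith) (by linarith) x1).2
    rw [show π - (x - (x + r - π)) = r by ring, ← hL.2 x ⟨c3', x1⟩] at k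
    simp only [if_neg c1, if_neg c2, if_neg c3]
    linarith
  · simp only [if_pos hx.2, if_pos (show x < π - r by linarith [hx.2]), add_sub_cancel_left, hc]

theorem BKD.bk (h : BKD G S) (hk : BKK S) {r : ℝ} (hr : r ∈ Ioo 0 (π / 2)) {L : ℝ → ℝ}
    (hL : IsL G S r L) (hi : IntervalIntegrable (fun x => log (L x)) volume 0 π) :
    π * log (F0 (Fintype.card K + Fintype.card H) (Fintype.card K) r) ≤
      ∫ x in (0 : ℝ)..π, log (L x) := by
  obtain ⟨R, h1, h2, h3, -⟩ := h.exists_R hk hr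
  rw [← h2]
  refine intervalIntegral.integral_mono_ae_restrict pi_pos.le h1 hi ?_
  filter_upwards [ae_good (π / 2 - r) (π / 2) (π - r) measurableSet_Icc subset_rfl] with x hx
  exact h3 L hL x hx.1 hx.2.1 hx.2.2.1 hx.2.2.2

/-- `log F0 - R ≥ 0` has integral zero, so it vanishes almost everywhere; for `t₁ < t₂` in `(0, π/2)` choose
`r` slightly larger than `t₂ - t₁` and `x < t₁`, `t₂ < x + r < π/2` with equality in `case1`. So the three block
functions are constant on `(0, π/2)`; let `t → 0`. Finally `G₁₁ = 1`, `G₂₁ = 0`, `(G⁻¹)₂₂ = 1` give `G = 1`. -/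
theorem BKD.bk_eq (h : BKD G S) (hk : BKK S) (h0 : G 0 = 1)
    (hL : ∀ r ∈ Ioo 0 (π / 2),
      IsL G S r fun _ => F0 (Fintype.card K + Fintype.card H) (Fintype.card K) r) :
    ∀ t ∈ Ioo 0 (π / 2), G t = 1 := by
  have pi0 := pi_pos
  have key : ∀ t ∈ Ioo 0 (π / 2), ∀ s ∈ Ioo 0 t, (G s).toBlocks₁₁ = (G t).toBlocks₁₁ ∧
      (G s)⁻¹.toBlocks₂₂ = (G t)⁻¹.toBlocks₂₂ ∧ ∃ C : Matrix H K ℝ,
        (G s).toBlocks₂₁ * (G s).toBlocks₁₁⁻¹ = cos s • C ∧
        (G t).toBlocks₂₁ * (G t).toBlocks₁₁⁻¹ = cos t • C := by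
    intro t ⟨t0, t1⟩ s ⟨s0, s1⟩
    obtain ⟨r, r0, r1⟩ := exists_between (show t - s < π / 2 by linarith)
    have hr : r ∈ Ioo 0 (π / 2) := ⟨by linarith, r1⟩
    obtain ⟨R, h1, h2, h3, h4⟩ := h.exists_R hk hr
    set c := log (F0 (Fintype.card K + Fintype.card H) (Fintype.card K) r) with hc
    have i0 : IntervalIntegrable (fun _ : ℝ => c) volume 0 π := intervalIntegrable_const
    have h5 := (intervalIntegral.integral_eq_zero_iff_of_le_of_nonneg_ae (f := fun x => c - R x)
      pi0.le ?_ (i0.sub h1)).1 ?_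
    · have hs : Ioo (max 0 (t - r)) (min s (π / 2 - r)) ⊆ Ioc 0 π := fun x hx =>
        ⟨(le_max_left _ _).trans_lt hx.1, by linarith [hx.2.trans_le (min_le_left _ _)]⟩
      have hlt : max 0 (t - r) < min s (π / 2 - r) :=
        max_lt (lt_min s0 (by linarith)) (lt_min (by linarith) (by linarith))
      obtain ⟨x, hx, e⟩ := Measure.exists_mem_of_measure_ne_zero_of_ae
        (μ := volume) (s := Ioo (max 0 (t - r)) (min s (π / 2 - r)))
        (by rw [Real.volume_Ioo]; exact (ENNReal.ofReal_pos.2 (sub_pos.2 hlt)).ne')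
        (ae_restrict_of_ae_restrict_of_subset hs h5)
      obtain ⟨x0, x1⟩ := max_lt_iff.1 hx.1
      obtain ⟨x2, x3⟩ := lt_min_iff.1 hx.2
      have hI : Icc x (x + r) ⊆ II := fun t ht =>
        ⟨⟨by linarith [ht.1], by linarith [ht.2]⟩, fun e : t = π / 2 => by linarith [ht.2]⟩
      have e1 : c - R x = 0 := e
      have e2 := (hL r hr).1 x (hI ⟨le_rfl, by linarith⟩) (hI ⟨by linarith, le_rfl⟩)
      obtain ⟨C₁, C₂, C₃, hC⟩ := (h.case1 hI (by linarith)).2.2 (by
        rw [← h4 x ⟨x0, x3⟩, ← e2]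
        linarith)
      obtain ⟨a1, a2, a3⟩ := hC s ⟨x2, by linarith⟩
      obtain ⟨b1, b2, b3⟩ := hC t ⟨by linarith, by linarith⟩
      exact ⟨a1.trans b1.symm, a2.trans b2.symm, C₃, a3, b3⟩
    · filter_upwards [ae_good (π / 2 - r) (π / 2) (π - r) measurableSet_Ioc Ioc_subset_Icc_self]
        with x hx
      exact sub_nonneg.2 (h3 _ (hL r hr) x hx.1 hx.2.1 hx.2.2.1 hx.2.2.2)
    · rw [intervalIntegral.integral_sub i0 h1, h2, intervalIntegral.integral_const, smul_eq_mul]
      ring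
  have ce : ∀ i j, ContinuousOn (fun s => G s i j) (Icc 0 π) := fun i j =>
    (continuous_apply_apply i j).comp_continuousOn h.cont
  have sub : ∀ t ∈ Ioo 0 (π / 2), ∀ s ∈ Ioo 0 t, s ∈ Ioo 0 (π / 2) := fun t ht s hs =>
    ⟨hs.1, hs.2.trans ht.2⟩
  have pos : ∀ t ∈ Ioo 0 (π / 2), (G t).PosDef := fun t ht =>
    h.pos t ⟨ht.1.le, by linarith [ht.2]⟩
  have k1 : ∀ t ∈ Ioo 0 (π / 2), (G t).toBlocks₁₁ = 1 := fun t ht => by
    ext i j
    have := lim0 ht (ce (.inl i) (.inl j)) (continuous_const (y := (G t).toBlocks₁₁ i j))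
      fun s hs => congrFun (congrFun (key t ht s hs).1 i) j
    rw [← this, h0]
    simp [Matrix.one_apply]
  have k2 : ∀ t ∈ Ioo 0 (π / 2), (G t).toBlocks₂₁ = 0 := fun t ht => by
    ext i j
    have := lim0 (f := fun s => cos t * G s (.inr i) (.inl j))
      (g := fun s => cos s * (G t).toBlocks₂₁ i j) ht
      (continuousOn_const.mul (ce _ _)) (by fun_prop) fun s hs => by
        obtain ⟨-, -, C, a, b⟩ := key t ht s hs
        rw [k1 s (sub t ht s hs), inv_one, Matrix.mul_one] at a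
        rw [k1 t ht, inv_one, Matrix.mul_one] at b
        have a' : G s (.inr i) (.inl j) = cos s * C i j := congrFun (congrFun a i) j
        rw [a', b, Matrix.smul_apply, smul_eq_mul]
        ring
    rw [h0] at this
    simpa using this.symm
  have k3 : ∀ t ∈ Ioo 0 (π / 2), (G t).toBlocks₁₂ = 0 := fun t ht => by
    ext i j
    have e := (pos t ht).isHermitian.apply (.inl i) (.inr j)
    have e' : G t (.inr j) (.inl i) = 0 := congrFun (congrFun (k2 t ht) j) i
    rw [e', star_zero] at e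
    exact e.symm
  have k4 : ∀ t ∈ Ioo 0 (π / 2), (G t)⁻¹.toBlocks₂₂ * (G t).toBlocks₂₂ = 1 := fun t ht => by
    have e := Matrix.nonsing_inv_mul (G t) (isUnit_iff_ne_zero.2 (pos t ht).det_pos.ne')
    rw [← Matrix.fromBlocks_toBlocks (G t)⁻¹] at e
    nth_rw 5 [← Matrix.fromBlocks_toBlocks (G t)] at e
    rw [Matrix.fromBlocks_multiply, ← Matrix.fromBlocks_one, Matrix.fromBlocks_inj, k3 t ht,
      Matrix.mul_zero, zero_add, Matrix.mul_zero, zero_add] at e
    exact e.2.2.2
  have k5 : ∀ t ∈ Ioo 0 (π / 2), (G t).toBlocks₂₂ = 1 := fun t ht => by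
    ext i j
    have := lim0 ht (ce (.inr i) (.inr j)) (continuous_const (y := (G t).toBlocks₂₂ i j))
      fun s hs => by
        have a := k4 s (sub t ht s hs)
        rw [(key t ht s hs).2.1] at a
        have b : (G s).toBlocks₂₂ = (G t).toBlocks₂₂ := by
          rw [← Matrix.one_mul (G s).toBlocks₂₂, ← mul_eq_one_comm.1 (k4 t ht), Matrix.mul_assoc,
            a, Matrix.mul_one]
        exact congrFun (congrFun b i) j
    rw [← this, h0]
    simp [Matrix.one_apply]
  intro t ht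
  rw [← Matrix.fromBlocks_toBlocks (G t), k1 t ht, k2 t ht, k3 t ht, k5 t ht,
    Matrix.fromBlocks_one]

end Vale.Agent.P231
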