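import Vale.Agent.P231.Jen

/-! The two blocks of the Lagrangian curve. -/

open scoped Topology Matrix
open Set Filter Real Module

set_option linter.unusedSectionVars false

namespace Vale.Agent.P231

variable {d K H : Type} [Fintype d] [DecidableEq d] [Fintype K] [Fintype H] [DecidableEq K]
  [DecidableEq H]
  {G S : ℝ → Matrix (K ⊕ H) (K ⊕ H) ℝ}

namespace BKAAux

theorem c_entry {m n : Type} {A : ℝ → Matrix m n ℝ} {s : Set ℝ} (h : ContinuousOn A s) (i : m)
    (j : n) : ContinuousOn (fun t => A t i j) s :=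
  (continuous_apply_apply i j).comp_continuousOn h

theorem c_of {m n : Type} {A : ℝ → Matrix m n ℝ} {s : Set ℝ}
    (h : ∀ i j, ContinuousOn (fun t => A t i j) s) : ContinuousOn A s :=
  continuousOn_pi.2 fun i => continuousOn_pi.2 fun j => h i j

theorem c_det {A : ℝ → Matrix d d ℝ} {s : Set ℝ} (h : ContinuousOn A s) :
    ContinuousOn (fun t => (A t).det) s :=
  (continuous_id.matrix_det).comp_continuousOn h

theorem c_inv {A : ℝ → Matrix d d ℝ} {s : Set ℝ} (h : ContinuousOn A s)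
    (h0 : ∀ t ∈ s, (A t).det ≠ 0) : ContinuousOn (fun t => (A t)⁻¹) s := by
  have h1 : ContinuousOn (fun t => (A t).adjugate) s :=
    (continuous_id.matrix_adjugate).comp_continuousOn h
  have h2 : ContinuousOn (fun t => ((A t).det)⁻¹ • (A t).adjugate) s :=
    ((c_det h).inv₀ h0).smul h1
  refine h2.congr fun t _ => ?_
  show (A t)⁻¹ = ((A t).det)⁻¹ • (A t).adjugate
  rw [Matrix.inv_def, Ring.inverse_eq_inv']

theorem prim {u : ℝ → ℝ} {U : Set ℝ} (hU : IsOpen U) (hu : ContinuousOn u U) {x y : ℝ}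
    (hs : Icc x y ⊆ U) {t : ℝ} (ht : t ∈ Icc x y) :
    HasDerivAt (fun t => ∫ s in x..t, u s) (u t) t := by
  refine intervalIntegral.integral_hasDerivAt_right ?_ (hu.stronglyMeasurableAtFilter hU t (hs ht))
    (hu.continuousAt (hU.mem_nhds (hs ht)))
  refine ContinuousOn.intervalIntegrable (hu.mono ?_)
  rw [uIcc_of_le ht.1]
  exact fun s h => hs ⟨h.1, h.2.trans ht.2⟩

theorem open_II : IsOpen II := isOpen_Ioo.sdiff isClosed_singleton

theorem sin_pos' {t : ℝ} (ht : t ∈ Ioo 0 π) : 0 < sin t := sin_pos_of_pos_of_lt_pi ht.1 ht.2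

theorem cos_ne {t : ℝ} (ht : t ∈ II) : cos t ≠ 0 := by
  intro h
  apply ht.2
  have h1 : cos t = cos (π / 2) := by rw [h, cos_pi_div_two]
  have := injOn_cos ⟨ht.1.1.le, ht.1.2.le⟩ ⟨by positivity, by linarith [pi_pos]⟩ h1
  simpa using this

theorem c11 (h : BKD G S) : ContinuousOn (fun t => (G t).toBlocks₁₁) (Icc 0 π) :=
  c_of fun i j => c_entry h.cont (.inl i) (.inl j)

theorem cinv (h : BKD G S) : ContinuousOn (fun t => (G t)⁻¹) (Icc 0 π) :=
  c_inv h.cont fun t ht => (h.pos t ht).det_pos.ne'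

theorem c22 (h : BKD G S) : ContinuousOn (fun t => (G t)⁻¹.toBlocks₂₂) (Icc 0 π) :=
  c_of fun i j => c_entry (cinv h) (.inr i) (.inr j)

theorem quad_deriv {A : ℝ → Matrix d d ℝ} {A' : Matrix d d ℝ} {t : ℝ}
    (h : ∀ i j, HasDerivAt (fun s => A s i j) (A' i j) t) (ζ : d → ℝ) :
    HasDerivAt (fun s => ζ ⬝ᵥ A s *ᵥ ζ) (ζ ⬝ᵥ A' *ᵥ ζ) t := by
  simp only [dotProduct, Matrix.mulVec]
  exact HasDerivAt.fun_sum fun i _ =>
    (HasDerivAt.fun_sum fun j _ => (h i j).mul_const (ζ j)).const_mul (ζ i)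

theorem quad_div (A : Matrix d d ℝ) (ζ l : d → ℝ) :
    ζ ⬝ᵥ (Matrix.of fun i j => A i j / (l i * l j)) *ᵥ ζ =
      (fun i => ζ i / l i) ⬝ᵥ A *ᵥ fun i => ζ i / l i := by
  simp only [dotProduct, Matrix.mulVec, Matrix.of_apply, Finset.mul_sum]
  refine Finset.sum_congr rfl fun i _ => Finset.sum_congr rfl fun j _ => ?_
  simp only [div_eq_mul_inv, mul_inv]
  ring

end BKAAux

open BKAAux

theorem BKD.cont_PP (h : BKD G S) : ContinuousOn (PP G) (Icc 0 π) :=
  ((c_det (c11 h)).log fun t ht => (det_blocks (h.pos t ht)).1.det_pos.ne').div_const 2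

theorem BKD.cont_QQ (h : BKD G S) : ContinuousOn (QQ G) (Icc 0 π) :=
  ((c_det (c22 h)).log fun t ht => (det_blocks (h.pos t ht)).2.1.det_pos.ne').neg.div_const 2

theorem BKD.log_sqrt (h : BKD G S) {t : ℝ} (ht : t ∈ Icc 0 π) :
    0 < √(G t).det ∧ log √(G t).det = PP G t + QQ G t := by
  have hp := h.pos t ht
  obtain ⟨-, h2, h3⟩ := det_blocks hp
  refine ⟨sqrt_pos.2 hp.det_pos, ?_⟩
  rw [Real.log_sqrt hp.det_pos.le, PP, QQ, ← h3, log_mul hp.det_pos.ne' h2.det_pos.ne']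
  ring

theorem abs_prod_dl {t : ℝ} (ht : t ∈ II) : |∏ i : K ⊕ H, dl t i| =
    |sin t * cos t| ^ Fintype.card K * sin t ^ Fintype.card H := by
  rw [Fintype.prod_sum_type]
  simp only [dl, Sum.elim_inl, Sum.elim_inr, Finset.prod_const, Finset.card_univ]
  rw [abs_mul, abs_pow, abs_pow, abs_of_pos (sin_pos' ht.1)]

/-- The `H` block. `jensen` with `c = π / 2`, `T` the block extended by the limit at `π / 2`, `w = 1 / sin²`,
`W = -cos / sin`, `B = (G t)⁻¹.toBlocks₂₂`, `Z t = -2 ∫ s in x..t, QQ G s / sin s ^ 2`. -/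
theorem BKD.blockH (h : BKD G S) {x y : ℝ} (hx : x ∈ II) (hy : y ∈ II) (hxy : x < y) :
    (S y - S x).toBlocks₂₂.PosDef ∧
    Fintype.card H * log (sin (y - x) / (sin x * sin y)) - 2 * av2 (QQ G) x y ≤
      log (S y - S x).toBlocks₂₂.det ∧
    (Fintype.card H * log (sin (y - x) / (sin x * sin y)) - 2 * av2 (QQ G) x y =
      log (S y - S x).toBlocks₂₂.det →
        ∃ C, ∀ t ∈ Ioo x y, t ≠ π / 2 → (G t)⁻¹.toBlocks₂₂ = C) := by
  classical
  choose l hl using h.lim
  have hs : Icc x y ⊆ Ioo 0 π := fun t ht => ⟨hx.1.1.trans_le ht.1, ht.2.trans_lt hy.1.2⟩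
  let T : ℝ → Matrix H H ℝ := fun s => if s = π / 2 then Matrix.of l else (S s).toBlocks₂₂
  have hTe : ∀ t, t ≠ π / 2 → ∀ i j,
      (fun s => T s i j) =ᶠ[𝓝 t] fun s => S s (.inr i) (.inr j) := by
    intro t ht i j
    filter_upwards [isOpen_ne.mem_nhds ht] with s hs
    simp only [T, if_neg hs]
    rfl
  have hTd : ∀ t ∈ Icc x y, t ≠ π / 2 → ∀ i j, HasDerivAt (fun s => T s i j)
      (1 / sin t ^ 2 * (G t)⁻¹.toBlocks₂₂ i j) t := by
    intro t ht htc i j
    have h1 := (h.deriv t ⟨hs ht, htc⟩ (.inr i) (.inr j)).congr_of_eventuallyEq (hTe t htc i j)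
    refine h1.congr_deriv ?_
    simp only [dl, Sum.elim_inr, Matrix.toBlocks₂₂, Matrix.of_apply]
    ring
  have hTc : ContinuousOn T (Icc x y) := by
    refine c_of fun i j t ht => ContinuousAt.continuousWithinAt ?_
    by_cases htc : t = π / 2
    · subst htc
      rw [← continuousWithinAt_compl_self]
      have e : T (π / 2) i j = l i j := by simp [T]
      show Tendsto (fun t => T t i j) (𝓝[≠] (π / 2)) (𝓝 (T (π / 2) i j))
      rw [e]
      refine (hl i j).congr' ?_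
      filter_upwards [self_mem_nhdsWithin] with s hs
      have hs' : s ≠ π / 2 := hs
      simp only [T, if_neg hs']
      rfl
    · exact (hTd t ht htc i j).continuousAt
  have hWd : ∀ t ∈ Icc x y, HasDerivAt (fun s => -cos s / sin s) (1 / sin t ^ 2) t := by
    intro t ht
    have h0 := (sin_pos' (hs ht)).ne'
    refine ((hasDerivAt_cos t).neg.div (hasDerivAt_sin t) h0).congr_deriv ?_
    have := sin_sq_add_cos_sq t
    simp only [Pi.neg_apply]
    congr 1
    linarith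
  have hu : ContinuousOn (fun s => QQ G s / sin s ^ 2) (Ioo 0 π) :=
    (h.cont_QQ.mono Ioo_subset_Icc_self).div (continuous_sin.pow 2).continuousOn
      fun t ht => pow_ne_zero 2 (sin_pos' ht).ne'
  have hZd : ∀ t ∈ Icc x y, HasDerivAt (fun t => -2 * ∫ s in x..t, QQ G s / sin s ^ 2)
      (1 / sin t ^ 2 * log ((G t)⁻¹.toBlocks₂₂).det) t := by
    intro t ht
    refine ((prim isOpen_Ioo hu hs ht).const_mul (-2)).congr_deriv ?_
    simp only [QQ]
    ring
  have key := jensen (T := T) (B := fun t => (G t)⁻¹.toBlocks₂₂) (w := fun t => 1 / sin t ^ 2)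
    (W := fun s => -cos s / sin s) (Z := fun t => -2 * ∫ s in x..t, QQ G s / sin s ^ 2)
    (c := π / 2) hxy hTc (fun t ht => (hWd t ht).continuousAt.continuousWithinAt)
    (fun t ht => (hZd t ht).continuousAt.continuousWithinAt) (fun t ht htc => by
      have ht' := Ioo_subset_Icc_self ht
      exact ⟨(det_blocks (h.pos t (Ioo_subset_Icc_self (hs ht')))).2.1,
        one_div_pos.2 (pow_pos (sin_pos' (hs ht')) 2), hTd t ht' htc, hWd t ht', hZd t ht'⟩)
  have e1 : T y - T x = (S y - S x).toBlocks₂₂ := by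
    have hx' : x ≠ π / 2 := hx.2
    have hy' : y ≠ π / 2 := hy.2
    simp only [T, if_neg hx', if_neg hy']
    rfl
  have e2 : -cos y / sin y - -cos x / sin x = sin (y - x) / (sin x * sin y) := by
    have := (sin_pos' hx.1).ne'
    have := (sin_pos' hy.1).ne'
    rw [sin_sub]
    field_simp
    ring
  have e3 : (Fintype.card H : ℝ) * log (sin (y - x) / (sin x * sin y)) +
      ((-2 * ∫ s in x..y, QQ G s / sin s ^ 2) - -2 * ∫ s in x..x, QQ G s / sin s ^ 2) /
        (sin (y - x) / (sin x * sin y)) =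
      Fintype.card H * log (sin (y - x) / (sin x * sin y)) - 2 * av2 (QQ G) x y := by
    rw [intervalIntegral.integral_same, av2]
    ring
  simp only [e1, e2] at key
  rw [e3] at key
  exact ⟨key.1, key.2.1, fun he => ⟨_, key.2.2 he⟩⟩

/-- The `K` block on an interval without singular time. `T = Tk y - Tk x`, `Tk` a primitive of
`(G t).toBlocks₁₁⁻¹ / (sin cos)²`, `W = sin / cos - cos / sin`; `jensen`; `mono_off` and `inv_quad` (applied to
`ζ i / dl t i`) for the quadratic forms. -/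
theorem BKD.blockK (h : BKD G S) {x y : ℝ} (hI : Icc x y ⊆ II) (hxy : x < y) :
    ∃ T : Matrix K K ℝ, T.PosDef ∧
    Fintype.card K * log (sin (y - x) * cos (y - x) / (sin x * cos x * (sin y * cos y))) -
      2 * av1 (PP G) x y ≤ log T.det ∧
    (Fintype.card K * log (sin (y - x) * cos (y - x) / (sin x * cos x * (sin y * cos y))) -
      2 * av1 (PP G) x y = log T.det → ∃ C, ∀ t ∈ Ioo x y, (G t).toBlocks₁₁ = C) ∧
    ∀ ζ, (ζ ∘ Sum.inl) ⬝ᵥ T *ᵥ (ζ ∘ Sum.inl) ≤ ζ ⬝ᵥ (S y - S x) *ᵥ ζ ∧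
      ((ζ ∘ Sum.inl) ⬝ᵥ T *ᵥ (ζ ∘ Sum.inl) = ζ ⬝ᵥ (S y - S x) *ᵥ ζ → ∀ t ∈ Ioo x y,
        ((G t).toBlocks₂₁ * (G t).toBlocks₁₁⁻¹) *ᵥ (ζ ∘ Sum.inl) = cos t • (ζ ∘ Sum.inr)) := by
  have hII : II ⊆ Icc 0 π := fun t ht => Ioo_subset_Icc_self ht.1
  have hsc : ∀ t ∈ II, sin t * cos t ≠ 0 := fun t ht => mul_ne_zero (sin_pos' ht.1).ne' (cos_ne ht)
  have hp1 : ∀ t ∈ Icc 0 π, (G t).toBlocks₁₁.PosDef := fun t ht => (det_blocks (h.pos t ht)).1
  have hci : ContinuousOn (fun t => (G t).toBlocks₁₁⁻¹) (Icc 0 π) :=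
    c_inv (c11 h) fun t ht => (hp1 t ht).det_pos.ne'
  have hw : ContinuousOn (fun t => (sin t * cos t) ^ 2) II :=
    ((continuous_sin.mul continuous_cos).pow 2).continuousOn
  let T : ℝ → Matrix K K ℝ := fun t =>
    Matrix.of fun i j => ∫ s in x..t, (G s).toBlocks₁₁⁻¹ i j / (sin s * cos s) ^ 2
  have hTd0 : ∀ t ∈ Icc x y, ∀ i j, HasDerivAt (fun s => T s i j)
      ((G t).toBlocks₁₁⁻¹ i j / (sin t * cos t) ^ 2) t := fun t ht i j =>
    prim open_II (((c_entry hci i j).mono hII).div hw fun t ht => pow_ne_zero 2 (hsc t ht)) hI ht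
  have hTd : ∀ t ∈ Icc x y, ∀ i j, HasDerivAt (fun s => T s i j)
      (1 / (sin t * cos t) ^ 2 * (G t).toBlocks₁₁⁻¹ i j) t := fun t ht i j =>
    (hTd0 t ht i j).congr_deriv (by ring)
  have hWd : ∀ t ∈ Icc x y, HasDerivAt (fun s => sin s / cos s - cos s / sin s)
      (1 / (sin t * cos t) ^ 2) t := by
    intro t ht
    have h0 := (sin_pos' (hI ht).1).ne'
    have h1 := cos_ne (hI ht)
    refine (((hasDerivAt_sin t).div (hasDerivAt_cos t) h1).sub
      ((hasDerivAt_cos t).div (hasDerivAt_sin t) h0)).congr_deriv ?_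
    have h2 := sin_sq_add_cos_sq t
    have h3 : cos t * cos t - sin t * -sin t = 1 := by linarith
    have h4 : -sin t * sin t - cos t * cos t = -1 := by linarith
    rw [h3, h4]
    field_simp
    linarith
  have hu : ContinuousOn (fun s => PP G s / (sin s * cos s) ^ 2) II :=
    (h.cont_PP.mono hII).div hw fun t ht => pow_ne_zero 2 (hsc t ht)
  have hZd : ∀ t ∈ Icc x y, HasDerivAt (fun t => -2 * ∫ s in x..t, PP G s / (sin s * cos s) ^ 2)
      (1 / (sin t * cos t) ^ 2 * log ((G t).toBlocks₁₁⁻¹).det) t := by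
    intro t ht
    refine ((prim open_II hu hI ht).const_mul (-2)).congr_deriv ?_
    rw [Matrix.det_nonsing_inv, Ring.inverse_eq_inv', log_inv]
    simp only [PP]
    ring
  have key := jensen (T := T) (B := fun t => (G t).toBlocks₁₁⁻¹)
    (w := fun t => 1 / (sin t * cos t) ^ 2) (W := fun s => sin s / cos s - cos s / sin s)
    (Z := fun t => -2 * ∫ s in x..t, PP G s / (sin s * cos s) ^ 2)
    (c := π / 2) hxy (c_of fun i j t ht => (hTd t ht i j).continuousAt.continuousWithinAt)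
    (fun t ht => (hWd t ht).continuousAt.continuousWithinAt)
    (fun t ht => (hZd t ht).continuousAt.continuousWithinAt) (fun t ht _ => by
      have ht' := Ioo_subset_Icc_self ht
      exact ⟨(hp1 t (hII (hI ht'))).inv,
        one_div_pos.2 (sq_pos_of_ne_zero (hsc t (hI ht'))), hTd t ht', hWd t ht', hZd t ht'⟩)
  have hx := hI (left_mem_Icc.2 hxy.le)
  have hy := hI (right_mem_Icc.2 hxy.le)
  have e2 : sin y / cos y - cos y / sin y - (sin x / cos x - cos x / sin x) =
      sin (y - x) * cos (y - x) / (sin x * cos x * (sin y * cos y)) := by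
    have := (sin_pos' hx.1).ne'
    have := (sin_pos' hy.1).ne'
    have := cos_ne hx
    have := cos_ne hy
    rw [sin_sub, cos_sub]
    field_simp
    ring
  have e3 : ∀ a : ℝ, ((-2 * ∫ s in x..y, PP G s / (sin s * cos s) ^ 2) -
      -2 * ∫ s in x..x, PP G s / (sin s * cos s) ^ 2) /
        (sin (y - x) * cos (y - x) / (sin x * cos x * (sin y * cos y))) = -(2 * av1 (PP G) x y) := by
    intro _
    rw [intervalIntegral.integral_same, av1]
    ring
  simp only [e2] at key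
  rw [e3 0, ← sub_eq_add_neg] at key
  have hne : ∀ t ∈ Ioo x y, t ≠ π / 2 := fun t ht => (hI (Ioo_subset_Icc_self ht)).2
  refine ⟨T y - T x, key.1, key.2.1, fun he => ⟨((sin (y - x) * cos (y - x) /
    (sin x * cos x * (sin y * cos y)))⁻¹ • (T y - T x))⁻¹, fun t ht => ?_⟩, fun ζ => ?_⟩
  · rw [← key.2.2 he t ht (hne t ht), Matrix.nonsing_inv_nonsing_inv]
    exact (hp1 t (hII (hI (Ioo_subset_Icc_self ht)))).det_pos.ne'.isUnit
  · let η : ℝ → K ⊕ H → ℝ := fun t i => ζ i / dl t i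
    have hfd : ∀ t ∈ Icc x y, HasDerivAt
        (fun s => ζ ⬝ᵥ S s *ᵥ ζ - (ζ ∘ Sum.inl) ⬝ᵥ T s *ᵥ (ζ ∘ Sum.inl))
        (η t ⬝ᵥ (G t)⁻¹ *ᵥ η t -
          (η t ∘ Sum.inl) ⬝ᵥ (G t).toBlocks₁₁⁻¹ *ᵥ (η t ∘ Sum.inl)) t := by
      intro t ht
      have h1 := quad_deriv (A' := Matrix.of fun i j => (G t)⁻¹ i j / (dl t i * dl t j))
        (h.deriv t (hI ht)) ζ
      have h2 := quad_deriv (A' := Matrix.of fun i j => (G t).toBlocks₁₁⁻¹ i j /
        ((fun _ => sin t * cos t) i * (fun _ => sin t * cos t) j))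
        (fun i j => (hTd0 t ht i j).congr_deriv (by simp only [Matrix.of_apply, sq]))
        (ζ ∘ Sum.inl)
      rw [quad_div] at h1 h2
      exact h1.sub h2
    have hm := mono_off (c := π / 2) hxy
      (fun t ht => (hfd t ht).continuousAt.continuousWithinAt) (fun t ht _ =>
        ⟨hfd t (Ioo_subset_Icc_self ht), sub_nonneg.2
          (inv_quad (h.pos t (hII (hI (Ioo_subset_Icc_self ht)))) (η t)).1⟩)
    simp only [Matrix.sub_mulVec, dotProduct_sub]
    refine ⟨by linarith [hm.1], fun he t ht => ?_⟩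
    have ht' := hI (Ioo_subset_Icc_self ht)
    have h1 := hm.2 (by linarith) t ht (hne t ht)
    have h2 := (inv_quad (h.pos t (hII ht')) (η t)).2 (by linarith)
    have h3 : ζ ∘ Sum.inl = (sin t * cos t) • (η t ∘ Sum.inl) := by
      funext i
      have := hsc t ht'
      simp only [η, dl, Function.comp, Sum.elim_inl, Pi.smul_apply, smul_eq_mul]
      rw [mul_div_cancel₀ _ this]
    rw [h3, Matrix.mulVec_smul, ← h2]
    funext i
    have := (sin_pos' ht'.1).ne'
    simp only [η, dl, Function.comp, Sum.elim_inr, Pi.smul_apply, smul_eq_mul]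
    field_simp

end Vale.Agent.P231
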