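import Vale.Agent.P231.BKA

/-! Pointwise lower bounds for the density. -/

open scoped Topology Matrix
open Set Filter Real Module

set_option linter.unusedSectionVars false

namespace Vale.Agent.P231

variable {d K H : Type} [Fintype d] [DecidableEq d] [Fintype K] [Fintype H] [DecidableEq K]
  [DecidableEq H]
  {G S : ℝ → Matrix (K ⊕ H) (K ⊕ H) ℝ}

namespace BKPtAux

theorem cos_ne {t : ℝ} (h0 : 0 < t) (h1 : t < π) (h2 : t ≠ π / 2) : cos t ≠ 0 := by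
  rcases lt_or_gt_of_ne h2 with h | h
  · exact (cos_pos_of_mem_Ioo ⟨by linarith, h⟩).ne'
  · exact (cos_neg_of_pi_div_two_lt_of_lt h (by linarith)).ne

theorem II_facts {t : ℝ} (ht : t ∈ II) : t ∈ Icc 0 π ∧ 0 < sin t ∧ cos t ≠ 0 :=
  ⟨⟨ht.1.1.le, ht.1.2.le⟩, sin_pos_of_pos_of_lt_pi ht.1.1 ht.1.2, cos_ne ht.1.1 ht.1.2 ht.2⟩

theorem mem_lo {t : ℝ} (h0 : 0 < t) (h1 : t < π / 2) : t ∈ II :=
  ⟨⟨h0, by linarith [pi_pos]⟩, h1.ne⟩

theorem mem_hi {t : ℝ} (h0 : π / 2 < t) (h1 : t < π) : t ∈ II :=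
  ⟨⟨by linarith [pi_pos], h1⟩, h0.ne'⟩

theorem log_fac (h : BKD G S) {t : ℝ} (ht : t ∈ II) :
    0 < √(G t).det * |∏ i : K ⊕ H, dl t i| ∧ log (√(G t).det * |∏ i : K ⊕ H, dl t i|) =
      PP G t + QQ G t + Fintype.card K * (log (sin t) + log (cos t)) +
        Fintype.card H * log (sin t) := by
  obtain ⟨h1, h2, h3⟩ := II_facts ht
  obtain ⟨h4, h5⟩ := h.log_sqrt h1
  have h6 : 0 < |sin t * cos t| ^ Fintype.card K :=
    pow_pos (abs_pos.2 (mul_ne_zero h2.ne' h3)) _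
  have h7 : 0 < sin t ^ Fintype.card H := pow_pos h2 _
  rw [abs_prod_dl ht]
  refine ⟨mul_pos h4 (mul_pos h6 h7), ?_⟩
  rw [log_mul h4.ne' (mul_pos h6 h7).ne', log_mul h6.ne' h7.ne', h5, log_pow, log_pow, log_abs,
    log_mul h2.ne' h3]
  ring

theorem log_Ph (h : BKD G S) {x y : ℝ} (hx : x ∈ II) (hy : y ∈ II)
    (hd : 0 < |(S y - S x).det|) :
    0 < Ph G S x y ∧ log (Ph G S x y) = log |(S y - S x).det| + (PP G x + QQ G x) +
      (PP G y + QQ G y) +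
      Fintype.card K * (log (sin x) + log (cos x) + (log (sin y) + log (cos y))) +
      Fintype.card H * (log (sin x) + log (sin y)) := by
  obtain ⟨h1, h2⟩ := log_fac h hx
  obtain ⟨h3, h4⟩ := log_fac h hy
  unfold Ph
  refine ⟨mul_pos (mul_pos hd h1) h3, ?_⟩
  rw [log_mul (mul_pos hd h1).ne' h3.ne', log_mul hd.ne' h1.ne', h2, h4]
  ring

theorem log_F0 (m b : ℕ) {r : ℝ} (h1 : sin r ≠ 0) (h2 : cos r ≠ 0) :
    log (F0 m b r) = m * log (sin r) + b * log (cos r) := by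
  unfold F0
  rw [log_mul (pow_ne_zero _ h1) (pow_ne_zero _ h2), log_pow, log_pow]

theorem log_q1 {a b c e f k : ℝ} (ha : a ≠ 0) (hb : b ≠ 0) (hc : c ≠ 0) (he : e ≠ 0) (hf : f ≠ 0)
    (hk : k ≠ 0) : log (a * b / (c * e * (f * k))) =
      log a + log b - (log c + log e + (log f + log k)) := by
  rw [log_div (mul_ne_zero ha hb) (mul_ne_zero (mul_ne_zero hc he) (mul_ne_zero hf hk)),
    log_mul ha hb, log_mul (mul_ne_zero hc he) (mul_ne_zero hf hk), log_mul hc he, log_mul hf hk]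

theorem log_q2 {a c f : ℝ} (ha : a ≠ 0) (hc : c ≠ 0) (hf : f ≠ 0) :
    log (a / (c * f)) = log a - (log c + log f) := by
  rw [log_div ha (mul_ne_zero hc hf), log_mul hc hf]

theorem log_prod_le {a b c : ℝ} (ha : 0 < a) (hb : 0 < b) (h : a * b ≤ c) :
    0 < c ∧ log a + log b ≤ log c ∧ (log a + log b = log c → a * b = c) := by
  have hc : 0 < c := (mul_pos ha hb).trans_le h
  rw [← log_mul ha.ne' hb.ne']
  exact ⟨hc, log_le_log (mul_pos ha hb) h, fun he => log_injOn_pos (mul_pos ha hb) hc he⟩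

end BKPtAux

open BKPtAux

/-- No singular time between `x` and `y`: `schur_pos`, `blockH`, `blockK`. -/
theorem BKD.case1 (h : BKD G S) {x y : ℝ} (hI : Icc x y ⊆ II) (hxy : x < y) :
    0 < Ph G S x y ∧
    log (F0 (Fintype.card K + Fintype.card H) (Fintype.card K) (y - x)) + (PP G x + QQ G x) +
      (PP G y + QQ G y) - 2 * av1 (PP G) x y - 2 * av2 (QQ G) x y ≤ log (Ph G S x y) ∧
    (log (F0 (Fintype.card K + Fintype.card H) (Fintype.card K) (y - x)) + (PP G x + QQ G x) +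
      (PP G y + QQ G y) - 2 * av1 (PP G) x y - 2 * av2 (QQ G) x y = log (Ph G S x y) →
      ∃ C₁ C₂, ∃ C₃ : Matrix H K ℝ, ∀ t ∈ Ioo x y, (G t).toBlocks₁₁ = C₁ ∧
        (G t)⁻¹.toBlocks₂₂ = C₂ ∧ (G t).toBlocks₂₁ * (G t).toBlocks₁₁⁻¹ = cos t • C₃) := by
  have hx : x ∈ II := hI ⟨le_rfl, hxy.le⟩
  have hy : y ∈ II := hI ⟨hxy.le, le_rfl⟩
  have hr : y - x < π / 2 := by
    by_contra hc
    have h1 := hx.1.1
    have h2 := hy.1.2
    exact (hI (show π / 2 ∈ Icc x y from ⟨by linarith, by linarith⟩)).2 rfl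
  obtain ⟨-, sx, cx⟩ := II_facts hx
  obtain ⟨-, sy, cy⟩ := II_facts hy
  obtain ⟨-, sr, cr⟩ := II_facts (mem_lo (sub_pos.2 hxy) hr)
  obtain ⟨H1, H2, H3⟩ := h.blockH hx hy hxy
  obtain ⟨T, K1, K2, K3, K4⟩ := h.blockK hI hxy
  obtain ⟨S1, S2⟩ := schur_pos (h.symm x hx y hy) H1 K1 fun ζ => (K4 ζ).1
  obtain ⟨L1, L2, L3⟩ := log_prod_le H1.det_pos K1.det_pos S1
  obtain ⟨P1, P2⟩ := log_Ph h hx hy L1
  rw [log_q1 sr.ne' cr sx.ne' cx sy.ne' cy] at K2 K3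
  rw [log_q2 sr.ne' sx.ne' sy.ne'] at H2 H3
  rw [P2, log_F0 _ _ sr.ne' cr]
  push_cast
  refine ⟨P1, by linarith, fun he => ?_⟩
  obtain ⟨C₁, hC₁⟩ := K3 (by linarith)
  obtain ⟨C₂, hC₂⟩ := H3 (by linarith)
  choose ζ hζ hζ' using S2 (L3 (by linarith))
  refine ⟨C₁, C₂, Matrix.of fun i j => ζ (Pi.single j 1) (Sum.inr i), fun t ht =>
    ⟨hC₁ t ht, hC₂ t ht (hI ⟨ht.1.le, ht.2.le⟩).2, ?_⟩⟩
  ext i j
  have h1 := (K4 (ζ (Pi.single j 1))).2 (by rw [hζ', hζ]) t ht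
  rw [hζ, Matrix.mulVec_single_one] at h1
  exact congrFun h1 i

/-- Crossing `π / 2`: `S y - S x = (S (x + π/2) - S x) - (S (x + π/2) - S y)`, `ker_compl`, `blockK` on
`[y, x + π/2]`, `schur_neg`. -/
theorem BKD.case2 (h : BKD G S) (hk : BKK S) {x y : ℝ} (hx : 0 < x) (hx' : x < π / 2)
    (hy : π / 2 < y) (hy' : y < x + π / 2) :
    0 < Ph G S x y ∧
    log (F0 (Fintype.card K + Fintype.card H) (Fintype.card K) (y - x)) + (PP G x + QQ G x) +
      (PP G y + QQ G y) - 2 * av1 (PP G) y (x + π / 2) - 2 * av2 (QQ G) x y ≤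
        log (Ph G S x y) := by
  have hxI : x ∈ II := mem_lo hx hx'
  have hyI : y ∈ II := mem_hi hy (by linarith)
  have hzI : x + π / 2 ∈ II := mem_hi (by linarith) (by linarith)
  have hxy : x < y := by linarith
  have hI : Icc y (x + π / 2) ⊆ II := fun t ht =>
    mem_hi (by linarith [ht.1]) (by linarith [ht.2])
  obtain ⟨-, sx, cx⟩ := II_facts hxI
  obtain ⟨-, sy, cy⟩ := II_facts hyI
  obtain ⟨-, sr, cr⟩ := II_facts (mem_lo (sub_pos.2 hxy) (by linarith))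
  obtain ⟨H1, H2, -⟩ := h.blockH hxI hyI hxy
  obtain ⟨T, K1, K2, -, K4⟩ := h.blockK hI hy'
  obtain ⟨N1, -⟩ := ker_compl (h.symm x hxI _ hzI) (h.blockH hxI hzI (by linarith)).1
    (hk x ⟨hx, hx'⟩)
  have S1 := schur_neg (h.symm x hxI y hyI) H1 K1 fun ξ => by
    obtain ⟨ζ, rfl, hζ⟩ := N1 ξ
    refine ⟨ζ, rfl, ?_⟩
    have e : S y - S x = S (x + π / 2) - S x - (S (x + π / 2) - S y) := by abel
    rw [e, Matrix.sub_mulVec, hζ, zero_sub, dotProduct_neg]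
    exact neg_le_neg (K4 ζ).1
  obtain ⟨L1, L2, -⟩ := log_prod_le H1.det_pos K1.det_pos S1
  obtain ⟨P1, P2⟩ := log_Ph h hxI hyI L1
  have e1 : x + π / 2 - y = π / 2 - (y - x) := by ring
  rw [e1, sin_pi_div_two_sub, cos_pi_div_two_sub, sin_add_pi_div_two, cos_add_pi_div_two,
    log_q1 cr sr.ne' sy.ne' cy cx (neg_ne_zero.2 sx.ne'), log_neg_eq_log] at K2
  rw [log_q2 sr.ne' sx.ne' sy.ne'] at H2
  rw [P2, log_F0 _ _ sr.ne' cr]
  push_cast
  exact ⟨P1, by linarith⟩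

/-- Long intervals: `S y - S x = (S y - S (y - π/2)) + (S (y - π/2) - S x)`, the first term is
nonnegative (`ker_compl`), `blockK` on `[x, y - π/2]`, `schur_pos`. -/
theorem BKD.case3 (h : BKD G S) (hk : BKK S) {x y : ℝ} (hx : 0 < x) (hy : x + π / 2 < y)
    (hy' : y < π) :
    0 < Ph G S x y ∧
    log (F0 (Fintype.card K + Fintype.card H) (Fintype.card K) (π - (y - x))) + (PP G x + QQ G x) +
      (PP G y + QQ G y) - 2 * av1 (PP G) x (y - π / 2) - 2 * av2 (QQ G) x y ≤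
        log (Ph G S x y) := by
  have hpi := pi_pos
  have hxI : x ∈ II := mem_lo hx (by linarith)
  have hyI : y ∈ II := mem_hi (by linarith) hy'
  have hzI : y - π / 2 ∈ II := mem_lo (by linarith) (by linarith)
  have hxy : x < y := by linarith
  have hI : Icc x (y - π / 2) ⊆ II := fun t ht =>
    mem_lo (by linarith [ht.1]) (by linarith [ht.2])
  obtain ⟨-, sx, cx⟩ := II_facts hxI
  obtain ⟨-, sy, cy⟩ := II_facts hyI
  obtain ⟨-, sr, cr⟩ := II_facts (mem_hi (t := y - x) (by linarith) (by linarith))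
  obtain ⟨H1, H2, -⟩ := h.blockH hxI hyI hxy
  obtain ⟨T, K1, K2, -, K4⟩ := h.blockK hI (by linarith)
  have hk' := hk (y - π / 2) ⟨by linarith, by linarith⟩
  rw [sub_add_cancel] at hk'
  obtain ⟨-, N2⟩ := ker_compl (h.symm _ hzI y hyI) (h.blockH hzI hyI (by linarith)).1 hk'
  obtain ⟨S1, -⟩ := schur_pos (h.symm x hxI y hyI) H1 K1 fun ζ => by
    have e : S y - S x = S y - S (y - π / 2) + (S (y - π / 2) - S x) := by abel
    rw [e, Matrix.add_mulVec, dotProduct_add]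
    exact (K4 ζ).1.trans (le_add_of_nonneg_left (N2 ζ))
  obtain ⟨L1, L2, -⟩ := log_prod_le H1.det_pos K1.det_pos S1
  obtain ⟨P1, P2⟩ := log_Ph h hxI hyI L1
  have e1 : y - π / 2 - x = y - x - π / 2 := by ring
  rw [e1, sin_sub_pi_div_two, cos_sub_pi_div_two, sin_sub_pi_div_two, cos_sub_pi_div_two,
    log_q1 (neg_ne_zero.2 cr) sr.ne' sx.ne' cx (neg_ne_zero.2 cy) sy.ne', log_neg_eq_log,
    log_neg_eq_log] at K2
  rw [log_q2 sr.ne' sx.ne' sy.ne'] at H2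
  rw [P2, log_F0 _ _ (by rw [sin_pi_sub]; exact sr.ne') (by rw [cos_pi_sub]; exact neg_ne_zero.2 cr),
    sin_pi_sub, cos_pi_sub, log_neg_eq_log]
  push_cast
  exact ⟨P1, by linarith⟩

end Vale.Agent.P231
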