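import Vale.Agent.P231.Defs
import Vale.Agent.P234.Smooth

/-! Internal definitions of the P231 development. -/

open scoped Manifold ContDiff Topology ENNReal RealInnerProductSpace
open Set Filter Real Module

namespace Vale.Agent.P231

open Vale.Agent.P255 Vale.Agent.P234

section Geo

variable {E : Type} [NormedAddCommGroup E] [NormedSpace ℝ E]
  {M : Type} [MetricSpace M] [ChartedSpace E M]

/-- Blaschke manifold of diameter `π / 2 * κ`. Vectors of norm `κ` play the role of unit vectors. -/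
structure Bl (g : M → E →L[ℝ] E →L[ℝ] ℝ) (κ : ℝ) : Prop extends RM g where
  kpos : 0 < κ
  dimpos : 1 ≤ finrank ℝ E
  mn : ∀ x v, nr g x v = κ → Mn g x ((π / 2) • v)
  diam : ∀ x y : M, dist x y ≤ π / 2 * κ
  ne : Nonempty M

/-- Gram determinant. -/
noncomputable def gd {ι : Type} [Fintype ι] [DecidableEq ι] (G : E →L[ℝ] E →L[ℝ] ℝ) (f : ι → E) :
    ℝ := (Matrix.of fun i j => G (f i) (f j)).det

/-- Jacobian of the exponential map. -/
noncomputable def jac [FiniteDimensional ℝ E] (g : M → E →L[ℝ] E →L[ℝ] ℝ) (x : M) (v : E) : ℝ :=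
  √(gd (g (ex g x v)) (fun i => dM E (ex g x) v (finBasis ℝ E i)) / gd (g x) (finBasis ℝ E))

/-- Volume density in polar coordinates. -/
noncomputable def FF [FiniteDimensional ℝ E] (g : M → E →L[ℝ] E →L[ℝ] ℝ) (x : M) (v : E) (t : ℝ) :
    ℝ := |t| ^ (finrank ℝ E - 1) * jac g x (t • v)

/-- Jacobi field with `J 0 = 0`, `J' 0 = w` along the geodesic `(x, v)`. -/
noncomputable def JF (g : M → E →L[ℝ] E →L[ℝ] ℝ) (x : M) (v : E) (t : ℝ) (w : E) : E :=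
  dM E (ex g x) (t • v) (t • w)

/-- Kernel of the differential of the exponential map at the cut point. -/
noncomputable def KK (g : M → E →L[ℝ] E →L[ℝ] ℝ) (x : M) (v : E) : Submodule ℝ E :=
  LinearMap.ker (dM E (ex g x) ((π / 2) • v) : E →ₗ[ℝ] E)

/-- Directions at `q` of the geodesics which reach `p` at time `π / 2`. -/
def Lam (g : M → E →L[ℝ] E →L[ℝ] ℝ) (κ : ℝ) (q p : M) : Set E :=
  {u | nr g q u = κ ∧ ex g q ((π / 2) • u) = p}

/-- The cone over `Lam`. -/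
def Cn (g : M → E →L[ℝ] E →L[ℝ] ℝ) (κ : ℝ) (q p : M) : Set E :=
  {w | ∃ t : ℝ, 0 ≤ t ∧ ∃ u ∈ Lam g κ q p, w = t • u}

/-- A minimizing vector from `x` to `y`. -/
noncomputable def lg (g : M → E →L[ℝ] E →L[ℝ] ℝ) (x y : M) : E :=
  Classical.epsilon fun v => Mn g x v ∧ ex g x v = y

/-- Pairs of distinct points that are not cut points. -/
def Om (M : Type) [MetricSpace M] (κ : ℝ) : Set (M × M) :=
  {p | 0 < dist p.1 p.2 ∧ dist p.1 p.2 < π / 2 * κ}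

/-- Normalized distance. -/
noncomputable def tt (κ : ℝ) (p : M × M) : ℝ := dist p.1 p.2 / κ

/-- Direction of norm `κ` from `p.1` to `p.2`. -/
noncomputable def dir (g : M → E →L[ℝ] E →L[ℝ] ℝ) (κ : ℝ) (p : M × M) : E :=
  (tt κ p)⁻¹ • lg g p.1 p.2

open Classical in
/-- The density as a function of two points. -/
noncomputable def Fp [FiniteDimensional ℝ E] (g : M → E →L[ℝ] E →L[ℝ] ℝ) (κ : ℝ) (p : M × M) : ℝ :=
  if p ∈ Om M κ then FF g p.1 (dir g κ p) (tt κ p) else 1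

open Classical in
/-- Move both points along the geodesic through them, by `s` and `s'`. -/
noncomputable def mv (g : M → E →L[ℝ] E →L[ℝ] ℝ) (κ s s' : ℝ) (p : M × M) : M × M :=
  if p ∈ Om M κ then (geo g p.1 (dir g κ p) s, geo g p.1 (dir g κ p) (tt κ p + s')) else p

open MeasureTheory in
/-- Liouville measure times length, on pairs of points. -/
noncomputable def nu [FiniteDimensional ℝ E] [MeasurableSpace M] [BorelSpace M]
    (g : M → E →L[ℝ] E →L[ℝ] ℝ) (κ : ℝ) : Measure (M × M) :=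
  (((μHE[finrank ℝ E] : Measure M).prod μHE[finrank ℝ E]).restrict (Om M κ)).withDensity
    fun p => ENNReal.ofReal (Fp g κ p)⁻¹

/-- A system of Jacobi fields `J t u` along the geodesic `(x, v)`, with covariant derivative `D t u` at
the zeros, symplectic form `B` and energy variation `ε`. -/
structure JS [IsManifold 𝓘(ℝ, E) ∞ M] (g : M → E →L[ℝ] E →L[ℝ] ℝ) (x : M) (v : E)
    (J D : ℝ → E × E →L[ℝ] E) (B : E × E →L[ℝ] E × E →L[ℝ] ℝ) (ε : E × E →L[ℝ] ℝ) : Prop where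
  j0 : ∀ u, J 0 u = u.1
  anti : ∀ u u', B u u' = -B u' u
  vert : ∀ η u, B (0, η) u = g x η u.1
  ker : ∀ t u u', J t u = 0 → B u u' = g (geo g x v t) (D t u) (J t u')
  en : ∀ η, ε (0, η) = g x v η
  gauss : ∀ t u, g (geo g x v t) (vl g x v t) (J t u) = g x v u.1 + t * ε u
  shift : ∀ s t u, J s u = 0 → J t u = JF g (geo g x v s) (vl g x v s) (t - s) (D s u)
  smooth : ∀ u t, SmV (geo g x v) (fun t => J t u) t
  slope : ∀ t₀ u, J t₀ u = 0 →
    CtV (geo g x v) (fun t => if t = t₀ then D t₀ u else (t - t₀)⁻¹ • J t u) t₀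

/-- The metric in polar coordinates at `x` is the one of the model. -/
def Rig (g : M → E →L[ℝ] E →L[ℝ] ℝ) (κ : ℝ) (x : M) (a : ℕ) : Prop :=
  ∀ v, nr g x v = κ → finrank ℝ (KK g x v) + 1 = a ∧ ∀ t ∈ Ioo 0 (π / 2), ∀ w w',
    (w ∈ KK g x v → g (geo g x v t) (JF g x v t w) (JF g x v t w') =
      (sin t * cos t) ^ 2 * g x w w') ∧
    (g x v w = 0 → (∀ k ∈ KK g x v, g x k w = 0) →
      g (geo g x v t) (JF g x v t w) (JF g x v t w') = sin t ^ 2 * g x w w')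

end Geo

/-- Model density. -/
noncomputable def F0 (m b : ℕ) (r : ℝ) : ℝ := sin r ^ m * cos r ^ b

section BK

variable {K H : Type} [Fintype K] [Fintype H] [DecidableEq K] [DecidableEq H]

/-- Model lengths of the Jacobi fields. -/
noncomputable def dl (t : ℝ) : K ⊕ H → ℝ := Sum.elim (fun _ => sin t * cos t) fun _ => sin t

/-- Regular times. -/
def II : Set ℝ := Ioo 0 π \ {π / 2}

/-- Data along a closed geodesic: normalized Gram matrix `G` and Lagrangian curve `S`. -/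
structure BKD (G S : ℝ → Matrix (K ⊕ H) (K ⊕ H) ℝ) : Prop where
  cont : ContinuousOn G (Icc 0 π)
  pos : ∀ t ∈ Icc 0 π, (G t).PosDef
  symm : ∀ s ∈ II, ∀ t ∈ II, (S t - S s).IsSymm
  deriv : ∀ t ∈ II, ∀ i j, HasDerivAt (fun s => S s i j) ((G t)⁻¹ i j / (dl t i * dl t j)) t
  lim : ∀ i j : H, ∃ l, Tendsto (fun t => S t (.inr i) (.inr j)) (𝓝[≠] (π / 2)) (𝓝 l)

/-- Kernel condition. -/
def BKK (S : ℝ → Matrix (K ⊕ H) (K ⊕ H) ℝ) : Prop :=
  ∀ x ∈ Ioo 0 (π / 2),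
    Fintype.card K ≤ finrank ℝ (LinearMap.ker (Matrix.toLin' (S (x + π / 2) - S x)))

/-- The density between the times `x` and `y`. -/
noncomputable def Ph (G S : ℝ → Matrix (K ⊕ H) (K ⊕ H) ℝ) (x y : ℝ) : ℝ :=
  |(S y - S x).det| * (√(G x).det * |∏ i : K ⊕ H, dl x i|) * (√(G y).det * |∏ i : K ⊕ H, dl y i|)

/-- `L x` is the density between `x` and `x + r` on the circle of length `π`. -/
def IsL (G S : ℝ → Matrix (K ⊕ H) (K ⊕ H) ℝ) (r : ℝ) (L : ℝ → ℝ) : Prop :=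
  (∀ x ∈ II, x + r ∈ II → L x = Ph G S x (x + r)) ∧
    ∀ x ∈ Ioo (π - r) π, L x = Ph G S (x + r - π) x

/-- Half the logarithm of the determinant of the `K` block. -/
noncomputable def PP (G : ℝ → Matrix (K ⊕ H) (K ⊕ H) ℝ) (t : ℝ) : ℝ :=
  log (G t).toBlocks₁₁.det / 2

/-- The complementary part. -/
noncomputable def QQ (G : ℝ → Matrix (K ⊕ H) (K ⊕ H) ℝ) (t : ℝ) : ℝ :=
  -log (G t)⁻¹.toBlocks₂₂.det / 2

end BK

/-- Average of `u` over `[x, y]` for the weight `1 / sin²`. -/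
noncomputable def av2 (u : ℝ → ℝ) (x y : ℝ) : ℝ :=
  (∫ t in x..y, u t / sin t ^ 2) / (sin (y - x) / (sin x * sin y))

/-- Average of `u` over `[x, y]` for the weight `1 / (sin cos)²`. -/
noncomputable def av1 (u : ℝ → ℝ) (x y : ℝ) : ℝ :=
  (∫ t in x..y, u t / (sin t * cos t) ^ 2) /
    (sin (y - x) * cos (y - x) / (sin x * cos x * (sin y * cos y)))

section GD

variable {E : Type} [NormedAddCommGroup E] [NormedSpace ℝ E] [FiniteDimensional ℝ E]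
  {M : Type} [MetricSpace M] [ChartedSpace E M]
  {K H : Type} [Fintype K] [Fintype H] [DecidableEq K] [DecidableEq H]

/-- An adapted orthonormal basis of the orthogonal complement of `v`. -/
structure Fr (g : M → E →L[ℝ] E →L[ℝ] ℝ) (x : M) (v : E) (e : K ⊕ H → E) : Prop where
  on : ∀ i j, g x (e i) (e j) = if i = j then 1 else 0
  perp : ∀ i, g x v (e i) = 0
  card : Fintype.card K + Fintype.card H + 1 = finrank ℝ E
  cardK : Fintype.card K = finrank ℝ (KK g x v)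
  memK : ∀ i, e (.inl i) ∈ KK g x v

/-- Gram matrix of the Jacobi fields vanishing at `0`. -/
noncomputable def Gam (g : M → E →L[ℝ] E →L[ℝ] ℝ) (x : M) (v : E) (e : K ⊕ H → E) (t : ℝ) :
    Matrix (K ⊕ H) (K ⊕ H) ℝ :=
  Matrix.of fun i j => g (geo g x v t) (JF g x v t (e i)) (JF g x v t (e j))

/-- Normalized Jacobi fields. -/
noncomputable def Jn (J D : ℝ → E × E →L[ℝ] E) (e : K ⊕ H → E) (t : ℝ) (i : K ⊕ H) : E :=
  if dl t i = 0 then (deriv (fun s => dl s i) t)⁻¹ • D t (0, e i) else (dl t i)⁻¹ • J t (0, e i)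

/-- Normalized Gram matrix. -/
noncomputable def Gn (g : M → E →L[ℝ] E →L[ℝ] ℝ) (x : M) (v : E) (J D : ℝ → E × E →L[ℝ] E)
    (e : K ⊕ H → E) (t : ℝ) : Matrix (K ⊕ H) (K ⊕ H) ℝ :=
  Matrix.of fun i j => g (geo g x v t) (Jn J D e t i) (Jn J D e t j)

/-- Complementary normal Jacobi fields. -/
noncomputable def cv (g : M → E →L[ℝ] E →L[ℝ] ℝ) (x : M) (v : E) (ε : E × E →L[ℝ] ℝ) (w : E) :
    E × E := (w, -(ε (w, 0) / g x v v) • v)

/-- The Lagrangian curve. -/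
noncomputable def Sn (g : M → E →L[ℝ] E →L[ℝ] ℝ) (x : M) (v : E) (J : ℝ → E × E →L[ℝ] E)
    (ε : E × E →L[ℝ] ℝ) (e : K ⊕ H → E) (t : ℝ) : Matrix (K ⊕ H) (K ⊕ H) ℝ :=
  -((Gam g x v e t)⁻¹ *
    Matrix.of fun i j => g (geo g x v t) (JF g x v t (e i)) (J t (cv g x v ε (e j))))

/-- The parameter of the Jacobi field vanishing at time `s` with `j`-th complementary part. -/
noncomputable def zv (g : M → E →L[ℝ] E →L[ℝ] ℝ) (x : M) (v : E) (J : ℝ → E × E →L[ℝ] E)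
    (ε : E × E →L[ℝ] ℝ) (e : K ⊕ H → E) (s : ℝ) (j : K ⊕ H) : E × E :=
  cv g x v ε (e j) + ∑ i, Sn g x v J ε e s i j • ((0 : E), e i)

end GD

/-- Euclidean space. -/
abbrev Eu (n : ℕ) : Type := EuclideanSpace ℝ (Fin n)

section Fib

variable {n : ℕ}

/-- A great sphere fibration whose projections depend quadratically on the point. -/
structure Fib (P : Eu n →L[ℝ] Eu n →L[ℝ] Eu n →L[ℝ] Eu n) (a : ℕ) : Prop where
  symm : ∀ x y, P x y = P y x
  adj : ∀ x y z w, ⟪P x y z, w⟫ = ⟪z, P x y w⟫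
  idem : ∀ x z, P x x (P x x z) = ‖x‖ ^ 2 • P x x z
  self : ∀ x, P x x x = ‖x‖ ^ 2 • x
  fib : ∀ x y, P x x y = ‖x‖ ^ 2 • y → ‖x‖ ^ 2 • P y y = ‖y‖ ^ 2 • P x x
  rank : ∀ x, ‖x‖ = 1 → finrank ℝ (LinearMap.range (P x x : Eu n →ₗ[ℝ] Eu n)) = a

/-- The squared cosine of the distance in the model. -/
noncomputable def cc (P : Eu n →L[ℝ] Eu n →L[ℝ] Eu n →L[ℝ] Eu n) (p q : ℝ × Eu n) : ℝ :=
  p.1 ^ 2 * q.1 ^ 2 + 2 * (p.1 * q.1) * ⟪p.2, q.2⟫ + ⟪P p.2 p.2 q.2, q.2⟫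

/-- The closed upper half sphere. -/
def Hs (n : ℕ) : Set (ℝ × Eu n) := {p | 0 ≤ p.1 ∧ p.1 ^ 2 + ‖p.2‖ ^ 2 = 1}

/-- Polar coordinates on the half sphere. -/
noncomputable def hp (y : Eu n) : ℝ × Eu n := (cos ‖y‖, (sin ‖y‖ / ‖y‖) • y)

/-- The model metric at `y ≠ 0` in normal coordinates. -/
noncomputable def gm (P : Eu n →L[ℝ] Eu n →L[ℝ] Eu n →L[ℝ] Eu n) (y w w' : Eu n) : ℝ :=
  ⟪y, w⟫ * ⟪y, w'⟫ / ‖y‖ ^ 2 +
    (sin ‖y‖ * cos ‖y‖ / ‖y‖) ^ 2 * ((⟪P y y w, w'⟫ - ⟪y, w⟫ * ⟪y, w'⟫) / ‖y‖ ^ 2) +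
    (sin ‖y‖ / ‖y‖) ^ 2 * (⟪w, w'⟫ - ⟪P y y w, w'⟫ / ‖y‖ ^ 2)

/-- The punctured ball. -/
def Bo (n : ℕ) : Set (Eu n) := {y | 0 < ‖y‖ ∧ ‖y‖ < π / 2}

/-- `X` with the distance `d` is parametrized by the half sphere. -/
def Par (P : Eu n →L[ℝ] Eu n →L[ℝ] Eu n →L[ℝ] Eu n) (X : Type) (d : X → X → ℝ) : Prop :=
  ∃ σ > (0 : ℝ), ∃ f : ℝ × Eu n → X, (∀ p ∈ Hs n, ∀ q ∈ Hs n, d (f p) (f q) = σ * arccos √(cc P p q)) ∧
    (∀ z, ∃ p ∈ Hs n, f p = z) ∧ ∀ z z', d z z' = 0 ↔ z = z'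

end Fib

section Mod

variable {E : Type} [NormedAddCommGroup E] [NormedSpace ℝ E]
  {M : Type} [MetricSpace M] [ChartedSpace E M] {n : ℕ}

/-- Normal coordinates at `x` in which the metric is the model metric. -/
structure Mo (g : M → E →L[ℝ] E →L[ℝ] ℝ) (κ : ℝ) (x : M) (ι : Eu n ≃L[ℝ] E)
    (P : Eu n →L[ℝ] Eu n →L[ℝ] Eu n →L[ℝ] Eu n) : Prop where
  iso : ∀ a b, g x (ι a) (ι b) = κ ^ 2 * ⟪a, b⟫
  met : ∀ y ∈ Bo n, ∀ w w', g (ex g x (ι y)) (dM E (ex g x) (ι y) (ι w)) (dM E (ex g x) (ι y) (ι w')) =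
    κ ^ 2 * gm P y w w'
  cut : ∀ θ θ', ‖θ‖ = 1 → ‖θ'‖ = 1 →
    (ex g x ((π / 2) • ι θ) = ex g x ((π / 2) • ι θ') ↔ P θ θ θ' = θ')

end Mod

/-- A composition algebra structure with unit `e` on a Euclidean space. -/
structure Comp {A : Type} [NormedAddCommGroup A] [InnerProductSpace ℝ A]
    (m : A →ₗ[ℝ] A →ₗ[ℝ] A) (e : A) : Prop where
  norm_e : ‖e‖ = 1
  one_mul : ∀ x, m e x = x
  mul_one : ∀ x, m x e = x
  norm_mul : ∀ x y, ‖m x y‖ = ‖x‖ * ‖y‖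

end Vale.Agent.P231
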