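import Vale.Agent.P231.Base

/-! First properties of Blaschke manifolds. -/

open scoped Manifold ContDiff Topology ENNReal RealInnerProductSpace
open Set Filter Real Module

set_option linter.unusedSectionVars false

namespace Vale.Agent.P231

open Vale.Agent.P255 Vale.Agent.P234

variable {E : Type} [NormedAddCommGroup E] [NormedSpace ℝ E] [FiniteDimensional ℝ E]
  {M : Type} [MetricSpace M] [CompactSpace M] [ChartedSpace E M] [IsManifold 𝓘(ℝ, E) ∞ M]
  {g : M → E →L[ℝ] E →L[ℝ] ℝ} {κ : ℝ}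

namespace BlAux

theorem continuous_nr (x : M) : Continuous (nr g x) := by
  unfold nr
  fun_prop

theorem exists_nr (h : RM g) (hn : 1 ≤ finrank ℝ E) (x : M) {r : ℝ} (hr : 0 < r) :
    ∃ v, nr g x v = r := by
  have : Nontrivial E := Module.nontrivial_of_finrank_pos (R := ℝ) hn
  obtain ⟨w, hw⟩ := exists_ne (0 : E)
  have h1 : 0 < nr g x w := Real.sqrt_pos.2 (h.pos x w hw)
  exact ⟨(r / nr g x w) • w, by rw [nr_smul, abs_of_pos (div_pos hr h1), div_mul_cancel₀ _ h1.ne']⟩

theorem mn_lim (h : RM g) {x : M} {w : E} (hw : ∀ s : ℝ, 0 ≤ s → s < 1 → Mn g x (s • w)) :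
    Mn g x w := by
  have hc : IsClosed {s : ℝ | dist x (ex g x (s • w)) = nr g x (s • w)} :=
    isClosed_eq (continuous_const.dist ((h.continuous_ex x).comp (by fun_prop)))
      ((continuous_nr x).comp (by fun_prop))
  have h1 : Ico (0 : ℝ) 1 ⊆ {s : ℝ | dist x (ex g x (s • w)) = nr g x (s • w)} :=
    fun s hs => hw s hs.1 hs.2
  have h2 := hc.closure_subset_iff.2 h1
  rw [closure_Ico zero_ne_one] at h2
  have h3 : dist x (ex g x ((1 : ℝ) • w)) = nr g x ((1 : ℝ) • w) := h2 ⟨zero_le_one, le_rfl⟩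
  rwa [one_smul] at h3

theorem mn_lt (h : RM g) (hb : IsBlaschke g) {x : M} {w : E}
    (hw : nr g x w < Metric.diam (univ : Set M)) : Mn g x w := by
  have hbd : Bornology.IsBounded (univ : Set M) := isCompact_univ.isBounded
  have h1 : ENNReal.ofReal (nr g x w) < injAt g x := by
    refine lt_of_lt_of_le ?_ (hb.2.ge.trans (iInf_le _ x))
    exact (ENNReal.ofReal_lt_iff_lt_toReal (nr_nonneg x w) hbd.ediam_ne_top).2 hw
  obtain ⟨r, h2⟩ := lt_iSup_iff.1 h1
  obtain ⟨hr, h3⟩ := lt_iSup_iff.1 h2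
  have h4 : nr g x w < r := by
    rwa [ENNReal.ofReal_lt_iff_lt_toReal (nr_nonneg x w) ENNReal.coe_ne_top, ENNReal.coe_toReal]
      at h3
  obtain ⟨w', hw', he⟩ := h.hopf_rinow x (ex g x w)
  have h5 : nr g x w' ≤ nr g x w := by
    have h6 : dist x (ex g x w') = nr g x w' := hw'
    rw [← h6, he]
    exact h.dist_ex x w
  have h6 : w' = w := hr.1 (h5.trans_lt h4) h4 he
  rwa [h6] at hw'

theorem mn_le (h : Bl g κ) {x : M} {v : E} (hv : nr g x v = κ) {t : ℝ} (ht : |t| ≤ π / 2) :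
    Mn g x (t • v) := by
  have hp := pi_div_two_pos
  have key : ∀ (u : E) (s : ℝ), nr g x u = κ → 0 ≤ s → s ≤ π / 2 → Mn g x (s • u) := by
    intro u s hu hs hs'
    have h1 := h.toRM.mn_smul (h.mn x u hu) (div_nonneg hs hp.le) ((div_le_one hp).2 hs')
    rwa [smul_smul, div_mul_cancel₀ _ hp.ne'] at h1
  rcases le_total 0 t with h0 | h0
  · exact key v t hv h0 (by rwa [abs_of_nonneg h0] at ht)
  · rw [← neg_smul_neg]
    exact key (-v) (-t) (by rw [nr_neg, hv]) (neg_nonneg.2 h0) (by rwa [abs_of_nonpos h0] at ht)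

theorem nonempty (hb : IsBlaschke g) : Nonempty M := by
  by_contra h0
  have hM : IsEmpty M := not_nonempty_iff.1 h0
  have h1 := hb.2
  rw [iInf_of_empty, univ_eq_empty_iff.2 hM, Metric.ediam_empty] at h1
  exact ENNReal.top_ne_zero h1

theorem lg_spec (h : RM g) (x y : M) : Mn g x (lg g x y) ∧ ex g x (lg g x y) = y :=
  Classical.epsilon_spec (h.hopf_rinow x y)

end BlAux

theorem geo_flow (h : RM g) (x : M) (v : E) (s t : ℝ) :
    geo g (geo g x v s) (vl g x v s) t = geo g x v (s + t) := by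
  simpa using congrFun (h.geo_aff x v s 1) t

theorem vl_flow' (h : RM g) (x : M) (v : E) (s t : ℝ) :
    vl g (geo g x v s) (vl g x v s) t = vl g x v (s + t) := by
  simpa using h.vl_aff x v s 1 t

theorem geo_neg (h : RM g) (x : M) (v : E) (t : ℝ) : geo g x (-v) t = geo g x v (-t) := by
  rw [h.geo_eq, h.geo_eq, smul_neg, neg_smul]

theorem vl_neg (h : RM g) (x : M) (v : E) (t : ℝ) : vl g x (-v) t = -vl g x v (-t) := by
  simpa using h.vl_smul x v t (-1)

theorem nr_vl' (h : RM g) (x : M) (v : E) (t : ℝ) :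
    nr g (geo g x v t) (vl g x v t) = nr g x v := by
  rw [h.geo_eq]
  exact h.nr_vl x v t

theorem continuous_geo (h : RM g) (x : M) (v : E) : Continuous (geo g x v) := by
  have h1 : geo g x v = fun t : ℝ => ex g x (t • v) := funext (h.geo_eq x v)
  rw [h1]
  exact (h.continuous_ex x).comp (by fun_prop)

theorem exists_iso (h : RM g) (x : M) (hκ : 0 < κ) :
    ∃ ι : Eu (finrank ℝ E) ≃L[ℝ] E, ∀ a b, g x (ι a) (ι b) = κ ^ 2 * ⟪a, b⟫ := by
  let B : LinearMap.BilinForm ℝ E :=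
    LinearMap.mk₂ ℝ (fun v w => g x v w) (by simp) (by simp) (by simp) (by simp)
  have hB : LinearMap.IsSymm B := ⟨fun v w => h.symm x v w⟩
  obtain ⟨b, hb⟩ := LinearMap.BilinForm.exists_orthogonal_basis hB
  have hp : ∀ i, 0 < nr g x (b i) := fun i => Real.sqrt_pos.2 (h.pos x _ (b.ne_zero i))
  let c : Fin (finrank ℝ E) → ℝˣ := fun i => Units.mk0 (κ / nr g x (b i)) (div_pos hκ (hp i)).ne'
  let f := b.unitsSMul c
  have hf : ∀ i j, g x (f i) (f j) = if i = j then κ ^ 2 else 0 := by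
    intro i j
    simp only [f, Basis.unitsSMul_apply, Units.smul_def, c, Units.val_mk0, map_smul, smul_apply,
      smul_eq_mul]
    split_ifs with hij
    · subst hij
      rw [← h.nr_sq]
      have := (hp i).ne'
      field_simp
    · have h1 : g x (b i) (b j) = 0 := hb hij
      rw [h1, mul_zero, mul_zero]
  refine ⟨((WithLp.linearEquiv 2 ℝ _).trans f.equivFun.symm).toContinuousLinearEquiv,
    fun a a' => ?_⟩
  simp only [LinearEquiv.coe_toContinuousLinearEquiv', LinearEquiv.trans_apply,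
    Basis.equivFun_symm_apply, WithLp.linearEquiv_apply, map_sum, map_smul,
    sum_apply, smul_apply, smul_eq_mul, hf, mul_ite, mul_zero,
    Finset.sum_ite_eq', Finset.mem_univ, if_true, PiLp.inner_apply, Finset.mul_sum]
  refine Finset.sum_congr rfl fun i _ => ?_
  simp
  ring

/-- `M` has two points (the target of a chart is a nonempty open subset of the nontrivial space `E`; `M` is
nonempty since otherwise the infimum is `⊤` and the diameter `0`), so the diameter `D` is positive. If `nr w < D`, take `r` with `nr w < r`, `DiffeoOn r`, and `w'` from `hopf_rinow`; `nr w' ≤ nr w`, so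
`w' = w`. For `nr w = D` use continuity. -/
theorem bl_of (h : RM g) (hb : IsBlaschke g) : Bl g (2 * Metric.diam (univ : Set M) / π) := by
  have hbd : Bornology.IsBounded (univ : Set M) := isCompact_univ.isBounded
  have hD : π / 2 * (2 * Metric.diam (univ : Set M) / π) = Metric.diam (univ : Set M) := by
    have := pi_pos.ne'
    field_simp
  have hle : ∀ x y : M, dist x y ≤ Metric.diam (univ : Set M) := fun x y =>
    Metric.dist_le_diam_of_mem hbd (mem_univ x) (mem_univ y)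
  have hpos : 0 < Metric.diam (univ : Set M) := by
    obtain ⟨x⟩ := BlAux.nonempty hb
    obtain ⟨r, hr, -, h1⟩ := h.normal
    obtain ⟨v, hv⟩ := BlAux.exists_nr h hb.1 x (half_pos hr)
    have h2 : dist x (ex g x v) = nr g x v := h1 x v (by rw [hv]; exact half_lt_self hr)
    have h3 := hle x (ex g x v)
    linarith
  refine ⟨h, by have := pi_pos; positivity, hb.1, fun x v hv => ?_, fun x y => (hle x y).trans hD.ge,
    BlAux.nonempty hb⟩
  refine BlAux.mn_lim h fun s hs hs1 => BlAux.mn_lt h hb ?_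
  rw [nr_smul, nr_smul, hv, abs_of_nonneg hs, abs_of_pos pi_div_two_pos, hD]
  exact mul_lt_of_lt_one_left hpos hs1

theorem Bl.sq (h : Bl g κ) {x : M} {v : E} (hv : nr g x v = κ) : g x v v = κ ^ 2 := by
  rw [← h.toRM.nr_sq, hv]

theorem Bl.inj (h : Bl g κ) {x : M} {v : E} (hv : nr g x v = κ) {t : ℝ} (ht : |t| < π / 2) :
    t • v ∈ Inj g x := by
  rcases le_total 0 t with h0 | h0
  · exact h.toRM.inj_lt (h.mn x v hv) h0 (by rwa [abs_of_nonneg h0] at ht)
  · rw [← neg_smul_neg]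
    exact h.toRM.inj_lt (h.mn x (-v) (by rw [nr_neg, hv])) (neg_nonneg.2 h0)
      (by rwa [abs_of_nonpos h0] at ht)

theorem Bl.nc (h : Bl g κ) {x : M} {v : E} (hv : nr g x v = κ) {t : ℝ} (ht : |t| < π / 2) :
    NC g x (t • v) := h.toRM.nc_of_inj (h.inj hv ht)

theorem Bl.dist_geo (h : Bl g κ) {x : M} {v : E} (hv : nr g x v = κ) {s t : ℝ}
    (hst : |t - s| ≤ π / 2) : dist (geo g x v s) (geo g x v t) = |t - s| * κ := by
  have h1 : nr g (geo g x v s) (vl g x v s) = κ := by rw [nr_vl' h.toRM, hv]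
  have h2 : geo g x v t = ex g (geo g x v s) ((t - s) • vl g x v s) := by
    rw [← h.toRM.geo_eq, geo_flow h.toRM, add_sub_cancel]
  have h3 : dist _ _ = _ := BlAux.mn_le h h1 hst
  rw [h2, h3, nr_smul, h1]

theorem Bl.exists_dir (h : Bl g κ) (x y : M) :
    ∃ v, nr g x v = κ ∧ geo g x v (dist x y / κ) = y := by
  have hk := h.kpos
  rcases eq_or_ne x y with rfl | hxy
  · obtain ⟨v, hv⟩ := BlAux.exists_nr h.toRM h.dimpos x hk
    exact ⟨v, hv, by rw [dist_self, zero_div, h.toRM.geo_zero]⟩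
  · obtain ⟨w, hw, hy⟩ := h.toRM.hopf_rinow x y
    have hd : 0 < dist x y := dist_pos.2 hxy
    have h1 : nr g x w = dist x y := by rw [← hy]; exact hw.symm
    refine ⟨(κ / dist x y) • w, ?_, ?_⟩
    · rw [nr_smul, h1, abs_of_pos (div_pos hk hd), div_mul_cancel₀ _ hd.ne']
    · rw [h.toRM.geo_eq, smul_smul, div_mul_div_cancel₀ hk.ne', div_self hd.ne', one_smul, hy]

theorem Bl.dir_spec (h : Bl g κ) {p : M × M} (hp : p ∈ Om M κ) :
    nr g p.1 (dir g κ p) = κ ∧ geo g p.1 (dir g κ p) (tt κ p) = p.2 ∧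
      tt κ p ∈ Ioo 0 (π / 2) := by
  have hk := h.kpos
  obtain ⟨hw, hy⟩ := BlAux.lg_spec h.toRM p.1 p.2
  have ht : 0 < tt κ p := div_pos hp.1 hk
  have h1 : nr g p.1 (lg g p.1 p.2) = dist p.1 p.2 := by
    have h2 : dist p.1 (ex g p.1 (lg g p.1 p.2)) = _ := hw
    rw [← h2, hy]
  refine ⟨?_, ?_, ht, (div_lt_iff₀ hk).2 hp.2⟩
  · rw [dir, nr_smul, h1, abs_of_pos (inv_pos.2 ht), tt, inv_div, div_mul_cancel₀ _ hp.1.ne']
  · rw [h.toRM.geo_eq, dir, smul_smul, mul_inv_cancel₀ ht.ne', one_smul, hy]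

theorem Bl.dir_geo (h : Bl g κ) {x : M} {v : E} (hv : nr g x v = κ) {t : ℝ}
    (ht : t ∈ Ioo 0 (π / 2)) : (x, geo g x v t) ∈ Om M κ ∧ dir g κ (x, geo g x v t) = v ∧
      tt κ (x, geo g x v t) = t := by
  have hk := h.kpos
  have ha : |t| = t := abs_of_pos ht.1
  have h1 : dist x (geo g x v t) = t * κ := by
    have h2 := h.dist_geo hv (s := 0) (t := t) (by rw [sub_zero, ha]; exact ht.2.le)
    rwa [h.toRM.geo_zero, sub_zero, ha] at h2
  have h2 : tt κ (x, geo g x v t) = t := by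
    rw [tt, h1, mul_div_cancel_right₀ _ hk.ne']
  obtain ⟨hw, hy⟩ := BlAux.lg_spec h.toRM x (geo g x v t)
  have h3 : lg g x (geo g x v t) = t • v :=
    h.toRM.mn_unique (h.inj hv (by rw [ha]; exact ht.2)) hw (by rw [hy, h.toRM.geo_eq])
  refine ⟨⟨?_, ?_⟩, ?_, h2⟩
  · change 0 < dist x (geo g x v t)
    rw [h1]
    exact mul_pos ht.1 hk
  · change dist x (geo g x v t) < π / 2 * κ
    rw [h1]
    exact mul_lt_mul_of_pos_right ht.2 hk
  · rw [dir, h2, h3, smul_smul, inv_mul_cancel₀ ht.1.ne', one_smul]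

theorem isCompact_sph (h : RM g) (x : M) (κ : ℝ) : IsCompact {v | nr g x v = κ} := by
  refine (h.isCompact_ball x (κ ^ 2)).of_isClosed_subset
    (isClosed_eq (BlAux.continuous_nr x) continuous_const) fun v hv => ?_
  have h1 : nr g x v = κ := hv
  change g x v v ≤ κ ^ 2
  rw [← h.nr_sq, h1]

/-- The reversed geodesic. -/
theorem Bl.back (h : Bl g κ) {p : M} {w : E} (hw : nr g p w = κ) :
    -vl g p w (π / 2) ∈ Lam g κ (geo g p w (π / 2)) p := by
  refine ⟨by rw [nr_neg, nr_vl' h.toRM, hw], ?_⟩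
  rw [smul_neg, ← neg_smul, ← h.toRM.geo_eq, geo_flow h.toRM, add_neg_cancel, h.toRM.geo_zero]

theorem Bl.lam_dist (h : Bl g κ) {q p : M} {u : E} (hu : u ∈ Lam g κ q p) :
    dist q p = π / 2 * κ := by
  have h1 : dist _ _ = _ := h.mn q u hu.1
  rwa [hu.2, nr_smul, hu.1, abs_of_pos pi_div_two_pos] at h1

theorem isOpen_Om : IsOpen (Om M κ) := 
  (isOpen_lt continuous_const continuous_dist).inter (isOpen_lt continuous_dist continuous_const)

end Vale.Agent.P231
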