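import Vale.Agent.P231.CompA

/-! The theorem of Hurwitz. -/

open scoped RealInnerProductSpace Quaternion
open Module

namespace Vale.Agent.P231

variable {A : Type} [NormedAddCommGroup A] [InnerProductSpace ℝ A] {m : A →ₗ[ℝ] A →ₗ[ℝ] A} {e : A}

theorem omul_not_assoc : ∃ x y z : Oct, omul (omul x y) z ≠ omul x (omul y z) := by
  obtain ⟨i, i0, i1, i2, i3⟩ : ∃ i : ℍ[ℝ], i.re = 0 ∧ i.imI = 1 ∧ i.imJ = 0 ∧ i.imK = 0 :=
    ⟨⟨0, 1, 0, 0⟩, rfl, rfl, rfl, rfl⟩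
  obtain ⟨j, j0, j1, j2, j3⟩ : ∃ i : ℍ[ℝ], i.re = 0 ∧ i.imI = 0 ∧ i.imJ = 1 ∧ i.imK = 0 :=
    ⟨⟨0, 0, 1, 0⟩, rfl, rfl, rfl, rfl⟩
  refine ⟨(i, 0), (j, 0), (0, 1), fun h => ?_⟩
  have := congrArg (fun x : Oct => x.2.imK) h
  simp [omul, i0, i1, i2, i3, j0, j1, j2, j3] at this
  norm_num at this

/-- `φ` identifies the normed division algebra `K` with `(A, m, e)`. -/
def IsoTo (K : Type) [NormedDivisionRing K] [StarRing K] [NormedAlgebra ℝ K]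
    (m : A →ₗ[ℝ] A →ₗ[ℝ] A) (e : A) : Prop :=
  ∃ φ : K ≃ₗ[ℝ] A, φ 1 = e ∧ (∀ x, ‖φ x‖ = ‖x‖) ∧ (∀ x y, φ (x * y) = m (φ x) (φ y)) ∧
    ∀ x, φ (star x) = cj e (φ x)

/-- The octonion case. -/
def IsoO (m : A →ₗ[ℝ] A →ₗ[ℝ] A) (e : A) : Prop :=
  ∃ φ : Oct ≃ₗ[ℝ] A, φ (1, 0) = e ∧ (∀ x y, ⟪φ x, φ y⟫ = oinner x y) ∧
    (∀ x y, φ (omul x y) = m (φ x) (φ y)) ∧ ∀ x, φ (oconj x) = cj e (φ x)

namespace HurAux

variable {V W : Type} [AddCommGroup V] [Module ℝ V] [AddCommGroup W] [Module ℝ W]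

/-- A structure preserving linear map into the composition algebra. -/
structure Emb (m : A →ₗ[ℝ] A →ₗ[ℝ] A) (e : A) (one : V) (ip : V → V → ℝ) (mul : V → V → V)
    (conj : V → V) (φ : V →ₗ[ℝ] A) : Prop where
  one : φ one = e
  ip : ∀ x y, ⟪φ x, φ y⟫ = ip x y
  mul : ∀ x y, φ (mul x y) = m (φ x) (φ y)
  conj : ∀ x, φ (conj x) = cj e (φ x)

variable {one : V} {ip : V → V → ℝ} {mul : V → V → V} {conj : V → V} {φ : V →ₗ[ℝ] A}

theorem Emb.mem (hφ : Emb m e one ip mul conj φ) : e ∈ LinearMap.range φ := ⟨one, hφ.one⟩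

theorem Emb.mul_mem (hφ : Emb m e one ip mul conj φ) :
    ∀ x ∈ LinearMap.range φ, ∀ y ∈ LinearMap.range φ, m x y ∈ LinearMap.range φ := by
  rintro _ ⟨x, rfl⟩ _ ⟨y, rfl⟩
  exact ⟨mul x y, hφ.mul x y⟩

theorem exists_perp [FiniteDimensional ℝ A] (φ : V →ₗ[ℝ] A) (h : ¬ Function.Surjective φ) :
    ∃ j : A, ‖j‖ = 1 ∧ ∀ x ∈ LinearMap.range φ, ⟪x, j⟫ = 0 := by
  rw [← LinearMap.range_eq_top, ← Submodule.orthogonal_eq_bot_iff] at h
  obtain ⟨v, hv, hv0⟩ := Submodule.exists_mem_ne_zero_of_ne_bot h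
  refine ⟨‖v‖⁻¹ • v, norm_smul_inv_norm hv0, fun x hx => ?_⟩
  rw [inner_smul_right, Submodule.inner_right_of_mem_orthogonal hx hv, mul_zero]

theorem Emb.double [FiniteDimensional ℝ A] (h : Comp m e) (hφ : Emb m e one ip mul conj φ)
    (hs : ¬ Function.Surjective φ) : ∃ ψ : V × V →ₗ[ℝ] A, Emb m e (one, 0)
      (fun x y => ip x.1 y.1 + ip x.2 y.2)
      (fun x y => (mul x.1 y.1 - mul (conj y.2) x.2, mul y.2 x.1 + mul x.2 (conj y.1)))
      (fun x => (conj x.1, -x.2)) ψ := by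
  obtain ⟨j, hj, hp⟩ := exists_perp φ hs
  obtain ⟨h1, h2⟩ := h.double hφ.mem hφ.mul_mem hj hp
  have h3 : ∀ a b, ⟪φ a, m (φ b) j⟫ = 0 := fun a b => h1 _ ⟨a, rfl⟩ _ ⟨b, rfl⟩
  have h4 : ∀ a b, ⟪m (φ b) j, φ a⟫ = 0 := fun a b => by rw [real_inner_comm, h3]
  have hψ : ∀ x : V × V, (φ.coprod ((m.flip j).comp φ)) x = φ x.1 + m (φ x.2) j := fun _ => rfl
  refine ⟨φ.coprod ((m.flip j).comp φ), ?_, fun x y => ?_, fun x y => ?_, fun x => ?_⟩
  · simp [hψ, hφ.one]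
  · rw [hψ, hψ, inner_add_left, inner_add_right, inner_add_right, h3, h4, h.inner_right, hj,
      hφ.ip, hφ.ip]
    ring
  · rw [hψ, hψ, hψ, h2 _ ⟨_, rfl⟩ _ ⟨_, rfl⟩ _ ⟨_, rfl⟩ _ ⟨_, rfl⟩]
    simp only [map_sub, map_add, hφ.mul, hφ.conj]
  · have h5 : ⟪m (φ x.2) j, e⟫ = 0 := by rw [← hφ.one, h4]
    rw [hψ, hψ, hφ.conj, cj, cj, inner_add_left, h5, map_neg, map_neg, LinearMap.neg_apply,
      add_zero]
    abel

theorem Emb.comp (hφ : Emb m e one ip mul conj φ) {one' : W} {ip' : W → W → ℝ} {mul' : W → W → W}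
    {conj' : W → W} (ψ : W →ₗ[ℝ] V) (h1 : ψ one' = one) (h2 : ∀ x y, ip (ψ x) (ψ y) = ip' x y)
    (h3 : ∀ x y, ψ (mul' x y) = mul (ψ x) (ψ y)) (h4 : ∀ x, ψ (conj' x) = conj (ψ x)) :
    Emb m e one' ip' mul' conj' (φ.comp ψ) :=
  ⟨by rw [LinearMap.comp_apply, h1, hφ.one], fun x y => by
    rw [LinearMap.comp_apply, LinearMap.comp_apply, hφ.ip, h2], fun x y => by
    simp only [LinearMap.comp_apply, h3, hφ.mul], fun x => by
    simp only [LinearMap.comp_apply, h4, hφ.conj]⟩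

theorem Emb.inj (hφ : Emb m e one ip mul conj φ) (h : ∀ x, ip x x = 0 → x = 0) :
    Function.Injective φ := by
  rw [injective_iff_map_eq_zero]
  intro x hx
  exact h x (by rw [← hφ.ip, hx, inner_zero_left])

theorem Emb.isoTo {K : Type} [NormedDivisionRing K] [StarRing K] [NormedAlgebra ℝ K]
    {ip : K → K → ℝ} {φ : K →ₗ[ℝ] A} (hφ : Emb m e 1 ip (· * ·) star φ)
    (h : ∀ x, ip x x = ‖x‖ ^ 2) (hs : Function.Surjective φ) : IsoTo K m e := by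
  refine ⟨LinearEquiv.ofBijective φ ⟨hφ.inj fun x hx => ?_, hs⟩, hφ.one, fun x => ?_, hφ.mul,
    hφ.conj⟩
  · rw [h] at hx
    exact norm_eq_zero.1 (pow_eq_zero_iff two_ne_zero |>.1 hx)
  · have := hφ.ip x x
    rw [h, real_inner_self_eq_norm_sq] at this
    exact (pow_left_inj₀ (norm_nonneg _) (norm_nonneg _) two_ne_zero).1 this

/-- A quaternion as a pair of complex numbers. -/
def qc : ℍ[ℝ] →ₗ[ℝ] ℂ × ℂ where
  toFun q := (⟨q.re, q.imI⟩, ⟨q.imJ, q.imK⟩)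
  map_add' x y := by ext <;> simp [Complex.ext_iff]
  map_smul' c x := by ext <;> simp [Complex.ext_iff]

theorem oinner_eq (x : Oct) (h : oinner x x = 0) : x = 0 := by
  rw [oinner, real_inner_self_eq_norm_sq, real_inner_self_eq_norm_sq] at h
  have h1 : ‖x.1‖ = 0 := by nlinarith [sq_nonneg ‖x.1‖, sq_nonneg ‖x.2‖]
  have h2 : ‖x.2‖ = 0 := by nlinarith [sq_nonneg ‖x.1‖, sq_nonneg ‖x.2‖]
  exact Prod.ext (norm_eq_zero.1 h1) (norm_eq_zero.1 h2)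

end HurAux

open HurAux in
/-- Successive doubling: `φ₁ r = r • e`, `φ₂ z = φ₁ z.re + m (φ₁ z.im) i`,
`φ₄ q = φ₂ ⟨q.re, q.imI⟩ + m (φ₂ ⟨q.imJ, q.imK⟩) j`, `φ₈ (a, b) = φ₄ a + m (φ₄ b) l`; if the range is not
everything take a unit vector in its orthogonal complement; `assoc_of`, `omul_not_assoc` at the end. -/
theorem Comp.hurwitz [FiniteDimensional ℝ A] (h : Comp m e) :
    IsoTo ℝ m e ∨ IsoTo ℂ m e ∨ IsoTo ℍ[ℝ] m e ∨ IsoO m e := by
  have hee : ⟪e, e⟫ = 1 := by rw [real_inner_self_eq_norm_sq, h.norm_e, one_pow]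
  have e1 : Emb m e (1 : ℝ) (· * ·) (· * ·) star (LinearMap.toSpanSingleton ℝ A e) := by
    refine ⟨by simp, fun x y => ?_, fun x y => ?_, fun x => ?_⟩
    · simp only [LinearMap.toSpanSingleton_apply, inner_smul_left, inner_smul_right, hee]
      simp [mul_comm]
    · simp only [LinearMap.toSpanSingleton_apply, map_smul, LinearMap.smul_apply, h.one_mul,
        smul_smul, mul_comm]
    · simp only [LinearMap.toSpanSingleton_apply, cj, inner_smul_left, hee, ← sub_smul]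
      congr 1
      simp
      ring
  by_cases s1 : Function.Surjective (LinearMap.toSpanSingleton ℝ A e)
  · exact Or.inl (e1.isoTo (fun x => by rw [Real.norm_eq_abs, sq_abs, sq]) s1)
  obtain ⟨ψ2, e2'⟩ := e1.double h s1
  have e2 : Emb m e (1 : ℂ) (fun x y => x.re * y.re + x.im * y.im) (· * ·) star
      (ψ2.comp Complex.equivRealProdLm.toLinearMap) := by
    refine e2'.comp _ rfl (fun _ _ => rfl) (fun x y => ?_) fun x => rfl
    ext <;> simp <;> ring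
  generalize ψ2.comp Complex.equivRealProdLm.toLinearMap = φ2 at e2
  by_cases s2 : Function.Surjective φ2
  · exact Or.inr (Or.inl (e2.isoTo (fun x => by
      rw [Complex.sq_norm, Complex.normSq_apply]) s2))
  obtain ⟨ψ4, e4'⟩ := e2.double h s2
  have e4 : Emb m e (1 : ℍ[ℝ]) (fun x y => inner ℝ x y) (· * ·) star (ψ4.comp qc) := by
    refine e4'.comp _ rfl (fun x y => ?_) (fun x y => ?_) fun x => ?_
    · simp [qc, Quaternion.inner_def]
      ring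
    · ext <;> simp [qc, Complex.ext_iff] <;> constructor <;> ring
    · ext <;> simp [qc, Complex.ext_iff]
  generalize ψ4.comp qc = φ4 at e4
  by_cases s4 : Function.Surjective φ4
  · exact Or.inr (Or.inr (Or.inl (e4.isoTo (fun x => real_inner_self_eq_norm_sq x) s4)))
  obtain ⟨φ8, e8'⟩ := e4.double h s4
  have e8 : Emb m e ((1, 0) : Oct) oinner omul oconj φ8 := e8'
  have hi := e8.inj oinner_eq
  by_cases s8 : Function.Surjective φ8
  · exact Or.inr (Or.inr (Or.inr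
      ⟨LinearEquiv.ofBijective φ8 ⟨hi, s8⟩, e8.one, e8.ip, e8.mul, e8.conj⟩))
  obtain ⟨j, hj, hp⟩ := exists_perp φ8 s8
  obtain ⟨x, y, z, h6⟩ := omul_not_assoc
  refine absurd (hi ?_) h6
  simp only [e8.mul]
  exact h.assoc_of e8.mem e8.mul_mem hj hp _ ⟨x, rfl⟩ _ ⟨y, rfl⟩ _ ⟨z, rfl⟩

end Vale.Agent.P231
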