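import Vale.Agent.P231.Coord
import Vale.Agent.P231.Hur

/-! The Cayley plane. -/

open scoped Topology RealInnerProductSpace Quaternion LinearAlgebra.Projectivization
open Set Filter Real Module

set_option linter.unusedSectionVars false

namespace Vale.Agent.P231

namespace CayAux

variable {A : Type} [NormedAddCommGroup A] [InnerProductSpace ℝ A] {m : A →ₗ[ℝ] A →ₗ[ℝ] A} {e : A}

/-- Hermitian idempotent matrices of trace one. -/
structure Cy (m : A →ₗ[ℝ] A →ₗ[ℝ] A) (e : A) (X : Fin 3 → Fin 3 → A) : Prop where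
  herm : ∀ i j, X j i = cj e (X i j)
  idem : ∀ i j, ∑ l, m (X i l) (X l j) = X i j
  tr : ∑ i, ⟪X i i, e⟫ = 1

theorem ee (hm : Comp m e) : ⟪e, e⟫ = 1 := by
  rw [real_inner_self_eq_norm_sq, hm.norm_e, one_pow]

theorem cj_smul (c : ℝ) (x : A) : cj e (c • x) = c • cj e x := by
  rw [cj, cj, real_inner_smul_left, smul_sub, smul_smul, mul_left_comm]

theorem cj_e (hm : Comp m e) : cj e e = e := by
  rw [cj, ee hm, mul_one, two_smul, add_sub_cancel_right]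

theorem cj_zero : cj e (0 : A) = 0 := by simp [cj]

/-- The matrix of a vector. -/
noncomputable def mat (m : A →ₗ[ℝ] A →ₗ[ℝ] A) (e : A) (x : Fin 3 → A) (i j : Fin 3) : A :=
  m (x i) (cj e (x j))

theorem sq_mul (hm : Comp m e) (x y : A) :
    m (m x (cj e y)) (m y (cj e x)) = ‖y‖ ^ 2 • m x (cj e x) := by
  have h1 : m y (cj e x) = cj e (m x (cj e y)) := by rw [hm.cj_mul, hm.cj_cj]
  rw [h1, hm.mul_cj, hm.mul_cj, hm.norm_mul, hm.norm_cj, smul_smul, mul_pow, mul_comm]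

theorem mat_mul (hm : Comp m e) (l : ℝ) (u v : A) (i k j : Fin 3) :
    m (mat m e ![l • e, u, v] i k) (mat m e ![l • e, u, v] k j) =
      ‖![l • e, u, v] k‖ ^ 2 • mat m e ![l • e, u, v] i j := by
  have h0 : ‖l • e‖ ^ 2 = l * l := by
    rw [norm_smul, hm.norm_e, mul_one, Real.norm_eq_abs, sq_abs, sq]
  have h1 : ∀ x, m (cj e x) x = ‖x‖ ^ 2 • e := fun x => by
    have := hm.alt_left x e
    rwa [hm.mul_one] at this
  fin_cases i <;> fin_cases k <;> fin_cases j <;>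
    simp [mat, h0, h1, cj_smul, cj_e hm, hm.one_mul, hm.mul_one, hm.alt_left, hm.alt_right,
      hm.mul_cj, sq_mul hm, smul_smul, mul_comm, mul_left_comm, mul_assoc]

theorem cy_mat (hm : Comp m e) {l : ℝ} {u v : A} (h : l ^ 2 + (‖u‖ ^ 2 + ‖v‖ ^ 2) = 1) :
    Cy m e (mat m e ![l • e, u, v]) := by
  have h0 : ∑ k, ‖![l • e, u, v] k‖ ^ 2 = 1 := by
    rw [← h, Fin.sum_univ_three, add_assoc]
    simp [norm_smul, hm.norm_e]
  refine ⟨fun i j => by rw [mat, mat, hm.cj_mul, hm.cj_cj], fun i j => ?_, ?_⟩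
  · simp only [mat_mul hm]
    rw [← Finset.sum_smul, h0, one_smul]
  · simp only [mat, hm.mul_cj, real_inner_smul_left, ee hm, mul_one, h0]

variable {X : Fin 3 → Fin 3 → A}

theorem Cy.diag (hX : Cy m e X) (i : Fin 3) : X i i = ⟪X i i, e⟫ • e := by
  have h := hX.herm i i
  rw [cj, eq_sub_iff_add_eq, ← two_smul ℝ, mul_smul] at h
  exact smul_right_injective A two_ne_zero h

theorem Cy.row (hm : Comp m e) (hX : Cy m e X) (i : Fin 3) : ∑ l, ‖X i l‖ ^ 2 = ⟪X i i, e⟫ := by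
  have h := congrArg (fun z => ⟪z, e⟫) (hX.idem i i)
  simp only [sum_inner] at h
  rw [← h]
  refine Finset.sum_congr rfl fun l _ => ?_
  rw [hX.herm i l, hm.mul_cj, real_inner_smul_left, ee hm, mul_one]

theorem Cy.norm (hm : Comp m e) (hX : Cy m e X) : ∑ i, ∑ l, ‖X i l‖ ^ 2 = 1 := by
  simp only [hX.row hm, hX.tr]

theorem Cy.ex (hm : Comp m e) (hX : Cy m e X) : ∃ (l : ℝ) (u v : A), 0 ≤ l ∧
    l ^ 2 + (‖u‖ ^ 2 + ‖v‖ ^ 2) = 1 ∧ X = mat m e ![l • e, u, v] := by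
  obtain ⟨a, ha⟩ : ∃ a : Fin 3 → ℝ, ∀ i, ⟪X i i, e⟫ = a i := ⟨_, fun _ => rfl⟩
  have hd : ∀ i, X i i = a i • e := fun i => ha i ▸ hX.diag i
  have hn : ∀ i, ‖X i i‖ ^ 2 = a i ^ 2 := fun i => by
    rw [hd, norm_smul, hm.norm_e, mul_one, Real.norm_eq_abs, sq_abs]
  have hs : ∀ i j, ‖X j i‖ = ‖X i j‖ := fun i j => by rw [hX.herm i j, hm.norm_cj]
  have ht := hX.tr
  have r0 := hX.row hm 0
  have r1 := hX.row hm 1
  have r2 := hX.row hm 2
  simp only [Fin.sum_univ_three, hn, ha] at ht r0 r1 r2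
  rw [hs 1 0, hs 2 0] at r0
  rw [hs 2 1] at r1
  have n1 : ‖X 1 0‖ ^ 2 = a 0 * a 1 := by
    linear_combination (r0 + r1 - r2) / 2 + (-a 0 - a 1 + a 2) / 2 * ht
  have n2 : ‖X 2 0‖ ^ 2 = a 0 * a 2 := by
    linear_combination (r0 + r2 - r1) / 2 + (-a 0 - a 2 + a 1) / 2 * ht
  have n3 : ‖X 2 1‖ ^ 2 = a 1 * a 2 := by
    linear_combination (r1 + r2 - r0) / 2 + (-a 1 - a 2 + a 0) / 2 * ht
  have p0 : 0 ≤ a 0 := by rw [← r0]; positivity
  have p1 : 0 ≤ a 1 := by rw [← r1]; positivity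
  have o : m (X 2 0) (cj e (X 1 0)) = a 0 • X 2 1 := by
    have h := hX.idem 2 1
    rw [Fin.sum_univ_three, hd 1, hd 2, map_smul, map_smul, LinearMap.smul_apply, hm.one_mul,
      hm.mul_one, hX.herm 1 0] at h
    have h2 : a 0 = 1 - a 1 - a 2 := by linarith
    rw [h2, sub_smul, sub_smul, one_smul, sub_sub, eq_sub_iff_add_eq, ← add_assoc, h]
  have key : ∃ (l : ℝ) (u v : A), 0 ≤ l ∧ l ^ 2 = a 0 ∧ ‖u‖ ^ 2 = a 1 ∧ ‖v‖ ^ 2 = a 2 ∧
      l • u = X 1 0 ∧ l • v = X 2 0 ∧ m v (cj e u) = X 2 1 := by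
    rcases p0.eq_or_lt with q0 | q0
    · rw [← q0, zero_mul, sq_eq_zero_iff, norm_eq_zero] at n1 n2
      rcases p1.eq_or_lt with q1 | q1
      · rw [← q1, zero_mul, sq_eq_zero_iff, norm_eq_zero] at n3
        refine ⟨0, 0, e, le_rfl, by simp [← q0], by simp [← q1], ?_, by simp [n1], by simp [n2],
          by simp [n3, cj_zero]⟩
        rw [hm.norm_e]; linarith
      · have h5 := sqrt_pos.2 q1
        have h6 := sq_sqrt p1
        generalize √(a 1) = s at h5 h6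
        refine ⟨0, s • e, s⁻¹ • X 2 1, le_rfl, by simp [← q0], ?_, ?_, by simp [n1], by simp [n2],
          ?_⟩
        · rw [norm_smul, hm.norm_e, mul_one, Real.norm_eq_abs, sq_abs, h6]
        · rw [norm_smul, mul_pow, n3, Real.norm_eq_abs, sq_abs, inv_pow, h6,
            inv_mul_cancel_left₀ q1.ne']
        · rw [cj_smul, cj_e hm, map_smul, hm.mul_one, smul_inv_smul₀ h5.ne']
    · have h5 := sqrt_pos.2 q0
      have h6 := sq_sqrt p0
      generalize √(a 0) = s at h5 h6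
      refine ⟨s, s⁻¹ • X 1 0, s⁻¹ • X 2 0, h5.le, h6, ?_, ?_, smul_inv_smul₀ h5.ne' _,
        smul_inv_smul₀ h5.ne' _, ?_⟩
      · rw [norm_smul, mul_pow, n1, Real.norm_eq_abs, sq_abs, inv_pow, h6,
          inv_mul_cancel_left₀ q0.ne']
      · rw [norm_smul, mul_pow, n2, Real.norm_eq_abs, sq_abs, inv_pow, h6,
          inv_mul_cancel_left₀ q0.ne']
      · rw [cj_smul, map_smul, map_smul, LinearMap.smul_apply, o, smul_smul, smul_smul, ← h6,
          ← sq, inv_pow, inv_mul_cancel₀ (pow_ne_zero _ h5.ne'), one_smul]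
  obtain ⟨l, u, v, h0, h1, h2, h3, h4, h5, h6⟩ := key
  have h7 : l ^ 2 + (‖u‖ ^ 2 + ‖v‖ ^ 2) = 1 := by linarith
  have hY := cy_mat hm h7
  refine ⟨l, u, v, h0, h7, ?_⟩
  have e00 : X 0 0 = mat m e ![l • e, u, v] 0 0 := by
    simp [mat, hd, ← h1, cj_smul, cj_e hm, hm.one_mul, smul_smul, sq]
  have e11 : X 1 1 = mat m e ![l • e, u, v] 1 1 := by simp [mat, hd, ← h2, hm.mul_cj]
  have e22 : X 2 2 = mat m e ![l • e, u, v] 2 2 := by simp [mat, hd, ← h3, hm.mul_cj]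
  have e10 : X 1 0 = mat m e ![l • e, u, v] 1 0 := by
    simp [mat, ← h4, cj_smul, cj_e hm, hm.mul_one]
  have e20 : X 2 0 = mat m e ![l • e, u, v] 2 0 := by
    simp [mat, ← h5, cj_smul, cj_e hm, hm.mul_one]
  have e21 : X 2 1 = mat m e ![l • e, u, v] 2 1 := by simp [mat, ← h6]
  have e01 : X 0 1 = mat m e ![l • e, u, v] 0 1 := by rw [hX.herm 1 0, hY.herm 1 0, e10]
  have e02 : X 0 2 = mat m e ![l • e, u, v] 0 2 := by rw [hX.herm 2 0, hY.herm 2 0, e20]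
  have e12 : X 1 2 = mat m e ![l • e, u, v] 1 2 := by rw [hX.herm 2 1, hY.herm 2 1, e21]
  funext i j
  fin_cases i <;> fin_cases j
  exacts [e00, e01, e02, e10, e11, e12, e20, e21, e22]

theorem inner_mat (hm : Comp m e) (l l' : ℝ) (u u' : Fin 2 → A) :
    ∑ i, ∑ j, ⟪mat m e ![l • e, u 0, u 1] i j, mat m e ![l' • e, u' 0, u' 1] i j⟫ =
      l ^ 2 * l' ^ 2 + 2 * (l * l') * ∑ i, ⟪u i, u' i⟫ +
        ∑ j, ⟪∑ i, m (m (u j) (cj e (u i))) (u' i), u' j⟫ := by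
  have h1 : ∀ x y, ⟪cj e x, cj e y⟫ = ⟪x, y⟫ := fun x y => by
    have := hm.adj_left (cj e x) e (cj e y)
    rw [hm.mul_one, hm.cj_cj, real_inner_comm _ e] at this
    have h2 := hm.adj_right x (cj e y) e
    rw [hm.cj_cj, hm.one_mul] at h2
    rw [this, h2]
  have h2 : ∀ x y z w, ⟪m (m x (cj e y)) z, w⟫ = ⟪m x (cj e y), m w (cj e z)⟫ :=
    fun x y z w => hm.adj_right _ _ _
  simp only [Fin.sum_univ_three, Fin.sum_univ_two, inner_add_left, h2]
  simp [mat, cj_smul, cj_e hm, hm.one_mul, hm.mul_one, real_inner_smul_left,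
    real_inner_smul_right, ee hm, h1, -inner_self_eq_norm_sq_to_K]
  ring

end CayAux

variable {n a : ℕ} {P : Eu n →L[ℝ] Eu n →L[ℝ] Eu n →L[ℝ] Eu n}

open CayAux in
/-- `f (l, ζ) = X`, `X i j = omul (x i) (oconj (x j))`, `x = (l, u₀, u₁)`, `u i = φ⁻¹ (Ψ ζ i)` (work in `Eu a` with
the identities of `CompA`; one entry is real). Surjectivity: the diagonal entries `λ i` are real,
`‖X i j‖² = λ i λ j`, `λ 0 X 1 2 = X 1 0 * X 0 2`; if `λ 0 > 0` take `x = (√λ₀, X 1 0 / √λ₀, X 2 0 / √λ₀)`; if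
`λ 0 = 0` take `(0, √λ₁, X 2 1 / √λ₁)` or `(0, 0, 1)`. All points have norm one, which gives the last part. -/
theorem par_cayley {m : Eu a →ₗ[ℝ] Eu a →ₗ[ℝ] Eu a} {e : Eu a} (hm : Comp m e) (hO : IsoO m e)
    (Ψ : Eu n ≃ₗ[ℝ] (Fin 2 → Eu a)) (h1 : ∀ x y, ⟪x, y⟫ = ∑ i, ⟪Ψ x i, Ψ y i⟫)
    (h2 : ∀ x y j, Ψ (P x x y) j = ∑ i, m (m (Ψ x j) (cj e (Ψ x i))) (Ψ y i)) :
    Par P Cayley cayleyDist := by
  classical
  obtain ⟨φ, φ1, φi, φm, φs⟩ := hO
  have hre : ∀ z : Oct, ⟪φ z, e⟫ = z.1.re := fun z => by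
    rw [← φ1, φi, oinner]
    simp [Quaternion.inner_def]
  have hiff : ∀ Z : Fin 3 → Fin 3 → Oct, ((∀ i j, Z j i = oconj (Z i j)) ∧
      (∀ i j, ∑ l, omul (Z i l) (Z l j) = Z i j) ∧ ∑ i, (Z i i).1.re = 1) ↔
      Cy m e fun i j => φ (Z i j) := by
    intro Z
    constructor
    · rintro ⟨a1, a2, a3⟩
      exact ⟨fun i j => by rw [a1 i j, φs], fun i j => by simp only [← φm, ← map_sum, a2],
        by simpa only [hre] using a3⟩
    · rintro ⟨a1, a2, a3⟩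
      exact ⟨fun i j => φ.injective (by rw [φs]; exact a1 i j),
        fun i j => φ.injective (by simpa only [map_sum, φm] using a2 i j),
        by simpa only [hre] using a3⟩
  have hnorm : ∀ x : Eu n, ‖x‖ ^ 2 = ‖Ψ x 0‖ ^ 2 + ‖Ψ x 1‖ ^ 2 := fun x => by
    rw [← real_inner_self_eq_norm_sq x, h1, Fin.sum_univ_two, real_inner_self_eq_norm_sq,
      real_inner_self_eq_norm_sq]
  let F : ∀ p ∈ Hs n, Cayley := fun p hp =>
    ⟨fun i j => φ.symm (mat m e ![p.1 • e, Ψ p.2 0, Ψ p.2 1] i j), (hiff _).2 (by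
      simp only [LinearEquiv.apply_symm_apply]
      exact cy_mat hm (by rw [← hnorm]; exact hp.2))⟩
  have h0 : ((1 : ℝ), (0 : Eu n)) ∈ Hs n := ⟨zero_le_one, by simp⟩
  refine ⟨1, one_pos, fun p => if hp : p ∈ Hs n then F p hp else F _ h0, fun p hp q hq => ?_,
    fun z => ?_, fun z z' => ?_⟩
  · simp only [dif_pos hp, dif_pos hq]
    simp only [cayleyDist, F, ← φi, LinearEquiv.apply_symm_apply, one_mul]
    rw [inner_mat hm, cc, h1 p.2, h1 (P _ _ _)]
    simp only [h2]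
  · obtain ⟨l, u, v, a1, a2, a3⟩ := ((hiff z.1).1 z.2).ex hm
    have hp : (l, Ψ.symm ![u, v]) ∈ Hs n := ⟨a1, by rw [hnorm]; simpa using a2⟩
    refine ⟨_, hp, ?_⟩
    simp only [dif_pos hp]
    refine Subtype.ext (funext fun i => funext fun j => ?_)
    have := congrFun (congrFun a3 i) j
    simp only [F, LinearEquiv.apply_symm_apply, Matrix.cons_val_zero, Matrix.cons_val_one]
    rw [← this, LinearEquiv.symm_apply_apply]
  · have a1 := ((hiff z.1).1 z.2).norm hm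
    have a2 := ((hiff z'.1).1 z'.2).norm hm
    rw [cayleyDist, arccos_eq_zero, one_le_sqrt]
    simp only [← φi]
    constructor
    · intro h3
      have h4 : ∑ i, ∑ j, ‖φ (z.1 i j) - φ (z'.1 i j)‖ ^ 2 = 0 := by
        refine le_antisymm ?_ (by positivity)
        simp only [norm_sub_sq_real, Finset.sum_add_distrib, Finset.sum_sub_distrib,
          ← Finset.mul_sum, a1, a2]
        linarith
      refine Subtype.ext (funext fun i => funext fun j => φ.injective ?_)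
      rw [Finset.sum_eq_zero_iff_of_nonneg fun _ _ => by positivity] at h4
      have h5 := h4 i (Finset.mem_univ _)
      rw [Finset.sum_eq_zero_iff_of_nonneg fun _ _ => by positivity] at h5
      exact sub_eq_zero.1 (norm_eq_zero.1 (sq_eq_zero_iff.1 (h5 j (Finset.mem_univ _))))
    · rintro rfl
      simp only [real_inner_self_eq_norm_sq, a1, le_refl]

end Vale.Agent.P231
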