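import Vale.Agent.P231.Base

/-! Identities in composition algebras. -/

open scoped RealInnerProductSpace Quaternion
open Module

namespace Vale.Agent.P231

variable {A : Type} [NormedAddCommGroup A] [InnerProductSpace ℝ A] {m : A →ₗ[ℝ] A →ₗ[ℝ] A} {e : A}

/-- Conjugation. -/
noncomputable def cj (e x : A) : A := (2 * ⟪x, e⟫) • e - x

theorem Comp.inner_left (h : Comp m e) (x y z : A) : ⟪m x y, m x z⟫ = ‖x‖ ^ 2 * ⟪y, z⟫ := by
  have h1 := norm_add_sq_real (m x y) (m x z)
  rw [← map_add, h.norm_mul, h.norm_mul, h.norm_mul, mul_pow, norm_add_sq_real] at h1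
  linarith

theorem Comp.inner_right (h : Comp m e) (x y z : A) : ⟪m y x, m z x⟫ = ‖x‖ ^ 2 * ⟪y, z⟫ := by
  have h1 := norm_add_sq_real (m y x) (m z x)
  rw [← LinearMap.add_apply, ← map_add, h.norm_mul, h.norm_mul, h.norm_mul, mul_pow,
    norm_add_sq_real] at h1
  linarith

theorem Comp.exch (h : Comp m e) (x w y z : A) :
    ⟪m x y, m w z⟫ + ⟪m w y, m x z⟫ = 2 * ⟪x, w⟫ * ⟪y, z⟫ := by
  have h1 := h.inner_left (x + w) y z
  simp only [map_add, LinearMap.add_apply, inner_add_left, inner_add_right, h.inner_left,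
    norm_add_sq_real] at h1
  linarith

namespace CompAAux

theorem cj_left (h : Comp m e) (x z : A) : m (cj e x) z = (2 * ⟪x, e⟫) • z - m x z := by
  simp only [cj, map_sub, map_smul, LinearMap.sub_apply, LinearMap.smul_apply, h.one_mul]

theorem cj_right (h : Comp m e) (x z : A) : m z (cj e x) = (2 * ⟪x, e⟫) • z - m z x := by
  simp only [cj, map_sub, map_smul, h.mul_one]

theorem cj_adj (x y : A) : ⟪cj e x, y⟫ = ⟪x, cj e y⟫ := by
  simp only [cj, inner_sub_left, inner_sub_right, real_inner_smul_left, real_inner_smul_right,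
    real_inner_comm e y]
  ring

theorem cj_perp {x : A} (hx : ⟪e, x⟫ = 0) : cj e x = -x := by
  rw [cj, real_inner_comm, hx, mul_zero, zero_smul, zero_sub]

theorem cj_mem {B : Submodule ℝ A} (he : e ∈ B) {x : A} (hx : x ∈ B) : cj e x ∈ B :=
  B.sub_mem (B.smul_mem _ he) hx

end CompAAux
open CompAAux

theorem Comp.adj_left (h : Comp m e) (x y z : A) : ⟪m x y, z⟫ = ⟪y, m (cj e x) z⟫ := by
  have h1 := h.exch x e y z
  rw [h.one_mul, h.one_mul] at h1
  rw [cj_left h, inner_sub_right, real_inner_smul_right]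
  linarith

theorem Comp.adj_right (h : Comp m e) (x y z : A) : ⟪m x y, z⟫ = ⟪x, m z (cj e y)⟫ := by
  have h1 := h.exch x z y e
  rw [h.mul_one, h.mul_one, real_inner_comm x (m z y)] at h1
  rw [cj_right h, inner_sub_right, real_inner_smul_right]
  linarith

theorem Comp.cj_cj (h : Comp m e) (x : A) : cj e (cj e x) = x := by
  have h1 : ⟪cj e x, e⟫ = ⟪x, e⟫ := by
    rw [cj, inner_sub_left, real_inner_smul_left, real_inner_self_eq_norm_sq, h.norm_e]
    ring
  rw [cj, h1, cj, sub_sub_cancel]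

theorem Comp.norm_cj (h : Comp m e) (x : A) : ‖cj e x‖ = ‖x‖ := by
  refine (pow_left_inj₀ (norm_nonneg _) (norm_nonneg _) two_ne_zero).1 ?_
  rw [← real_inner_self_eq_norm_sq, cj_adj, h.cj_cj, real_inner_self_eq_norm_sq]

theorem Comp.cj_mul (h : Comp m e) (x y : A) : cj e (m x y) = m (cj e y) (cj e x) := by
  refine ext_inner_right ℝ fun t => ?_
  rw [h.adj_left (cj e y), h.cj_cj, real_inner_comm (m y t), h.adj_right y, real_inner_comm _ y,
    h.adj_left (cj e x), h.cj_cj, real_inner_comm (m x y), cj_adj]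

theorem Comp.alt_left (h : Comp m e) (x y : A) : m (cj e x) (m x y) = ‖x‖ ^ 2 • y := by
  refine ext_inner_right ℝ fun t => ?_
  rw [h.adj_left, h.cj_cj, h.inner_left, real_inner_smul_left]

theorem Comp.alt_right (h : Comp m e) (x y : A) : m (m y (cj e x)) x = ‖x‖ ^ 2 • y := by
  refine ext_inner_right ℝ fun t => ?_
  rw [h.adj_right, h.inner_right, h.norm_cj, real_inner_smul_left]

theorem Comp.mul_cj (h : Comp m e) (x : A) : m x (cj e x) = ‖x‖ ^ 2 • e := by
  have h1 := h.alt_right (cj e x) e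
  rwa [h.cj_cj, h.one_mul, h.norm_cj] at h1

namespace CompAAux

theorem lin_left (h : Comp m e) (x y t : A) :
    m (cj e x) (m y t) + m (cj e y) (m x t) = (2 * ⟪x, y⟫) • t := by
  refine ext_inner_right ℝ fun s => ?_
  rw [inner_add_left, h.adj_left (cj e x), h.adj_left (cj e y), h.cj_cj, h.cj_cj, add_comm,
    h.exch, real_inner_smul_left]

theorem lin_right (h : Comp m e) (x y t : A) :
    m (m t (cj e x)) y + m (m t (cj e y)) x = (2 * ⟪x, y⟫) • t := by
  refine ext_inner_right ℝ fun s => ?_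
  rw [inner_add_left, h.adj_right _ y, h.adj_right _ x, real_inner_comm (m s (cj e x)), h.exch,
    real_inner_smul_left, cj_adj, h.cj_cj]
  ring

end CompAAux

/-- Cayley-Dickson doubling: `B` is a subalgebra, `j` a unit vector orthogonal to it (Conway-Smith, 6.3). -/
theorem Comp.double (h : Comp m e) {B : Submodule ℝ A} (he : e ∈ B)
    (hB : ∀ x ∈ B, ∀ y ∈ B, m x y ∈ B) {j : A} (hj : ‖j‖ = 1) (hp : ∀ x ∈ B, ⟪x, j⟫ = 0) :
    (∀ x ∈ B, ∀ y ∈ B, ⟪x, m y j⟫ = 0) ∧ ∀ a ∈ B, ∀ b ∈ B, ∀ c ∈ B, ∀ d ∈ B,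
      m (a + m b j) (c + m d j) = m a c - m (cj e d) b + m (m d a + m b (cj e c)) j := by
  have h1 : ∀ x ∈ B, ∀ y ∈ B, ⟪x, m y j⟫ = 0 := fun x hx y hy => by
    have := h.adj_left (cj e y) x j
    rw [h.cj_cj] at this
    rw [← this]
    exact hp _ (hB _ (cj_mem he hy) _ hx)
  have hj1 : cj e j = -j := cj_perp (hp e he)
  have h2 : ∀ b ∈ B, m j (cj e b) = m b j := fun b hb => by
    have := h.cj_mul b j
    rw [cj_perp (h1 e he b hb), hj1, map_neg, LinearMap.neg_apply] at this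
    exact (neg_injective this).symm
  have h3 : ∀ a ∈ B, ∀ d ∈ B, m a (m d j) = m (m d a) j := fun a ha d hd => by
    have := lin_left h (cj e a) j (cj e d)
    rw [h.cj_cj, hp _ (cj_mem he ha), mul_zero, zero_smul, hj1, map_neg, LinearMap.neg_apply,
      ← h.cj_mul, h2 d hd, h2 _ (hB d hd a ha)] at this
    exact add_neg_eq_zero.1 this
  have h4 : ∀ b, ∀ c ∈ B, m (m b j) c = m (m b (cj e c)) j := fun b c hc => by
    have := lin_right h c j b
    rw [hp c hc, mul_zero, zero_smul, hj1, map_neg, map_neg, LinearMap.neg_apply] at this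
    exact (add_neg_eq_zero.1 this).symm
  have h5 : ∀ y, m (m y j) j = -y := fun y => by
    have := h.alt_right j y
    rw [hj1, hj, map_neg, map_neg, LinearMap.neg_apply, one_pow, one_smul] at this
    exact neg_eq_iff_eq_neg.1 this
  have h6 : ∀ b ∈ B, ∀ d ∈ B, m (m b j) (m d j) = -m (cj e d) b := fun b hb d hd => by
    have h7 := lin_right h j (m d j) b
    have h8 : ⟪j, m d j⟫ = ⟪d, e⟫ := by
      have := h.inner_right j e d
      rwa [h.one_mul, hj, one_pow, _root_.one_mul, real_inner_comm d e] at this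
    rw [cj_perp (h1 e he d hd), hj1, h8] at h7
    simp only [map_neg, LinearMap.neg_apply, h3 b hb d hd, h5, neg_neg] at h7
    rw [cj_left h, ← h7]
    abel
  refine ⟨h1, fun a ha b hb c hc d hd => ?_⟩
  simp only [map_add, LinearMap.add_apply, h3 a ha d hd, h4 b c hc, h6 b hb d hd]
  abel

/-- A subalgebra with a nonzero orthogonal complement is associative (norms in `double`). -/
theorem Comp.assoc_of (h : Comp m e) {B : Submodule ℝ A} (he : e ∈ B)
    (hB : ∀ x ∈ B, ∀ y ∈ B, m x y ∈ B) {j : A} (hj : ‖j‖ = 1) (hp : ∀ x ∈ B, ⟪x, j⟫ = 0) :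
    ∀ a ∈ B, ∀ b ∈ B, ∀ c ∈ B, m (m a b) c = m a (m b c) := by
  obtain ⟨h1, h2⟩ := h.double he hB hj hp
  have h3 : ∀ x ∈ B, ∀ y ∈ B, ‖x + m y j‖ ^ 2 = ‖x‖ ^ 2 + ‖y‖ ^ 2 := fun x hx y hy => by
    rw [norm_add_sq_real, h1 x hx y hy, h.norm_mul, hj]; ring
  intro d hd a ha c hc
  have h4 : ∀ b ∈ B, ⟪m (m d a) c - m d (m a c), b⟫ = 0 := fun b hb => by
    have h5 := h3 _ (B.sub_mem (hB a ha c hc) (hB _ (cj_mem he hd) b hb)) _
      (B.add_mem (hB d hd a ha) (hB b hb _ (cj_mem he hc)))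
    rw [← h2 a ha b hb c hc d hd, h.norm_mul, mul_pow, h3 a ha b hb, h3 c hc d hd,
      norm_sub_sq_real, norm_add_sq_real, ← h.adj_left, ← h.adj_right] at h5
    simp only [h.norm_mul, h.norm_cj] at h5
    rw [inner_sub_left]
    linarith
  exact sub_eq_zero.1 (inner_self_eq_zero.1
    (h4 _ (B.sub_mem (hB _ (hB d hd a ha) c hc) (hB d hd _ (hB a ha c hc)))))

end Vale.Agent.P231
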