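import Vale.Agent.P231.Base

/-! An abstract Lyapunov-Schmidt lemma. -/

open scoped Topology ContDiff
open Set Filter Module

namespace Vale.Agent.P231

variable {E : Type} [NormedAddCommGroup E] [NormedSpace ℝ E] [FiniteDimensional ℝ E]

namespace ConeAAux

theorem coer {G : E →L[ℝ] E →L[ℝ] ℝ} (hp : ∀ a, a ≠ 0 → 0 < G a a) :
    ∃ c : ℝ, 0 < c ∧ ∀ a, c * ‖a‖ ^ 2 ≤ G a a := by
  have := FiniteDimensional.proper_real E
  have hc : Continuous fun a : E => G a a := by fun_prop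
  obtain ⟨c, c0, hc'⟩ : ∃ c : ℝ, 0 < c ∧ ∀ a ∈ Metric.sphere (0 : E) 1, c ≤ G a a := by
    refine (isCompact_sphere (0 : E) 1).exists_forall_le' hc.continuousOn fun a ha => hp a ?_
    rintro rfl
    simp at ha
  refine ⟨c, c0, fun a => ?_⟩
  rcases eq_or_ne a 0 with rfl | ha
  · simp
  · have h0 : 0 < ‖a‖ := norm_pos_iff.2 ha
    have h1 := hc' (‖a‖⁻¹ • a) (by
      rw [mem_sphere_zero_iff_norm, norm_smul, norm_inv, norm_norm, inv_mul_cancel₀ h0.ne'])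
    simp only [map_smul, ContinuousLinearMap.smul_apply, smul_eq_mul] at h1
    have h2 : G a a = ‖a‖⁻¹ * (‖a‖⁻¹ * G a a) * ‖a‖ ^ 2 := by field_simp
    rw [h2]
    exact mul_le_mul_of_nonneg_right h1 (by positivity)

theorem proj {G : E →L[ℝ] E →L[ℝ] ℝ} (hs : ∀ a b, G a b = G b a) (hp : ∀ a, a ≠ 0 → 0 < G a a)
    (Y : E →L[ℝ] E) : ∃ P : E →L[ℝ] E, (∀ x, ∃ ξ, P x = Y ξ) ∧ (∀ x ξ, G (x - P x) (Y ξ) = 0) ∧
      (∀ ξ, P (Y ξ) = Y ξ) ∧ ∀ x, (∀ ξ, G x (Y ξ) = 0) → P x = 0 := by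
  let B : LinearMap.BilinForm ℝ E := LinearMap.mk₂ ℝ (fun a b => G a b) (by simp) (by simp)
    (by simp) (by simp)
  have hB : ∀ a b, B a b = G a b := fun _ _ => rfl
  have hr : B.IsRefl := fun a b h => by rw [hB, hs]; exact h
  let W : Submodule ℝ E := LinearMap.range (Y : E →ₗ[ℝ] E)
  have hm : ∀ x, x ∈ B.orthogonal W ↔ ∀ ξ, G x (Y ξ) = 0 := fun x =>
    ⟨fun h ξ => by rw [hs]; exact h _ ⟨ξ, rfl⟩, fun h => by
      rintro _ ⟨ξ, rfl⟩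
      have := h ξ
      rw [hs] at this
      exact this⟩
  have hc : IsCompl W (B.orthogonal W) := by
    rw [LinearMap.BilinForm.isCompl_orthogonal_iff_disjoint hr, Submodule.disjoint_def]
    rintro _ ⟨ξ, rfl⟩ h
    by_contra h0
    exact (hp _ h0).ne' ((hm _).1 h ξ)
  refine ⟨LinearMap.toContinuousLinearMap (W.projection _ hc), fun x => ?_, fun x => ?_,
    fun ξ => ?_, fun x hx => ?_⟩
  · obtain ⟨ξ, h⟩ := Submodule.projection_apply_mem hc x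
    exact ⟨ξ, h.symm⟩
  · exact (hm _).1 (Submodule.sub_projection_mem hc x)
  · exact Submodule.projection_apply_of_mem_left hc ⟨ξ, rfl⟩
  · exact Submodule.projection_apply_of_mem_right hc ((hm _).2 hx)

omit [FiniteDimensional ℝ E] in
theorem symm {G : E →L[ℝ] E →L[ℝ] ℝ} {q ϑ : E → E} {w : E} (hq : ContDiffAt ℝ 2 q w)
    (hϑ : ContDiffAt ℝ 2 ϑ w) (h1 : ∀ᶠ v in 𝓝 w, ∀ ξ, G (ϑ v) (fderiv ℝ q v ξ) = 0) (ξ ξ' : E) :
    G (fderiv ℝ ϑ w ξ) (fderiv ℝ q w ξ') = G (fderiv ℝ ϑ w ξ') (fderiv ℝ q w ξ) := by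
  have d1 : HasFDerivAt ϑ (fderiv ℝ ϑ w) w := (hϑ.differentiableAt (by norm_num)).hasFDerivAt
  have d2 : HasFDerivAt (fderiv ℝ q) (fderiv ℝ (fderiv ℝ q) w) w :=
    ((hq.fderiv_right (m := 1) (by norm_num)).differentiableAt (by norm_num)).hasFDerivAt
  have key : ∀ a b, G (fderiv ℝ ϑ w b) (fderiv ℝ q w a) +
      G (ϑ w) (fderiv ℝ (fderiv ℝ q) w b a) = 0 := by
    intro a b
    have d3 := (G.hasFDerivAt.comp w d1).clm_apply (d2.clm_apply (hasFDerivAt_const a w))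
    have d4 : HasFDerivAt (fun v => (G ∘ ϑ) v (fderiv ℝ q v a)) (0 : E →L[ℝ] ℝ) w :=
      (hasFDerivAt_const (0 : ℝ) w).congr_of_eventuallyEq (h1.mono fun v hv => hv a)
    have d5 := congrArg (fun L : E →L[ℝ] ℝ => L b) (d3.unique d4)
    simp at d5
    linarith
  have h2 : IsSymmSndFDerivAt ℝ q w := hq.isSymmSndFDerivAt (by simp)
  have h3 := key ξ ξ'
  have h4 := key ξ' ξ
  rw [h2 ξ ξ'] at h4
  linarith

omit [FiniteDimensional ℝ E] in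
theorem cube {G : E →L[ℝ] E →L[ℝ] ℝ} {q ϑ : E → E} {w : E} (hq : ContDiffAt ℝ 2 q w)
    (hϑ : ContDiffAt ℝ 2 ϑ w) (h0 : q w = 0)
    (h1 : ∀ᶠ v in 𝓝 w, ∀ ξ, G (ϑ v) (fderiv ℝ q v ξ) = 0) :
    ∃ A : ℝ, 0 ≤ A ∧ ∀ ε : ℝ, 0 < ε → ∀ᶠ ξ in 𝓝 (0 : E), fderiv ℝ q w ξ = 0 →
      G (ϑ (w + ξ)) (q (w + ξ)) ≤ A * ε * ‖ξ‖ ^ 2 := by
  obtain ⟨L, t, ht, hL⟩ := (hϑ.of_le (m := 1) (by norm_num)).exists_lipschitzOnWith
  refine ⟨‖G‖ * L, by positivity, fun ε hε => ?_⟩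
  have c1 : ∀ᶠ v in 𝓝 w, DifferentiableAt ℝ q v :=
    (hq.eventually (by simp)).mono fun v hv => hv.differentiableAt (by norm_num)
  have c2 : ∀ᶠ v in 𝓝 w, ‖fderiv ℝ q v - fderiv ℝ q w‖ ≤ ε := by
    have := (hq.fderiv_right (m := 1) (by norm_num)).continuousAt
    filter_upwards [this (Metric.closedBall_mem_nhds _ hε)] with v hv
    exact mem_closedBall_iff_norm.1 hv
  obtain ⟨δ, hδ, H⟩ := Metric.eventually_nhds_iff_ball.1 ((h1.and c1).and (c2.and ht))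
  filter_upwards [Metric.ball_mem_nhds (0 : E) hδ] with ξ hξ hY
  have hξ' : ‖ξ‖ < δ := mem_ball_zero_iff.1 hξ
  have hm : ∀ s ∈ Icc (0 : ℝ) 1, w + s • ξ ∈ Metric.ball w δ := fun s hs => by
    rw [mem_ball_iff_norm, add_sub_cancel_left, norm_smul, Real.norm_of_nonneg hs.1]
    exact (mul_le_of_le_one_left (norm_nonneg _) hs.2).trans_lt hξ'
  have hm1 : w + ξ ∈ Metric.ball w δ := by simpa using hm 1 (by simp)
  have hd : ∀ s ∈ Icc (0 : ℝ) 1, HasDerivWithinAt (fun s : ℝ => G (ϑ (w + ξ)) (q (w + s • ξ)))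
      (G (ϑ (w + ξ)) (fderiv ℝ q (w + s • ξ) ξ)) (Icc 0 1) s := fun s hs => by
    have a1 : HasDerivAt (fun s : ℝ => w + s • ξ) ξ s := by
      simpa using ((hasDerivAt_id s).smul_const ξ).const_add w
    have a2 := (H _ (hm s hs)).1.2.hasFDerivAt.comp_hasDerivAt s a1
    exact ((G (ϑ (w + ξ))).hasFDerivAt.comp_hasDerivAt s a2).hasDerivWithinAt
  have hb := norm_image_sub_le_of_norm_deriv_le_segment_01' (C := ‖G‖ * L * ε * ‖ξ‖ ^ 2) hd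
    fun s hs => by
      have hs' := Ico_subset_Icc_self hs
      obtain ⟨⟨b1, -⟩, b2, b3⟩ := H _ (hm s hs')
      have e : G (ϑ (w + ξ)) (fderiv ℝ q (w + s • ξ) ξ) =
          G (ϑ (w + ξ) - ϑ (w + s • ξ)) ((fderiv ℝ q (w + s • ξ) - fderiv ℝ q w) ξ) := by
        rw [ContinuousLinearMap.sub_apply, hY, sub_zero, map_sub, ContinuousLinearMap.sub_apply,
          b1, sub_zero]
      have b4 : ‖ϑ (w + ξ) - ϑ (w + s • ξ)‖ ≤ L * ‖ξ‖ := by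
        refine (hL.norm_sub_le (H _ hm1).2.2 b3).trans (mul_le_mul_of_nonneg_left ?_ L.2)
        rw [add_sub_add_left_eq_sub, show ξ - s • ξ = (1 - s) • ξ by rw [sub_smul, one_smul],
          norm_smul, Real.norm_of_nonneg (by linarith [hs.2])]
        exact mul_le_of_le_one_left (norm_nonneg _) (by linarith [hs.1])
      rw [e]
      refine (G.le_opNorm₂ _ _).trans ?_
      calc _ ≤ ‖G‖ * (L * ‖ξ‖) * (ε * ‖ξ‖) :=
            mul_le_mul (mul_le_mul_of_nonneg_left b4 G.opNorm_nonneg)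
              (ContinuousLinearMap.le_of_opNorm_le _ b2 ξ) (norm_nonneg _) (by positivity)
        _ = _ := by ring
  simp only [one_smul, zero_smul, add_zero, h0, map_zero, sub_zero] at hb
  exact (le_abs_self _).trans hb

theorem num {c C A g a ε x y z T g1 g2 g3 g4 : ℝ} (hC : 0 ≤ C) (hA : 0 ≤ A)
    (hg : 0 ≤ g) (hε : 0 < ε) (hx : 0 ≤ x) (hy : 0 ≤ y) (hz : 0 ≤ z)
    (hT : T * c = 5 * C + g + A + 1) (hT0 : 0 ≤ T) (e1 : ε * a ≤ 1) (e2 : ε * a ^ 2 ≤ 1)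
    (h1 : y ≤ a * x) (h2 : z ≤ x + ε * y) (h3 : -g1 ≤ C * x ^ 2) (h4 : c * x ^ 2 ≤ g2)
    (h5 : -g3 ≤ g * (ε * y) * x) (h6 : g4 ≤ A * ε * y ^ 2)
    (h7 : g1 + T * g2 + g3 - g4 ≤ C * z ^ 2) : x = 0 := by
  have a1 : ε * y ≤ x := by
    have := mul_le_mul_of_nonneg_left h1 hε.le
    nlinarith
  have a2 : z ^ 2 ≤ (2 * x) ^ 2 := pow_le_pow_left₀ hz (by linarith) 2
  have a3 : ε * y ^ 2 ≤ x ^ 2 := by
    have b1 := mul_le_mul_of_nonneg_left (pow_le_pow_left₀ hy h1 2) hε.le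
    have b2 := mul_le_mul_of_nonneg_right e2 (sq_nonneg x)
    nlinarith
  have a4 := mul_le_mul_of_nonneg_left a2 hC
  have a5 := mul_le_mul_of_nonneg_left a3 hA
  have a6 := mul_le_mul_of_nonneg_right (mul_le_mul_of_nonneg_left a1 hg) hx
  have a7 := mul_le_mul_of_nonneg_left h4 hT0
  have a8 : T * (c * x ^ 2) = (5 * C + g + A + 1) * x ^ 2 := by rw [← hT]; ring
  have a9 : x ^ 2 ≤ 0 := by nlinarith
  exact pow_eq_zero_iff (two_ne_zero) |>.1 (le_antisymm a9 (sq_nonneg x))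

theorem zero {G : E →L[ℝ] E →L[ℝ] ℝ} (hp : ∀ a, a ≠ 0 → 0 < G a a)
    {q ϑ : E → E} {w : E} (hq : ContDiffAt ℝ 2 q w) (hϑ : ContDiffAt ℝ 2 ϑ w) (h0 : q w = 0)
    (h1 : ∀ᶠ v in 𝓝 w, ∀ ξ, G (ϑ v) (fderiv ℝ q v ξ) = 0) {C : ℝ}
    (h2 : ∀ᶠ z in 𝓝 (w, w), G (ϑ z.1) (q z.2 - q z.1) ≤ C * ‖q z.2 - q z.1‖ ^ 2)
    (h3 : ∀ᶠ v in 𝓝 w, -G (ϑ w) (q v) ≤ C * ‖q v‖ ^ 2) (S : E →L[ℝ] E)
    (hS : ∀ γ, (∀ ξ, G γ (fderiv ℝ q w ξ) = 0) →
      fderiv ℝ q w (S γ) = 0 ∧ fderiv ℝ ϑ w (S γ) = γ) :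
    ∀ᶠ v in 𝓝 w, (∀ ξ, G (q v) (fderiv ℝ q w ξ) = 0) → q v = 0 := by
  obtain ⟨c, hc, Hc⟩ := coer hp
  obtain ⟨A, hA, HA⟩ := cube hq hϑ h0 h1
  obtain ⟨C', hC'⟩ : ∃ C' : ℝ, C' = max C 0 := ⟨_, rfl⟩
  have hC0 : 0 ≤ C' := hC' ▸ le_max_right _ _
  have hC1 : C ≤ C' := hC' ▸ le_max_left _ _
  obtain ⟨T, hT⟩ : ∃ T : ℝ, T = (5 * C' + ‖G‖ + A + 1) / c := ⟨_, rfl⟩
  have hT0 : 0 ≤ T := by rw [hT]; positivity
  obtain ⟨a, ha⟩ : ∃ a : ℝ, a = T * ‖S‖ := ⟨_, rfl⟩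
  have ha0 : 0 ≤ a := by rw [ha]; positivity
  have hε : 0 < 1 / (1 + a) ^ 2 := by positivity
  have d1 : HasFDerivAt ϑ (fderiv ℝ ϑ w) w := (hϑ.differentiableAt (by norm_num)).hasFDerivAt
  have d2 : HasFDerivAt q (fderiv ℝ q w) w := (hq.differentiableAt (by norm_num)).hasFDerivAt
  have t1 : Tendsto (fun v => T • S (q v)) (𝓝 w) (𝓝 0) := by
    have : ContinuousAt (fun v => T • S (q v)) w :=
      (S.continuous.continuousAt.comp hq.continuousAt).const_smul T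
    have := this.tendsto
    rwa [h0, map_zero, smul_zero] at this
  have t2 : Tendsto (fun v => (w + T • S (q v), v)) (𝓝 w) (𝓝 (w, w)) := by
    have := (t1.const_add w).prodMk_nhds (tendsto_id (x := 𝓝 w))
    rwa [add_zero] at this
  filter_upwards [t1.eventually ((hasFDerivAt_iff_isLittleO_nhds_zero.1 d1).def hε),
    t1.eventually ((hasFDerivAt_iff_isLittleO_nhds_zero.1 d2).def hε),
    t1.eventually (HA _ hε), t2.eventually h2, h3] with v a1 a2 a3 a4 a5 hv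
  obtain ⟨s1, s2⟩ := hS _ hv
  generalize q v = γ at *
  have s3 : fderiv ℝ q w (T • S γ) = 0 := by rw [map_smul, s1, smul_zero]
  have s4 : fderiv ℝ ϑ w (T • S γ) = T • γ := by rw [map_smul, s2]
  have s5 : ‖T • S γ‖ ≤ a * ‖γ‖ := by
    rw [norm_smul, Real.norm_of_nonneg hT0, ha, mul_assoc]
    exact mul_le_mul_of_nonneg_left (S.le_opNorm γ) hT0
  generalize T • S γ = ξ at *
  rw [s3, h0, sub_zero, sub_zero] at a2
  rw [s4] at a1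
  refine norm_eq_zero.1 (num (c := c) (C := C') (A := A) (g := ‖G‖) (a := a) (T := T)
    (y := ‖ξ‖) (z := ‖γ - q (w + ξ)‖) (g1 := G (ϑ w) γ) (g2 := G γ γ)
    (g3 := G (ϑ (w + ξ) - ϑ w - T • γ) γ) hC0 hA G.opNorm_nonneg hε (norm_nonneg _)
    (norm_nonneg _) (norm_nonneg _) (by rw [hT]; field_simp) hT0 ?_ ?_ s5
    ((norm_sub_le _ _).trans (by linarith)) ?_ (Hc γ) ?_ (a3 s3) ?_)
  · rw [one_div, inv_mul_le_iff₀ (by positivity)]
    nlinarith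
  · rw [one_div, inv_mul_le_iff₀ (by positivity)]
    nlinarith
  · exact a5.trans (mul_le_mul_of_nonneg_right hC1 (sq_nonneg _))
  · refine (neg_le_abs _).trans ((G.le_opNorm₂ _ _).trans ?_)
    exact mul_le_mul_of_nonneg_right (mul_le_mul_of_nonneg_left a1 G.opNorm_nonneg) (norm_nonneg _)
  · refine le_trans (le_of_eq ?_) (a4.trans (mul_le_mul_of_nonneg_right hC1 (sq_nonneg _)))
    simp only [map_sub, map_smul, ContinuousLinearMap.sub_apply, ContinuousLinearMap.smul_apply,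
      smul_eq_mul]
    ring

end ConeAAux

open ConeAAux in
/-- `Y = fderiv q w`. Differentiating `h1` and using the symmetry of second derivatives,
`G (ϑ' ξ) (Y ξ') = G (ϑ' ξ') (Y ξ)`, so `ϑ'` maps `ker Y` injectively into `K₀ = (range Y)^⊥`, bijectively by
dimension; `ϑ w ∈ K₀`. `Ξ v = proj_{range Y} (q v) + proj_{K₀} (ϑ v)` has an invertible derivative, so it maps
neighbourhoods of `w` onto neighbourhoods of `ϑ w` (`HasStrictFDerivAt.map_nhds_eq_of_equiv`). If `q v = γ ∈ K₀`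
and `v` is close to `w` then `γ = 0`: test `h2` with `w + ξ`, `ξ ∈ ker Y`, `ϑ' ξ = T • γ`, `T` large. -/
theorem ls {G : E →L[ℝ] E →L[ℝ] ℝ} (hs : ∀ a b, G a b = G b a) (hp : ∀ a, a ≠ 0 → 0 < G a a)
    {q ϑ : E → E} {w : E} (hq : ContDiffAt ℝ 2 q w) (hϑ : ContDiffAt ℝ 2 ϑ w) (h0 : q w = 0)
    (h1 : ∀ᶠ v in 𝓝 w, ∀ ξ, G (ϑ v) (fderiv ℝ q v ξ) = 0) {C : ℝ}
    (h2 : ∀ᶠ z in 𝓝 (w, w), G (ϑ z.1) (q z.2 - q z.1) ≤ C * ‖q z.2 - q z.1‖ ^ 2)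
    (h3 : ∀ᶠ v in 𝓝 w, -G (ϑ w) (q v) ≤ C * ‖q v‖ ^ 2)
    (h4 : ∀ ξ, fderiv ℝ q w ξ = 0 → fderiv ℝ ϑ w ξ = 0 → ξ = 0) {U : Set E} (hU : U ∈ 𝓝 w) :
    ∀ᶠ k in 𝓝 (0 : E), (∀ ξ, G k (fderiv ℝ q w ξ) = 0) →
      ∃ v ∈ U, q v = 0 ∧ ∀ η, (∀ ξ, G η (fderiv ℝ q w ξ) = 0) → G (ϑ v) η = G (ϑ w + k) η := by
  have := FiniteDimensional.complete ℝ E
  obtain ⟨P, p1, p2, p3, p4⟩ := proj hs hp (fderiv ℝ q w)
  have hsy := symm hq hϑ h1
  have d1 := hϑ.hasStrictFDerivAt (by norm_num)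
  have d2 := hq.hasStrictFDerivAt (by norm_num)
  have hz := zero hp hq hϑ h0 h1 h2 h3
  have hw := h1.self_of_nhds
  generalize fderiv ℝ q w = Y at *
  generalize fderiv ℝ ϑ w = Θ at *
  have pp : ∀ x, P (x - P x) = 0 := fun x => p4 _ (p2 x)
  have pP : ∀ x, P (P x) = P x := fun x => by
    obtain ⟨ξ, h⟩ := p1 x
    rw [h, p3]
  let D : E →L[ℝ] E := P.comp Y + (Θ - P.comp Θ)
  have hD : ∀ ξ, D ξ = Y ξ + (Θ ξ - P (Θ ξ)) := fun ξ => by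
    simp only [D, ContinuousLinearMap.add_apply, ContinuousLinearMap.sub_apply,
      ContinuousLinearMap.comp_apply, p3]
  have hK : ∀ ξ γ, (∀ ξ, G γ (Y ξ) = 0) → D ξ = γ → Y ξ = 0 ∧ Θ ξ = γ := by
    intro ξ γ hγ e
    have a1 : Y ξ = 0 := by
      have := congrArg P e
      rwa [hD, map_add, pp, p3, add_zero, p4 γ hγ] at this
    have a2 : P (Θ ξ) = 0 := p4 _ fun ξ' => by rw [hsy, a1, map_zero]
    rw [hD, a1, a2, zero_add, sub_zero] at e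
    exact ⟨a1, e⟩
  have hinj : Function.Injective (D : E →ₗ[ℝ] E) := by
    rw [injective_iff_map_eq_zero]
    intro ξ e
    obtain ⟨a1, a2⟩ := hK ξ 0 (by simp) e
    exact h4 ξ a1 a2
  let e := (LinearEquiv.ofInjectiveEndo _ hinj).toContinuousLinearEquiv
  have hz' := hz (e.symm : E →L[ℝ] E) fun γ hγ => hK _ γ hγ (e.apply_symm_apply γ)
  have d3 : HasStrictFDerivAt (fun v => P (q v) + (ϑ v - P (ϑ v))) D w :=
    (P.hasStrictFDerivAt.comp w d2).add (d1.sub (P.hasStrictFDerivAt.comp w d1))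
  have hm := d3.map_nhds_eq_of_surj
    (LinearMap.range_eq_top.2 (LinearMap.injective_iff_surjective.1 hinj))
  rw [h0, map_zero, p4 _ hw, zero_add, sub_zero] at hm
  have hi := image_mem_map (m := fun v => P (q v) + (ϑ v - P (ϑ v))) (inter_mem hU hz')
  rw [hm] at hi
  have t1 : Tendsto (fun k : E => ϑ w + k) (𝓝 0) (𝓝 (ϑ w)) := by
    have := (tendsto_id (x := 𝓝 (0 : E))).const_add (ϑ w)
    rwa [add_zero] at this
  filter_upwards [t1.eventually hi] with k hk hk'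
  obtain ⟨v, ⟨v1, v2⟩, v3⟩ := hk
  have a1 : P (q v) = 0 := by
    have := congrArg P v3
    rwa [map_add, pp, pP, add_zero, map_add, p4 _ hw, p4 _ hk', add_zero] at this
  refine ⟨v, v1, v2 fun ξ => ?_, fun η hη => ?_⟩
  · have := p2 (q v) ξ
    rwa [a1, sub_zero] at this
  · obtain ⟨ξ, h⟩ := p1 (ϑ v)
    rw [← v3, a1, zero_add, map_sub, ContinuousLinearMap.sub_apply, h, hs (Y ξ), hη, sub_zero]

end Vale.Agent.P231
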