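import Vale.Agent.P231.Moreau
import Vale.Agent.P231.ConeA

/-! The cone of directions to a cut point is a subspace. -/

open scoped Manifold ContDiff Topology ENNReal RealInnerProductSpace
open Set Filter Real Module

set_option linter.unusedSectionVars false

namespace Vale.Agent.P231

open Vale.Agent.P255 Vale.Agent.P234

variable {E : Type} [NormedAddCommGroup E] [NormedSpace ℝ E] [FiniteDimensional ℝ E]
  {M : Type} [MetricSpace M] [CompactSpace M] [ChartedSpace E M] [IsManifold 𝓘(ℝ, E) ∞ M]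
  {g : M → E →L[ℝ] E →L[ℝ] ℝ} {κ : ℝ}

namespace ConeAux

theorem exists_orth {G : E →L[ℝ] E →L[ℝ] ℝ} (hs : ∀ a b, G a b = G b a)
    (hp : ∀ a, a ≠ 0 → 0 < G a a) (Y : E →L[ℝ] E) : ∃ Q : Submodule ℝ E,
      (∀ k, k ∈ Q ↔ ∀ ξ, G k (Y ξ) = 0) ∧
        finrank ℝ Q = finrank ℝ (LinearMap.ker (Y : E →ₗ[ℝ] E)) := by
  have hB : LinearMap.BilinForm.Nondegenerate (G.toLinearMap₁₂ : LinearMap.BilinForm ℝ E) := by
    constructor
    · intro x hx
      by_contra h0
      exact (hp x h0).ne' (hx x)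
    · intro x hx
      by_contra h0
      exact (hp x h0).ne' (hx x)
  refine ⟨LinearMap.BilinForm.orthogonal (G.toLinearMap₁₂ : LinearMap.BilinForm ℝ E)
    (LinearMap.range (Y : E →ₗ[ℝ] E)), fun k => ?_, ?_⟩
  · rw [LinearMap.BilinForm.mem_orthogonal_iff]
    constructor
    · intro H ξ
      rw [hs]
      exact H _ ⟨ξ, rfl⟩
    · rintro H _ ⟨ξ, rfl⟩
      exact (hs _ _).trans (H ξ)
  · rw [LinearMap.BilinForm.finrank_orthogonal hB]
    have := LinearMap.finrank_range_add_finrank_ker (Y : E →ₗ[ℝ] E)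
    omega

theorem deriv_zero {l : E →L[ℝ] ℝ} {q : E → E} {w : E} (hq : DifferentiableAt ℝ q w)
    (h0 : q w = 0) {C : ℝ} (h : ∀ᶠ v in 𝓝 w, l (q v) ≤ C * ‖q v‖ ^ 2) (ξ : E) :
    l (fderiv ℝ q w ξ) = 0 := by
  have h1 : HasFDerivAt (fun x : E => ‖x‖ ^ 2) (0 : E →L[ℝ] ℝ) (q w) := by
    rw [h0, hasFDerivAt_iff_isLittleO_nhds_zero]
    simpa using Asymptotics.isLittleO_norm_pow_id (E' := E) one_lt_two
  have h2 := (l.hasFDerivAt.comp w hq.hasFDerivAt).sub
    ((h1.comp w hq.hasFDerivAt).const_mul C)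
  have h3 : IsLocalMax (l ∘ q - fun y => C * ((fun x : E => ‖x‖ ^ 2) ∘ q) y) w := by
    filter_upwards [h] with v hv
    simp only [Pi.sub_apply, Function.comp_apply, h0, map_zero, norm_zero]
    linarith
  have h4 := congrArg (fun f : E →L[ℝ] ℝ => f ξ) (h3.hasFDerivAt_eq_zero h2)
  simpa using h4

/-- The time at which the geodesic `(p, v)` reaches the cut locus. -/
noncomputable def tau (g : M → E →L[ℝ] E →L[ℝ] ℝ) (κ : ℝ) (p : M) (v : E) : ℝ :=
  κ / nr g p v * (π / 2)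

theorem pos_of_nr {p : M} {v : E} (hv : 0 < nr g p v) : 0 < g p v v := Real.sqrt_pos.1 hv

theorem nr_smooth {p : M} {v : E} (hv : 0 < nr g p v) : ContDiffAt ℝ ∞ (nr g p) v :=
  ContDiffAt.sqrt (f := fun v => g p v v) ((g p).contDiff.clm_apply contDiff_id).contDiffAt
    (pos_of_nr hv).ne'

theorem tau_smooth {p : M} {v : E} (hv : 0 < nr g p v) : ContDiffAt ℝ ∞ (tau g κ p) v :=
  (contDiffAt_const.div (nr_smooth hv) hv.ne').mul contDiffAt_const

theorem ev_pos {p : M} {v : E} (hv : 0 < nr g p v) : ∀ᶠ u in 𝓝 v, 0 < nr g p u :=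
  (nr_smooth hv).continuousAt.eventually (lt_mem_nhds hv)

theorem smv (h : RM g) {p : M} {v : E} (hv : 0 < nr g p v) :
    SmV (fun v => geo g p v (tau g κ p v)) (fun v => -vl g p v (tau g κ p v)) v :=
  (((smV_const p contDiffAt_id).flow h (tau_smooth hv)).smul
    (contDiffAt_const (c := (-1 : ℝ)))).congr EventuallyEq.rfl
      (Eventually.of_forall fun _ => (neg_one_smul ℝ _).symm)

theorem lam (h : Bl g κ) {p : M} {v : E} (hv : 0 < nr g p v) :
    (κ / nr g p v) • -vl g p v (tau g κ p v) ∈ Lam g κ (geo g p v (tau g κ p v)) p := by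
  have hc : 0 < κ / nr g p v := div_pos h.kpos hv
  have h1 : nr g p ((κ / nr g p v) • v) = κ := by
    rw [nr_smul, abs_of_pos hc, div_mul_cancel₀ _ hv.ne']
  have h2 := h.back h1
  rw [h.toRM.vl_smul, h.toRM.geo_eq, smul_smul, mul_comm, ← h.toRM.geo_eq, ← smul_neg] at h2
  exact h2

theorem orth (h : Bl g κ) {p : M} {v : E} (hv : 0 < nr g p v) (ξ : E) :
    g p v (fderiv ℝ (fun v => tau g κ p v • v) v ξ) = 0 := by
  have hσ : DifferentiableAt ℝ (fun v => tau g κ p v • v) v :=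
    ((tau_smooth hv).smul contDiffAt_id).differentiableAt (by simp)
  have h1 := ((g p).hasFDerivAt.comp v hσ.hasFDerivAt).clm_apply hσ.hasFDerivAt
  have h2 : (fun y => ((g p) ∘ fun v => tau g κ p v • v) y (tau g κ p y • y)) =ᶠ[𝓝 v]
      fun _ => (κ * (π / 2)) ^ 2 := by
    filter_upwards [ev_pos hv] with u hu
    simp only [Function.comp_apply, map_smul, smul_apply, smul_eq_mul]
    rw [← h.toRM.nr_sq, tau]
    field_simp
  have h3 := (h1.congr_of_eventuallyEq h2.symm).unique (hasFDerivAt_const _ _)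
  have h4 := congrArg (fun f : E →L[ℝ] ℝ => f ξ) h3
  simp only [add_apply, ContinuousLinearMap.comp_apply, Function.comp_apply,
    ContinuousLinearMap.flip_apply, map_smul, smul_apply, smul_eq_mul,
    zero_apply] at h4
  rw [h.symm p _ v] at h4
  have hτ : 0 < tau g κ p v := mul_pos (div_pos h.kpos hv) (by positivity)
  have h5 : tau g κ p v * g p v (fderiv ℝ (fun v => tau g κ p v • v) v ξ) = 0 := by linarith
  exact (mul_eq_zero.1 h5).resolve_left hτ.ne'

theorem dM_X (h : RM g) {p : M} {v : E} (hv : 0 < nr g p v) (ξ : E) :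
    dM E (fun v => geo g p v (tau g κ p v)) v ξ =
      dM E (ex g p) (tau g κ p v • v) (fderiv ℝ (fun v => tau g κ p v • v) v ξ) := by
  have e : (fun v => geo g p v (tau g κ p v)) = fun v => ex g p (tau g κ p v • v) :=
    funext fun v => h.geo_eq _ _ _
  rw [e]
  exact dM_comp (X := ex g p) (φ := fun v => tau g κ p v • v) (h.smP_ex p contDiffAt_id)
    (((tau_smooth hv).smul contDiffAt_id).differentiableAt (by simp)) ξ

theorem gauss (h : Bl g κ) {p : M} {v : E} (hv : 0 < nr g p v) (ξ : E) :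
    g (geo g p v (tau g κ p v)) (-vl g p v (tau g κ p v))
      (dM E (fun v => geo g p v (tau g κ p v)) v ξ) = 0 := by
  have h1 := h.toRM.gauss p (tau g κ p v • v) (fderiv ℝ (fun v => tau g κ p v • v) v ξ)
  rw [← dM_X h.toRM hv, h.toRM.vl_smul, mul_one, ← h.toRM.geo_eq] at h1
  simp only [map_smul, smul_apply, smul_eq_mul] at h1
  rw [orth h hv] at h1
  have hτ : 0 < tau g κ p v := mul_pos (div_pos h.kpos hv) (by positivity)
  rw [map_neg, neg_apply, mul_left_cancel₀ hτ.ne' h1, neg_zero]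

theorem tau_self (h : Bl g κ) {p : M} {w : E} (hw : nr g p w = κ) : tau g κ p w = π / 2 := by
  rw [tau, hw, div_self h.kpos.ne', one_mul]

theorem ker_X (h : Bl g κ) {p : M} {w : E} (hw : nr g p w = κ) :
    finrank ℝ (LinearMap.ker (dM E (fun v => geo g p v (tau g κ p v)) w : E →ₗ[ℝ] E)) =
      finrank ℝ (KK g p w) + 1 := by
  have hv : 0 < nr g p w := hw ▸ h.kpos
  have hπ : (π / 2 : ℝ) ≠ 0 := by positivity
  have hww := pos_of_nr hv
  have hK : ∀ k ∈ KK g p w, g p w k = 0 := fun k hk => by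
    have := h.toRM.ker_orth (x := p) (w := (π / 2) • w) (κ := k) hk
    simp only [map_smul, smul_apply, smul_eq_mul] at this
    exact (mul_eq_zero.1 this).resolve_left hπ
  have hτ : DifferentiableAt ℝ (tau g κ p) w := (tau_smooth hv).differentiableAt (by simp)
  have hd : ∀ ξ, fderiv ℝ (fun v => tau g κ p v • v) w ξ =
      (π / 2) • ξ + fderiv ℝ (tau g κ p) w ξ • w := fun ξ => by
    have := (hτ.hasFDerivAt.smul (hasFDerivAt_id w)).fderiv
    rw [show (fun v => tau g κ p v • v) = tau g κ p • id from rfl, this, tau_self h hw]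
    simp
  have hm : ∀ ξ, ξ ∈ LinearMap.ker (dM E (fun v => geo g p v (tau g κ p v)) w : E →ₗ[ℝ] E) ↔
      (π / 2) • ξ + fderiv ℝ (tau g κ p) w ξ • w ∈ KK g p w := fun ξ => by
    rw [LinearMap.mem_ker, KK, LinearMap.mem_ker, ContinuousLinearMap.coe_coe,
      ContinuousLinearMap.coe_coe, dM_X h.toRM hv, hd, tau_self h hw]
  have hwK : w ∉ KK g p w := fun hk => hww.ne' (hK w hk)
  rw [← Submodule.finrank_sup_span_singleton hwK]
  refine congrArg (fun S : Submodule ℝ E => finrank ℝ S) (le_antisymm ?_ ?_)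
  · intro ξ hξ
    have h1 := (hm ξ).1 hξ
    have h2 : ξ = (π / 2)⁻¹ • ((π / 2) • ξ + fderiv ℝ (tau g κ p) w ξ • w) +
        (-((π / 2)⁻¹ * fderiv ℝ (tau g κ p) w ξ)) • w := by
      rw [smul_add, smul_smul, smul_smul, inv_mul_cancel₀ hπ, one_smul, neg_smul,
        add_neg_cancel_right]
    rw [h2]
    exact Submodule.add_mem_sup (Submodule.smul_mem _ _ h1)
      (Submodule.smul_mem _ _ (Submodule.mem_span_singleton_self w))
  · refine sup_le (fun k hk => (hm k).2 ?_) ((Submodule.span_singleton_le_iff_mem _ _).2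
      ((hm w).2 ?_))
    · have h1 := orth h hv k
      rw [hd, map_add, map_smul, map_smul, hK k hk, smul_zero, zero_add, smul_eq_mul] at h1
      rw [(mul_eq_zero.1 h1).resolve_right hww.ne', zero_smul, add_zero]
      exact Submodule.smul_mem _ _ hk
    · have h1 := orth h hv w
      rw [hd, ← add_smul, map_smul, smul_eq_mul] at h1
      rw [← add_smul, (mul_eq_zero.1 h1).resolve_right hww.ne', zero_smul]
      exact Submodule.zero_mem _

/-- The initial vector is a smooth function of the end point and the end velocity. -/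
theorem inj (h : Bl g κ) {p : M} {w : E} (hv : 0 < nr g p w) {e : OpenPartialHomeomorph M E}
    (he : e ∈ atlas E M) (hq : geo g p w (tau g κ p w) ∈ e.source) {ξ : E}
    (h1 : fderiv ℝ (fun v => e (geo g p v (tau g κ p v))) w ξ = 0)
    (h2 : fderiv ℝ (fun v => dC e (geo g p v (tau g κ p v)) (-vl g p v (tau g κ p v))) w ξ = 0) :
    ξ = 0 := by
  have hS := smv (κ := κ) h.toRM hv
  have ha := (hS.1.chart he hq).differentiableAt (by simp)
  have hb := (hS.2 e he hq).differentiableAt (by simp)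
  let Ψ : E → E × E := fun v =>
    (e (geo g p v (tau g κ p v)), dC e (geo g p v (tau g κ p v)) (-vl g p v (tau g κ p v)))
  have hΨ : HasFDerivAt Ψ _ w := ha.hasFDerivAt.prodMk hb.hasFDerivAt
  let T : E × E → ℝ := fun z => κ / nr g (e.symm z.1) (dS e z.1 z.2) * (π / 2)
  let Φ : E × E → E := fun z => dC (chartAt E p) (geo g (e.symm z.1) (dS e z.1 z.2) (T z))
    (vl g (e.symm z.1) (dS e z.1 z.2) (T z))
  have key : ∀ v, geo g p v (tau g κ p v) ∈ e.source →
      nr g (e.symm (Ψ v).1) (dS e (Ψ v).1 (Ψ v).2) = nr g p v ∧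
      geo g (e.symm (Ψ v).1) (dS e (Ψ v).1 (Ψ v).2) (T (Ψ v)) = p ∧
      vl g (e.symm (Ψ v).1) (dS e (Ψ v).1 (Ψ v).2) (T (Ψ v)) = -v := fun v hv => by
    have a1 : e.symm (Ψ v).1 = geo g p v (tau g κ p v) := e.left_inv hv
    have a2 : dS e (Ψ v).1 (Ψ v).2 = -vl g p v (tau g κ p v) := dS_dC he hv _
    have a3 : nr g (e.symm (Ψ v).1) (dS e (Ψ v).1 (Ψ v).2) = nr g p v := by
      rw [a1, a2, nr_neg, nr_vl' h.toRM]
    have a4 : T (Ψ v) = tau g κ p v := by simp only [T, a3, tau]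
    refine ⟨a3, ?_, ?_⟩
    · rw [a1, a2, a4, ← neg_one_smul ℝ, h.toRM.geo_aff]
      simp [h.toRM.geo_zero]
    · rw [a1, a2, a4, ← neg_one_smul ℝ, h.toRM.vl_aff]
      simp [h.toRM.vl_zero]
  have hZ : SmV (fun z : E × E => e.symm z.1) (fun z => dS e z.1 z.2) (Ψ w) :=
    smV_symm he contDiffAt_fst (e.map_source hq) contDiffAt_snd
  have hn : 0 < nr g (e.symm (Ψ w).1) (dS e (Ψ w).1 (Ψ w).2) := by rw [(key w hq).1]; exact hv
  have hT : ContDiffAt ℝ ∞ T (Ψ w) :=
    (contDiffAt_const.div ((hZ.inner h.toRM hZ).sqrt (pos_of_nr hn).ne') hn.ne').mul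
      contDiffAt_const
  have hΦ : DifferentiableAt ℝ Φ (Ψ w) :=
    ((hZ.flow h.toRM hT).2 _ (chart_mem_atlas E p) (by
      beta_reduce
      rw [(key w hq).2.1]; exact mem_chart_source E p)).differentiableAt (by simp)
  have h3 : (fun v : E => -v) =ᶠ[𝓝 w] Φ ∘ Ψ := by
    filter_upwards [hS.1.continuousAt.eventually (e.open_source.mem_nhds hq)] with v hv
    simp only [Φ, Function.comp_apply]
    rw [(key v hv).2.1, (key v hv).2.2, dC_chartAt]
  have h4 := ((hΦ.hasFDerivAt.comp w hΨ).congr_of_eventuallyEq h3).unique (hasFDerivAt_id w).neg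
  have h5 := congrArg (fun f : E →L[ℝ] E => f ξ) h4
  simp only [ContinuousLinearMap.comp_apply, ContinuousLinearMap.prod_apply, h1, h2,
    neg_apply, ContinuousLinearMap.id_apply, Prod.mk_zero_zero,
    map_zero] at h5
  exact neg_eq_zero.1 h5.symm

theorem cn_smul {q p : M} {w : E} (hw : w ∈ Cn g κ q p) {t : ℝ} (ht : 0 ≤ t) :
    t • w ∈ Cn g κ q p := by
  obtain ⟨s, hs, u, hu, rfl⟩ := hw
  exact ⟨t * s, mul_nonneg ht hs, u, hu, smul_smul _ _ _⟩

theorem cn_of_lam {q p : M} {u : E} (hu : u ∈ Lam g κ q p) : u ∈ Cn g κ q p :=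
  ⟨1, zero_le_one, u, hu, (one_smul _ _).symm⟩

end ConeAux

open ConeAux in
/-- `q₀ = geo g p w (π/2)`, `e = chartAt E q₀`, `τ v = π/2 * κ / nr g p v`, `X v = geo g p v (τ v)`,
`V v = -vl g p v (τ v)`, `q v = e (X v) - e q₀`, `G = g q₀`, `ϑ v` the vector with
`G (ϑ v) = gc g e (e (X v)) (dC e (X v) (V v))` (`CM.exists_equiv`). `h1`: Gauss lemma (`X v` is at distance
`π/2 κ`, or `RM.gauss`); `h2`, `h3`: `reach`; `h4`: `v = vl g (X v) (-V v) (-τ)` is a smooth function of the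
chart coordinates of `(X v, V v)`. `Q = (range Y)^⊥`; `Cn ⊆ Q` by `reach`; `ls`, `cn_add` give `Q ⊆ Cn`;
`ker Y = span {w} ⊔ KK g p w` (`ker_orth`). -/
theorem Bl.cone (h : Bl g κ) {p : M} {w : E} (hw : nr g p w = κ)
    (hu : vl g p w (π / 2) ∈ Lam g κ (geo g p w (π / 2)) p) :
    ∃ Q : Submodule ℝ E, (Q : Set E) = Cn g κ (geo g p w (π / 2)) p ∧
      finrank ℝ Q = finrank ℝ (KK g p w) + 1 := by
  have hv : 0 < nr g p w := hw ▸ h.kpos
  have hτ := tau_self h hw
  obtain ⟨X, hX⟩ : ∃ X : E → M, X = fun v => geo g p v (tau g κ p v) := ⟨_, rfl⟩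
  obtain ⟨V, hV⟩ : ∃ V : E → E, V = fun v => -vl g p v (tau g κ p v) := ⟨_, rfl⟩
  have hXw : geo g p w (π / 2) = X w := by rw [hX, ← hτ]
  have hVw : vl g p w (π / 2) = -V w := by rw [hV, ← hτ, neg_neg]
  rw [hXw, hVw] at hu
  rw [hXw]
  have hS : ∀ v, 0 < nr g p v → SmV X V v := fun v hv => by rw [hX, hV]; exact smv h.toRM hv
  have hL : ∀ v, 0 < nr g p v → (κ / nr g p v) • V v ∈ Lam g κ (X v) p := fun v hv => by
    rw [hX, hV]; exact lam h hv
  have hG : ∀ v, 0 < nr g p v → ∀ ξ, g (X v) (V v) (dM E X v ξ) = 0 := fun v hv ξ => by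
    rw [hX, hV]; exact gauss h hv ξ
  have hD : ∀ v, 0 < nr g p v → dist (X v) p = π / 2 * κ := fun v hv => h.lam_dist (hL v hv)
  have hC : ∀ v, 0 < nr g p v → V v ∈ Cn g κ (X v) p := fun v hv => by
    have := cn_smul (cn_of_lam (hL v hv)) (inv_nonneg.2 (div_pos h.kpos hv).le)
    rwa [smul_smul, inv_mul_cancel₀ (div_pos h.kpos hv).ne', one_smul] at this
  obtain ⟨e, hE⟩ : ∃ e, e = chartAt E (X w) := ⟨_, rfl⟩
  have he : e ∈ atlas E M := hE ▸ chart_mem_atlas E _
  have hq : X w ∈ e.source := hE ▸ mem_chart_source E _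
  have hd : ∀ a, dC e (X w) a = a := fun a => by rw [hE]; exact dC_chartAt _ _
  have hgc : gc g e (e (X w)) = g (X w) := by
    ext a b
    rw [← gc_dC g he hq a b, hd, hd]
  have hcm := h.toIsRM.cm he
  obtain ⟨L, hLG⟩ := hcm.exists_equiv (e.map_source hq)
  rw [hgc] at hLG
  have hLa : ∀ a, L a = g (X w) a := fun a => by rw [← hLG]; rfl
  obtain ⟨q, hqd⟩ : ∃ q : E → E, q = fun v => e (X v) - e (X w) := ⟨_, rfl⟩
  obtain ⟨ϑ, hϑd⟩ : ∃ ϑ : E → E, ϑ = fun v => L.symm (gc g e (e (X v)) (dC e (X v) (V v))) :=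
    ⟨_, rfl⟩
  have hϑ : ∀ v, g (X w) (ϑ v) = gc g e (e (X v)) (dC e (X v) (V v)) := fun v => by
    rw [← hLa, hϑd, L.apply_symm_apply]
  have hϑ0 : ∀ v, X v = X w → ϑ v = V v := fun v hv => by
    apply L.injective
    rw [hLa, hLa, hϑ, hv, hgc, hd]
  have ha := (hS w hv).1.chart he hq
  have hb := (hS w hv).2 e he hq
  have hg : ContDiffAt ℝ ∞ (fun v => gc g e (e (X v))) w :=
    ContDiffAt.comp (g := gc g e) w (hcm.contDiffAt_G (e.map_source hq)) ha
  have hq2 : ContDiffAt ℝ ∞ q w := by rw [hqd]; exact ha.sub contDiffAt_const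
  have hϑ2 : ContDiffAt ℝ ∞ ϑ w := by
    rw [hϑd]
    exact L.symm.contDiff.contDiffAt.comp w (hg.clm_apply hb)
  have hq0 : q w = 0 := by rw [hqd]; exact sub_self _
  have hq' : ∀ v, fderiv ℝ q v = fderiv ℝ (fun v => e (X v)) v := fun v => by
    rw [hqd]; exact fderiv_sub_const _
  have hXc := (hS w hv).1.continuousAt
  have hU : ∀ᶠ v in 𝓝 w, 0 < nr g p v ∧ X v ∈ e.source :=
    (ev_pos hv).and (hXc.eventually (e.open_source.mem_nhds hq))
  obtain ⟨C, hR⟩ := h.reach he hq p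
  have hR1 : ∀ u ∈ Lam g κ (X w) p, ∀ᶠ v in 𝓝 w, g (X w) u (q v) ≤ C * ‖q v‖ ^ 2 := by
    intro u hu
    have ht : Tendsto (fun v => (X w, X v)) (𝓝 w) (𝓝 (X w, X w)) :=
      tendsto_const_nhds.prodMk_nhds hXc
    filter_upwards [ht.eventually hR, hU] with v h1 h2
    have := h1 u hu (hD v h2.1)
    rw [hgc, hd] at this
    rw [hqd]
    exact this
  obtain ⟨Q, hQ, hQr⟩ := exists_orth (h.symm (X w)) (h.pos (X w)) (fderiv ℝ q w)
  have hCQ : ∀ k ∈ Cn g κ (X w) p, k ∈ Q := by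
    rintro _ ⟨t, -, u, hu, rfl⟩
    exact Q.smul_mem t ((hQ u).2 fun ξ =>
      deriv_zero (hq2.differentiableAt (by simp)) hq0 (hR1 u hu) ξ)
  have key := ls (h.symm (X w)) (h.pos (X w)) (q := q) (ϑ := ϑ) (w := w)
    (hq2.of_le (by norm_cast)) (hϑ2.of_le (by norm_cast)) hq0
    (C := 2 * max C 0) ?_ ?_ ?_ ?_ hU
  · refine ⟨Q, Set.Subset.antisymm (fun k hk => ?_) hCQ, ?_⟩
    · have ht : Tendsto (fun t : ℝ => t • k) (𝓝[>] 0) (𝓝 0) := by
        have : ContinuousAt (fun t : ℝ => t • k) 0 := by fun_prop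
        have := this.tendsto
        rw [zero_smul] at this
        exact this.mono_left nhdsWithin_le_nhds
      obtain ⟨t, h1, h2⟩ := ((ht.eventually key).and self_mem_nhdsWithin).exists
      have h2 : 0 < t := h2
      have hk' : t • k ∈ Q := Q.smul_mem t hk
      obtain ⟨v, hvU, hv0, hv1⟩ := h1 ((hQ _).1 hk')
      have h3 : X v = X w := by
        rw [hqd] at hv0
        exact e.injOn hvU.2 hq (sub_eq_zero.1 hv0)
      have h4 : V v ∈ Cn g κ (X w) p := h3 ▸ hC v hvU.1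
      rw [hϑ0 v h3, hϑ0 w rfl] at hv1
      have h5 : V v - (V w + t • k) ∈ Q :=
        Q.sub_mem (hCQ _ h4) (Q.add_mem (hCQ _ (hC w hv)) hk')
      have h6 : V v - (V w + t • k) = 0 := by
        by_contra h0
        have h7 := h.pos (X w) _ h0
        have h8 := hv1 _ ((hQ _).1 h5)
        rw [map_sub (g (X w)), sub_apply, h8, sub_self] at h7
        exact lt_irrefl _ h7
      have h7 := cn_smul (h.cn_add h4 (cn_of_lam hu)) (inv_nonneg.2 h2.le)
      rw [sub_eq_zero.1 h6, add_right_comm, add_neg_cancel, zero_add, smul_smul,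
        inv_mul_cancel₀ h2.ne', one_smul] at h7
      exact h7
    · rw [hQr, ← ker_X h hw, ← hX]
      refine congrArg (fun S : Submodule ℝ E => finrank ℝ S) (Submodule.ext fun ξ => ?_)
      rw [LinearMap.mem_ker, LinearMap.mem_ker, ContinuousLinearMap.coe_coe,
        ContinuousLinearMap.coe_coe, hq', ← (hS w hv).1.dC_dM he hq, hd]
  · filter_upwards [hU] with v hv ξ
    rw [hϑ, hq', ← (hS v hv.1).1.dC_dM he hv.2, gc_dC g he hv.2, hG v hv.1]
  · have ht : Tendsto (fun z : E × E => (X z.1, X z.2)) (𝓝 (w, w)) (𝓝 (X w, X w)) :=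
      (hXc.tendsto.comp (continuous_fst.tendsto (w, w))).prodMk_nhds
        (hXc.tendsto.comp (continuous_snd.tendsto (w, w)))
    have hc : ∀ᶠ v in 𝓝 w, 1 / 2 < κ / nr g p v :=
      (continuousAt_const.div (nr_smooth hv).continuousAt hv.ne').eventually (lt_mem_nhds (by
        show 1 / 2 < κ / nr g p w
        rw [hw, div_self h.kpos.ne']; norm_num))
    filter_upwards [ht.eventually hR, (continuous_fst.tendsto (w, w)).eventually (hU.and hc),
      (continuous_snd.tendsto (w, w)).eventually hU] with z h1 h2 h3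
    have h4 := h1 _ (hL z.1 h2.1.1) (hD z.2 h3.1)
    have h5 : q z.2 - q z.1 = e (X z.2) - e (X z.1) := by rw [hqd]; exact sub_sub_sub_cancel_right _ _ _
    simp only [map_smul, smul_apply, smul_eq_mul] at h4
    rw [hϑ, h5]
    have h6 : C * ‖e (X z.2) - e (X z.1)‖ ^ 2 ≤ max C 0 * ‖e (X z.2) - e (X z.1)‖ ^ 2 :=
      mul_le_mul_of_nonneg_right (le_max_left _ _) (sq_nonneg _)
    have h7 : 0 ≤ max C 0 * ‖e (X z.2) - e (X z.1)‖ ^ 2 :=
      mul_nonneg (le_max_right _ _) (sq_nonneg _)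
    have h8 := h2.2
    by_contra h9
    have h10 := not_le.1 h9
    nlinarith
  · filter_upwards [hR1 _ hu] with v h1
    rw [map_neg, neg_apply] at h1
    rw [hϑ0 w rfl]
    have h6 : C * ‖q v‖ ^ 2 ≤ max C 0 * ‖q v‖ ^ 2 :=
      mul_le_mul_of_nonneg_right (le_max_left _ _) (sq_nonneg _)
    have h7 : 0 ≤ max C 0 * ‖q v‖ ^ 2 := mul_nonneg (le_max_right _ _) (sq_nonneg _)
    linarith
  · intro ξ h1 h2
    rw [hq'] at h1
    have h3 := (hg.differentiableAt (by simp)).hasFDerivAt.clm_apply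
      (hb.differentiableAt (by simp)).hasFDerivAt
    have h4 := (g (X w)).hasFDerivAt.comp w (hϑ2.differentiableAt (by simp)).hasFDerivAt
    rw [show (g (X w)) ∘ ϑ = fun v => gc g e (e (X v)) (dC e (X v) (V v)) from funext hϑ] at h4
    have h5 := congrArg (fun f : E →L[ℝ] E →L[ℝ] ℝ => f ξ) (h3.unique h4)
    have h6 : fderiv ℝ (fun v => gc g e (e (X v))) w ξ = 0 := by
      have := ((hcm.contDiffAt_G (e.map_source hq)).differentiableAt (by simp)).hasFDerivAt.comp w
        (ha.differentiableAt (by simp)).hasFDerivAt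
      rw [show (fun v => gc g e (e (X v))) = gc g e ∘ fun v => e (X v) from rfl, this.fderiv,
        ContinuousLinearMap.comp_apply, h1, map_zero]
    simp only [add_apply, ContinuousLinearMap.comp_apply,
      ContinuousLinearMap.flip_apply, h2, h6, map_zero, zero_apply,
      add_zero, hgc] at h5
    have h7 : fderiv ℝ (fun v => dC e (X v) (V v)) w ξ = 0 := by
      apply L.injective
      rw [hLa, h5, map_zero]
    rw [hX] at h1 hq
    rw [hX, hV] at h7
    exact ConeAux.inj h hv he hq h1 h7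

end Vale.Agent.P231
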