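import Vale.Agent.P231.Gram

/-! Continuity and measurability. -/

open scoped Manifold ContDiff Topology ENNReal RealInnerProductSpace
open Set Filter Real Module

set_option linter.unusedSectionVars false

namespace Vale.Agent.P231

open Vale.Agent.P255 Vale.Agent.P234

variable {E : Type} [NormedAddCommGroup E] [NormedSpace ℝ E] [FiniteDimensional ℝ E]
  {M : Type} [MetricSpace M] [CompactSpace M] [ChartedSpace E M] [IsManifold 𝓘(ℝ, E) ∞ M]
  {g : M → E →L[ℝ] E →L[ℝ] ℝ} {κ : ℝ}
  {T : Type} [TopologicalSpace T]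

namespace ContAux

/-- The differential of the exponential map depends continuously on all data. -/
theorem ctV_dex (h : RM g) {X : T → M} {V W : T → E} {t : T} (hV : CtV X V t) (hW : CtV X W t) :
    CtV (fun b => ex g (X b) (V b)) (fun b => dM E (ex g (X b)) (V b) (W b)) t := by
  have he := chart_mem_atlas E (X t)
  have hx := mem_chart_source E (X t)
  have he' := chart_mem_atlas E (ex g (X t) (V t))
  have hz := mem_chart_source E (ex g (X t) (V t))
  generalize chartAt E (X t) = e at he hx
  generalize chartAt E (ex g (X t) (V t)) = e' at he' hz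
  have h1 := (smV_symm (A := E × E) (a := (e (X t), dC e (X t) (V t))) he (β := fun p => p.1)
    (W := fun p => p.2) contDiffAt_fst (e.map_source hx) contDiffAt_snd).ex h
  have h2 : ex g (e.symm (e (X t))) (dS e (e (X t)) (dC e (X t) (V t))) ∈ e'.source := by
    rwa [e.left_inv hx, dS_dC he hx]
  have h3 := h1.chart he' h2
  set F : E × E → E := fun p => e' (ex g (e.symm p.1) (dS e p.1 p.2)) with hF
  have h4 : ContDiffAt ℝ 1 F (e (X t), dC e (X t) (V t)) := h3.of_le (by simp)
  have key : ∀ᶠ p in 𝓝 (tv (X t) (V t)), ∀ k, dC e' (ex g (pt p) (vc p))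
      (dM E (ex g (pt p)) (vc p) k) =
        fderiv ℝ F (e (pt p), dC e (pt p) (vc p)) (0, dC e (pt p) k) := by
    refine eventually_of_chart he hx (P := fun y u => ∀ k, dC e' (ex g y u) (dM E (ex g y) u k) =
      fderiv ℝ F (e y, dC e y u) (0, dC e y k)) ?_
    filter_upwards [h4.eventually (by simp),
      h1.continuousAt.preimage_mem_nhds (e'.open_source.mem_nhds h2),
      continuousAt_fst.preimage_mem_nhds (e.open_target.mem_nhds (e.map_source hx))]
      with z h6 h8 h9 k
    have h10 : SmP E (ex g (e.symm z.1)) (dS e z.1 z.2) := h.smP_ex _ contDiffAt_id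
    have h11 : dS e z.1 (dC e (e.symm z.1) k) = k := by
      have := dS_dC he (e.map_target h9) k
      rwa [e.right_inv h9] at this
    have h12 := (((h10.chart he' h8).differentiableAt (by simp)).hasFDerivAt).comp z.2
      (dS e z.1).hasFDerivAt
    have h13 := ((h6.differentiableAt (by simp)).hasFDerivAt).comp z.2
      (hasFDerivAt_prodMk_right (𝕜 := ℝ) z.1 z.2)
    have h14 := congrArg (fun L : E →L[ℝ] E => L (dC e (e.symm z.1) k)) (h12.unique h13)
    simp only [ContinuousLinearMap.comp_apply, h11] at h14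
    rw [h10.dC_dM he' h8, h14, e.right_inv h9, dC_dS he h9]
    rfl
  have cX : ContinuousAt (fun b => e (X b)) t := (e.continuousAt hx).comp hV.base
  have cV := ((ctV_iff he hx).1 hV).2
  have cW := ((ctV_iff he hx).1 hW).2
  refine (ctV_iff (X := fun b => ex g (X b) (V b)) (t := t) he' hz).2 ⟨hV.ex h, ?_⟩
  have h5 : ContinuousAt (fun b => fderiv ℝ F (e (X b), dC e (X b) (V b))) t :=
    ContinuousAt.comp (f := fun b => (e (X b), dC e (X b) (V b))) (h4.continuousAt_fderiv (by simp))
      (cX.prodMk cV)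
  refine (h5.clm_apply (continuousAt_const.prodMk cW (f := fun _ => (0 : E)))).congr ?_
  filter_upwards [hV.eventually key] with b hb
  exact (hb (W b)).symm

theorem continuousAt_gd (h : RM g) {ι : Type} [Fintype ι] [DecidableEq ι] {X : T → M}
    {W : ι → T → E} {t : T} (hW : ∀ i, CtV X (W i) t) :
    ContinuousAt (fun b => gd (g (X b)) fun i => W i b) t :=
  ContinuousAt.comp (g := fun A : Matrix ι ι ℝ => A.det)
    (f := fun b => Matrix.of fun i j => g (X b) (W i b) (W j b))
    continuous_id.matrix_det.continuousAt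
    (continuousAt_pi.2 fun i => continuousAt_pi.2 fun j => (hW i).inner h (hW j))

theorem continuous_tt : Continuous (tt κ : M × M → ℝ) := continuous_dist.div_const κ

end ContAux

open ContAux

/-- In charts `e` at `X t`, `e'` at `ex g (X t) (V t)`: `jac_sq` for the basis `dS e (e (X b)) (finBasis i)`,
and the derivative in the second variable of `(z, y) ↦ e' (ex g (e.symm z) (dS e z y))` is continuous (see `P234/Gap.lean`). -/
theorem continuousAt_jac (h : RM g) {X : T → M} {V : T → E} {t : T} (hV : CtV X V t) :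
    ContinuousAt (fun b => jac g (X b) (V b)) t := by
  have he := chart_mem_atlas E (X t)
  have hx := mem_chart_source E (X t)
  generalize chartAt E (X t) = e at he hx
  have hW : ∀ i, CtV X (fun b => dS e (e (X b)) (finBasis ℝ E i)) t := fun i =>
    ctV_dS he hV.base hx continuousAt_const
  have c1 := continuousAt_gd h hW
  have c2 := continuousAt_gd h fun i => ctV_dex h hV (hW i)
  have key : ∀ y ∈ e.source, ∀ u, 0 < gd (g y) (fun i => dS e (e y) (finBasis ℝ E i)) ∧
      √(gd (g (ex g y u)) (fun i => dM E (ex g y) u (dS e (e y) (finBasis ℝ E i))) /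
        gd (g y) fun i => dS e (e y) (finBasis ℝ E i)) = jac g y u := by
    intro y hy u
    have hi : Function.Injective (dS e (e y) : E →ₗ[ℝ] E) :=
      Function.LeftInverse.injective (g := dC e (e.symm (e y))) (dC_dS he (e.map_source hy))
    let b := (finBasis ℝ E).map (LinearEquiv.ofInjectiveEndo _ hi)
    have h1 : 0 < gd (g y) b := (gram_posDef h y b.linearIndependent).det_pos
    have h2 := jac_sq h y u b
    refine ⟨h1, ?_⟩
    show √(gd (g (ex g y u)) (fun i => dM E (ex g y) u (b i)) / gd (g y) b) = _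
    rw [← h2, mul_div_cancel_right₀ _ h1.ne']
    exact sqrt_sq (sqrt_nonneg _)
  refine ((c2.div c1 (key _ hx (V t)).1.ne').sqrt).congr ?_
  filter_upwards [hV.base.preimage_mem_nhds (e.open_source.mem_nhds hx)] with b hb
  exact (key _ hb (V b)).2

theorem continuousAt_FF (h : RM g) {X : T → M} {V : T → E} {τ : T → ℝ} {t : T} (hV : CtV X V t)
    (hτ : ContinuousAt τ t) : ContinuousAt (fun b => FF g (X b) (V b) (τ b)) t :=
  (hτ.abs.pow _).mul (continuousAt_jac h (hV.smul hτ))

/-- `exists_locInv`, `LocInv.cost_eq`, `mn_unique`, `inj_open` or `dir_geo`. -/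
theorem Bl.ctV_dir (h : Bl g κ) {p : M × M} (hp : p ∈ Om M κ) : CtV Prod.fst (dir g κ) p := by
  obtain ⟨h1, h2, h3⟩ := h.dir_spec hp
  have h4 : tt κ p • dir g κ p = lg g p.1 p.2 := smul_inv_smul₀ h3.1.ne' _
  have h5 := h.inj h1 (t := tt κ p) (by rw [abs_of_pos h3.1]; exact h3.2)
  rw [h.toRM.geo_eq, h4] at h2
  rw [h4] at h5
  have h6 : CtV Prod.fst (fun q : M × M => lg g q.1 q.2) p := by
    intro W hW
    have h7 := h.toRM.mn_near h5 hW
    rw [h2] at h7
    refine h7.mono fun q hq => ?_
    have h8 := Classical.epsilon_spec (h.toRM.hopf_rinow q.1 q.2)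
    exact hq _ h8.1 h8.2
  exact h6.smul (continuous_tt.continuousAt.inv₀ h3.1.ne')

theorem Bl.mv_geo (h : Bl g κ) {x : M} {v : E} (hv : nr g x v = κ) {t : ℝ} (ht : t ∈ Ioo 0 (π / 2))
    (s s' : ℝ) : mv g κ s s' (x, geo g x v t) = (geo g x v s, geo g x v (t + s')) := by
  obtain ⟨h1, h2, h3⟩ := h.dir_geo hv ht
  rw [mv, if_pos h1, h2, h3]

theorem Bl.Fp_geo (h : Bl g κ) {x : M} {v : E} (hv : nr g x v = κ) {t : ℝ} (ht : t ∈ Ioo 0 (π / 2))
    (s : ℝ) : Fp g κ (geo g x v s, geo g x v (t + s)) = FF g (geo g x v s) (vl g x v s) t := by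
  obtain ⟨h1, h2, h3⟩ := h.dir_geo ((nr_vl' h.toRM x v s).trans hv) ht
  rw [add_comm, ← geo_flow h.toRM, Fp, if_pos h1, h2, h3]

theorem Bl.Fp_pos (h : Bl g κ) (p : M × M) : 0 < Fp g κ p := by
  unfold Fp
  split_ifs with hp
  · exact h.FF_pos (h.dir_spec hp).1 (h.dir_spec hp).2.2
  · exact one_pos

theorem Bl.measurable_Fp [MeasurableSpace M] [BorelSpace M] (h : Bl g κ) :
    Measurable (Fp g κ) := by
  classical
  have h1 : ContinuousOn (fun p : M × M => FF g p.1 (dir g κ p) (tt κ p)) (Om M κ) := fun p hp =>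
    (continuousAt_FF h.toRM (h.ctV_dir hp) continuous_tt.continuousAt).continuousWithinAt
  exact h1.measurable_piecewise (continuousOn_const (c := (1 : ℝ))) isOpen_Om.measurableSet

theorem Bl.measurable_mv [MeasurableSpace M] [BorelSpace M] (h : Bl g κ) :
    Measurable fun z : (ℝ × ℝ) × M × M => mv g κ z.1.1 z.1.2 z.2 := by
  classical
  have h1 : ContinuousOn (fun z : (ℝ × ℝ) × M × M => (geo g z.2.1 (dir g κ z.2) z.1.1,
      geo g z.2.1 (dir g κ z.2) (tt κ z.2 + z.1.2))) (Prod.snd ⁻¹' Om M κ) := by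
    intro z hz
    have h2 : CtV (fun z : (ℝ × ℝ) × M × M => z.2.1) (fun z => dir g κ z.2) z :=
      (h.ctV_dir hz).comp continuousAt_snd
    exact ((h2.flow h.toRM continuousAt_fst.fst).base.prodMk (h2.flow h.toRM
      ((continuous_tt.comp continuous_snd).continuousAt.add continuousAt_fst.snd)).base).continuousWithinAt
  exact h1.measurable_piecewise continuous_snd.continuousOn
    (isOpen_Om.preimage continuous_snd).measurableSet

end Vale.Agent.P231
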