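import Vale.Agent.P231.FibA
import Vale.Agent.P231.CompA

/-! Coordinates for quadratic fibrations. -/

open scoped Topology RealInnerProductSpace Quaternion LinearAlgebra.Projectivization
open Set Filter Real Module

set_option linter.unusedSectionVars false

namespace Vale.Agent.P231

variable {n a : ℕ} {P : Eu n →L[ℝ] Eu n →L[ℝ] Eu n →L[ℝ] Eu n}

namespace CoordAux

theorem fib1 (h : Fib P a) {p x : Eu n} (hp : ‖p‖ = 1) (hx : P p p x = x) (z : Eu n) :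
    P x x z = ‖x‖ ^ 2 • P p p z := by
  have h1 := h.fib p x (by rw [hx, hp, one_pow, one_smul])
  rw [hp, one_pow, one_smul] at h1
  rw [h1, smul_apply]

theorem idem1 (h : Fib P a) {p : Eu n} (hp : ‖p‖ = 1) (z : Eu n) : P p p (P p p z) = P p p z := by
  rw [h.idem, hp, one_pow, one_smul]

theorem self1 (h : Fib P a) {p : Eu n} (hp : ‖p‖ = 1) : P p p p = p := by
  rw [h.self, hp, one_pow, one_smul]

theorem swap (h : Fib P a) {x y : Eu n} {c : ℝ} (q : Eu n → Eu n) (h0 : q 0 = 0) (hc : ‖x‖ = c)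
    (hx : ∀ z, P x x z = c ^ 2 • q z) (hxy : ⟪x, y⟫ = 0) (z : Eu n) :
    q (P x y z) + P x y (q z) = P x y z := by
  rcases eq_or_ne x 0 with rfl | hx0
  · simp [h0]
  have h1 := h.d_idem x y z
  rw [hx, hx, hxy, zero_smul, zero_add, map_smul, ← smul_add, hc] at h1
  exact smul_right_injective _ (pow_ne_zero 2 (hc ▸ norm_ne_zero_iff.2 hx0)) h1

/-- Coordinates adapted to a frame. -/
structure Fr (P : Eu n →L[ℝ] Eu n →L[ℝ] Eu n →L[ℝ] Eu n) {k : ℕ}
    (ι : Fin k → Eu a →ₗ[ℝ] Eu n) (κ : Fin k → Eu n →ₗ[ℝ] Eu a) : Prop where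
  adj : ∀ i x z, ⟪ι i x, z⟫ = ⟪x, κ i z⟫
  ki : ∀ i x, κ i (ι i x) = x
  kj : ∀ i j, i ≠ j → ∀ x, κ i (ι j x) = 0
  sum : ∀ z, ∑ i, ι i (κ i z) = z
  pp : ∀ i x z, P (ι i x) (ι i x) z = ‖x‖ ^ 2 • ι i (κ i z)

/-- The off diagonal blocks. -/
noncomputable def BB (P : Eu n →L[ℝ] Eu n →L[ℝ] Eu n →L[ℝ] Eu n) {k : ℕ}
    (ι : Fin k → Eu a →ₗ[ℝ] Eu n) (κ : Fin k → Eu n →ₗ[ℝ] Eu a) (i j : Fin k) (x : Eu a) :
    Eu a →ₗ[ℝ] Eu a →ₗ[ℝ] Eu a :=
  LinearMap.mk₂ ℝ (fun y z => (2 : ℝ) • κ j (P (ι i x) (ι j y) (ι i z)))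
    (fun _ _ _ => by simp only [map_add, add_apply, smul_add])
    (fun c _ _ => by simp only [map_smul, smul_apply, smul_comm c])
    (fun _ _ _ => by simp only [map_add, smul_add])
    (fun c _ _ => by simp only [map_smul, smul_comm c])

variable {k : ℕ} {ι : Fin k → Eu a →ₗ[ℝ] Eu n} {κ : Fin k → Eu n →ₗ[ℝ] Eu a}

theorem BB_apply (i j : Fin k) (x y z : Eu a) :
    BB P ι κ i j x y z = (2 : ℝ) • κ j (P (ι i x) (ι j y) (ι i z)) := rfl

theorem Fr.norm (F : Fr P ι κ) (i : Fin k) (x : Eu a) : ‖ι i x‖ = ‖x‖ := by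
  rw [← sq_eq_sq₀ (norm_nonneg _) (norm_nonneg _), ← real_inner_self_eq_norm_sq, F.adj, F.ki,
    real_inner_self_eq_norm_sq]

theorem Fr.into (h : Fib P a) (F : Fr P ι κ) {i j l m : Fin k} (hij : i ≠ j) (hl : l ≠ i)
    (hm : m ≠ i) (x y z : Eu a) : κ m (P (ι i x) (ι j y) (ι l z)) = 0 := by
  have h1 := swap h (fun z => ι i (κ i z)) (by simp) (F.norm i x) (F.pp i x) (y := ι j y)
    (by rw [F.adj, F.kj i j hij, inner_zero_right]) (ι l z)
  rw [F.kj i l hl.symm, map_zero, map_zero, add_zero] at h1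
  rw [← h1, F.kj m i hm]

theorem Fr.van (h : Fib P a) (F : Fr P ι κ) {l l' i j : Fin k} (hl : l ≠ l')
    (h1 : (l, l') ≠ (i, j)) (h2 : (l, l') ≠ (j, i)) (x y t : Eu a) :
    κ j (P (ι l x) (ι l' y) (ι i t)) = 0 := by
  by_cases hi : i = l
  · subst hi
    rw [h.symm]
    exact F.into h hl.symm hl (fun e => h1 (by rw [e])) _ _ _
  · by_cases hj : j = l
    · subst hj
      rw [h.symm]
      exact F.into h hl.symm (fun e => h2 (by rw [e])) hl _ _ _
    · exact F.into h hl hi hj _ _ _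

theorem Fr.expand (F : Fr P ι κ) (w : Eu n) (j : Fin k) (s : Eu n) :
    κ j (P w w s) = ∑ p : Fin k × Fin k, κ j (P (ι p.1 (κ p.1 w)) (ι p.2 (κ p.2 w)) s) := by
  conv_lhs => rw [← F.sum w]
  simp only [map_sum, _root_.sum_apply, Fintype.sum_prod_type]
  exact Finset.sum_comm

theorem Fr.off (h : Fib P a) (F : Fr P ι κ) (w : Eu n) {i j : Fin k} (hij : i ≠ j) (t : Eu a) :
    κ j (P w w (ι i t)) = BB P ι κ i j (κ i w) (κ j w) t := by
  rw [F.expand, Finset.sum_eq_add (i, j) (j, i) (fun e => hij (congrArg Prod.fst e)) ?_ (by simp)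
    (by simp), BB_apply, two_smul, h.symm (ι j _)]
  rintro ⟨l, l'⟩ - ⟨h1, h2⟩
  by_cases hl : l = l'
  · subst hl
    rw [F.pp, map_smul]
    by_cases hi : l = i
    · rw [F.kj j l (hi ▸ hij.symm), smul_zero]
    · rw [F.kj l i hi, map_zero, map_zero, smul_zero]
  · exact F.van h hl h1 h2 _ _ _

theorem Fr.diag (h : Fib P a) (F : Fr P ι κ) (w : Eu n) (i : Fin k) (t : Eu a) :
    κ i (P w w (ι i t)) = ‖κ i w‖ ^ 2 • t := by
  rw [F.expand, Finset.sum_eq_single (i, i) ?_ (by simp), F.pp, map_smul, F.ki, F.ki]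
  rintro ⟨l, l'⟩ - h1
  by_cases hl : l = l'
  · subst hl
    rw [F.pp, map_smul, F.kj i l fun e => h1 (by rw [e]), smul_zero]
  · exact F.van h hl h1 h1 _ _ _

theorem Fr.star (h : Fib P a) (F : Fr P ι κ) {w : Eu n} {i : Fin k} (hw : ‖κ i w‖ = 1) (z : Eu a)
    (s : Eu n) : P (P w w (ι i z)) (P w w (ι i z)) s = ‖z‖ ^ 2 • P w w s := by
  have h0 : w ≠ 0 := fun e => by simp [e] at hw
  have h1 := congrArg (fun T : Eu n →L[ℝ] Eu n => T s) (h.fib w _ (h.idem w (ι i z)))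
  have h2 : ‖P w w (ι i z)‖ ^ 2 = ‖w‖ ^ 2 * ‖z‖ ^ 2 := by
    rw [← real_inner_self_eq_norm_sq, h.adj, h.idem, inner_smul_right, F.adj, F.diag h, hw, one_pow,
      one_smul, real_inner_self_eq_norm_sq]
  simp only [smul_apply, h2, mul_smul] at h1
  exact smul_right_injective _ (pow_ne_zero 2 (norm_ne_zero_iff.2 h0)) h1

theorem Fr.self (h : Fib P a) (F : Fr P ι κ) {i j : Fin k} (hij : i ≠ j) (x y : Eu a) :
    BB P ι κ i j x y x = ‖x‖ ^ 2 • y := by
  have h1 := congrArg (κ j) (h.d_self (ι i x) (ι j y))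
  rw [map_add, map_add, F.pp] at h1
  simp only [map_smul, F.kj j i hij.symm, smul_zero, add_zero, zero_add, F.ki, F.norm] at h1
  exact h1

theorem Fr.badj (h : Fib P a) (F : Fr P ι κ) (i j : Fin k) (x y t s : Eu a) :
    ⟪BB P ι κ i j x y t, s⟫ = ⟪t, BB P ι κ j i y x s⟫ := by
  rw [BB_apply, BB_apply, inner_smul_right, real_inner_comm, inner_smul_right, ← F.adj, ← F.adj,
    ← h.adj, h.symm, real_inner_comm]

theorem Fr.comp (h : Fib P a) (F : Fr P ι κ) {i j : Fin k} (hij : i ≠ j) {e : Eu a}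
    (he : ‖e‖ = 1) (h1 : ∀ z, BB P ι κ i j e e z = z) : Comp (BB P ι κ i j e) e := by
  refine ⟨he, h1, fun y => by rw [F.self h hij, he, one_pow, one_smul], fun y z => ?_⟩
  have k1 : κ i (ι i e + ι j y) = e := by rw [map_add, F.ki, F.kj i j hij, add_zero]
  have k2 : κ j (ι i e + ι j y) = y := by rw [map_add, F.ki, F.kj j i hij.symm, zero_add]
  have k3 := congrArg (fun s => ‖κ j s‖) (F.star h (k1.symm ▸ he) z (ι j e))
  simp only [map_smul, F.diag h, F.off h _ hij, k1, k2, norm_smul, he, mul_one, norm_pow,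
    norm_norm] at k3
  rw [← sq_eq_sq₀ (norm_nonneg _) (by positivity), k3]
  ring

theorem Fr.gen (h : Fib P a) (F : Fr P ι κ) {i j : Fin k} (hij : i ≠ j) {e : Eu a}
    {m : Eu a →ₗ[ℝ] Eu a →ₗ[ℝ] Eu a} (hm : Comp m e) (h1 : ∀ v z, BB P ι κ i j e v z = m v z)
    (x y t : Eu a) : BB P ι κ i j x y t = m (m y (cj e x)) t := by
  rcases eq_or_ne x 0 with rfl | hx
  · simp [BB_apply, cj]
  obtain ⟨μ, hμ⟩ : ∃ μ, μ = m y (cj e x) := ⟨_, rfl⟩
  have k1 : κ i (ι i e + ι j μ) = e := by rw [map_add, F.ki, F.kj i j hij, add_zero]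
  have k2 : κ j (ι i e + ι j μ) = μ := by rw [map_add, F.ki, F.kj j i hij.symm, zero_add]
  have k3 := congrArg (κ j) (F.star h (k1.symm ▸ hm.norm_e) x (ι i t))
  simp only [map_smul, F.diag h, F.off h _ hij, k1, k2, h1, hm.norm_e, one_pow, one_smul] at k3
  rw [hμ, hm.alt_right, map_smul, LinearMap.smul_apply] at k3
  exact smul_right_injective _ (pow_ne_zero 2 (norm_ne_zero_iff.2 hx)) k3

theorem Fr.three (h : Fib P a) (F : Fr P ι κ) {o i j : Fin k} (hi : o ≠ i) (hj : o ≠ j)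
    (hij : i ≠ j) {e : Eu a} (hm : Comp (BB P ι κ o i e) e) (u v z : Eu a) :
    BB P ι κ i j u v (BB P ι κ o i e u z) = ‖u‖ ^ 2 • BB P ι κ o j e v z := by
  rcases eq_or_ne z 0 with rfl | hz
  · simp
  have k0 : κ o (ι o e + ι i u + ι j v) = e := by
    rw [map_add, map_add, F.ki, F.kj o i hi, F.kj o j hj, add_zero, add_zero]
  have k1 : κ i (ι o e + ι i u + ι j v) = u := by
    rw [map_add, map_add, F.ki, F.kj i o hi.symm, F.kj i j hij, add_zero, zero_add]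
  have k2 : κ j (ι o e + ι i u + ι j v) = v := by
    rw [map_add, map_add, F.ki, F.kj j o hj.symm, F.kj j i hij.symm, add_zero, zero_add]
  have k3 := congrArg (κ j) (F.star h (k0.symm ▸ hm.norm_e) z (ι i (BB P ι κ o i e u z)))
  simp only [map_smul, F.off h _ hij, F.off h _ hi, F.off h _ hj, k0, k1, k2, F.self h hij,
    hm.norm_mul] at k3
  rw [mul_comm, mul_pow, mul_smul] at k3
  exact (smul_right_injective _ (pow_ne_zero 2 (norm_ne_zero_iff.2 hz)) k3).symm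

theorem Fr.main (h : Fib P a) (F : Fr P ι κ) {o r : Fin k} (hr : o ≠ r) {e : Eu a} (he : ‖e‖ = 1)
    (h1 : ∀ j, o ≠ j → ∀ z, BB P ι κ o j e e z = z) : ∃ m : Eu a →ₗ[ℝ] Eu a →ₗ[ℝ] Eu a,
      Comp m e ∧ (∀ i j, i ≠ j → ∀ x y t, BB P ι κ i j x y t = m (m y (cj e x)) t) ∧
      ∀ j, o ≠ j → r ≠ j → ∀ x y z, m (m x y) z = m x (m y z) := by
  have hc := fun j (hj : o ≠ j) => F.comp h hj he (h1 j hj)
  have h2 : ∀ i j, o ≠ i → o ≠ j → i ≠ j → ∀ v z, BB P ι κ i j e v z = BB P ι κ o j e v z := by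
    intro i j hi hj hij v z
    have := F.three h hi hj hij (hc i hi) e v z
    rwa [h1 i hi, he, one_pow, one_smul] at this
  have h3 : ∀ j, o ≠ j → ∀ v z, BB P ι κ o j e v z = BB P ι κ o r e v z := by
    intro j hj v z
    rcases eq_or_ne j r with rfl | hjr
    · rfl
    refine ext_inner_right ℝ fun s => ?_
    have k := F.badj h j r (cj e v) e z s
    rw [F.gen h hjr (hc r hr) (h2 j r hj hr hjr), (hc r hr).one_mul, (hc r hr).cj_cj,
      h2 r j hr hj hjr.symm, ← (hc j hj).adj_left] at k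
    exact k.symm
  have h4 : ∀ i j, i ≠ j → o ≠ j → ∀ x y t, BB P ι κ i j x y t =
      BB P ι κ o r e (BB P ι κ o r e y (cj e x)) t := by
    intro i j hij hj
    refine F.gen h hij (hc r hr) fun v z => ?_
    rcases eq_or_ne o i with rfl | hi
    · exact h3 j hj v z
    · rw [h2 i j hi hj hij, h3 j hj]
  refine ⟨_, hc r hr, fun i j hij x y t => ?_, fun j hj hrj x y z => ?_⟩
  · rcases eq_or_ne o j with rfl | hj
    · refine ext_inner_right ℝ fun s => ?_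
      rw [F.badj h, h4 o i hij.symm hij.symm, (hc r hr).adj_left, (hc r hr).cj_mul, (hc r hr).cj_cj]
    · exact h4 i j hij hj x y t
  · rcases eq_or_ne y 0 with rfl | hy
    · simp
    have k := F.three h hr hj hrj (hc r hr) (cj e y) x (BB P ι κ o r e y z)
    rw [h4 r j hrj hj, h3 j hj, (hc r hr).alt_left, (hc r hr).cj_cj, (hc r hr).norm_cj,
      map_smul] at k
    exact smul_right_injective _ (pow_ne_zero 2 (norm_ne_zero_iff.2 hy)) k

theorem exists_J (h : Fib P a) {p : Eu n} (hp : ‖p‖ = 1) :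
    ∃ (J : Eu a →ₗ[ℝ] Eu n) (K : Eu n →ₗ[ℝ] Eu a), (∀ x z, ⟪J x, z⟫ = ⟪x, K z⟫) ∧
      (∀ x, K (J x) = x) ∧ ∀ z, J (K z) = P p p z := by
  obtain ⟨T, hT⟩ : ∃ T : Eu n →ₗ[ℝ] Eu n, T = (P p p : Eu n →ₗ[ℝ] Eu n) := ⟨_, rfl⟩
  have hT' : ∀ z, T z = P p p z := fun z => by rw [hT]; rfl
  have hr : finrank ℝ (LinearMap.range T) = a := hT ▸ h.rank p hp
  obtain ⟨φ⟩ : Nonempty (LinearMap.range T ≃ₗᵢ[ℝ] Eu a) :=
    ⟨((stdOrthonormalBasis ℝ (LinearMap.range T)).reindex (finCongr hr)).repr⟩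
  have h1 : ∀ y : LinearMap.range T, T y = y := by
    rintro ⟨_, z, rfl⟩
    show T (T z) = T z
    rw [hT', hT', idem1 h hp]
  refine ⟨(LinearMap.range T).subtype ∘ₗ φ.symm.toLinearEquiv.toLinearMap,
    φ.toLinearEquiv.toLinearMap ∘ₗ T.rangeRestrict, fun x z => ?_, fun x => ?_, fun z => ?_⟩
  · show ⟪(φ.symm x : Eu n), z⟫ = ⟪x, φ (T.rangeRestrict z)⟫
    rw [← h1, hT', h.adj, ← hT', ← φ.symm.inner_map_map, φ.symm_apply_apply]
    rfl
  · show φ (T.rangeRestrict (φ.symm x : Eu n)) = x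
    rw [show T.rangeRestrict (φ.symm x : Eu n) = φ.symm x from Subtype.ext (h1 _),
      φ.apply_symm_apply]
  · show (φ.symm (φ (T.rangeRestrict z)) : Eu n) = _
    rw [φ.symm_apply_apply, ← hT']
    rfl

theorem exists_Fr (h : Fib P a) {f : Fin k → Eu n} (h1 : ∀ i, ‖f i‖ = 1)
    (h2 : ∀ i j, i ≠ j → ∀ z, P (f i) (f i) (P (f j) (f j) z) = 0)
    (h3 : ∀ z, ∑ i, P (f i) (f i) z = z) (o : Fin k) :
    ∃ (ι : Fin k → Eu a →ₗ[ℝ] Eu n) (κ : Fin k → Eu n →ₗ[ℝ] Eu a) (e : Eu a), Fr P ι κ ∧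
      ‖e‖ = 1 ∧ ∀ j, o ≠ j → ∀ z, BB P ι κ o j e e z = z := by
  obtain ⟨J, K, a1, a2, a3⟩ := exists_J h (h1 o)
  obtain ⟨T, hT0, hT⟩ : ∃ T : Fin k → Eu n →ₗ[ℝ] Eu n, (∀ z, T o z = z) ∧
      ∀ i, o ≠ i → ∀ z, T i z = (2 : ℝ) • P (f o) (f i) z :=
    ⟨fun i => if o = i then LinearMap.id else (2 : ℝ) • (P (f o) (f i) : Eu n →ₗ[ℝ] Eu n),
      fun z => by simp, fun i hi z => by simp [hi]⟩
  have hJ : ∀ x, P (f o) (f o) (J x) = J x := fun x => by rw [← a3, a2]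
  have hp : ∀ i, o ≠ i → P (f o) (f o) (f i) = 0 := fun i hi => by
    have := h2 o i hi (f i)
    rwa [self1 h (h1 i)] at this
  have hi0 : ∀ i, o ≠ i → ⟪f o, f i⟫ = 0 := fun i hi => by
    rw [← self1 h (h1 o), h.adj, hp i hi, inner_zero_right]
  have hTT : ∀ i, o ≠ i → ∀ z, T i (T i z) = P (f o) (f o) z + P (f i) (f i) z := by
    intro i hi z
    have k := h.d2_idem (f o) (f i) z
    rw [h2 o i hi, h2 i o hi.symm, hi0 i hi, h1, h1, one_pow, one_smul, one_smul, mul_zero,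
      zero_smul, add_zero, add_zero, zero_add, add_comm] at k
    rw [hT i hi, hT i hi, map_smul, smul_smul, ← k]
    norm_num
  have b1 : ∀ i x z, ⟪T i (J x), z⟫ = ⟪x, K (T i z)⟫ := fun i x z => by
    rw [← a1]
    rcases eq_or_ne o i with rfl | hi
    · rw [hT0, hT0]
    · rw [hT i hi, hT i hi, real_inner_smul_left, real_inner_smul_right, h.adj]
  have b2 : ∀ i x, K (T i (T i (J x))) = x := fun i x => by
    rcases eq_or_ne o i with rfl | hi
    · rw [hT0, hT0, a2]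
    · rw [hTT i hi, ← hJ, h2 i o hi.symm, add_zero, hJ, hJ, a2]
  have b3 : ∀ i z, T i (J (K (T i z))) = P (f i) (f i) z := fun i z => by
    rw [a3]
    rcases eq_or_ne o i with rfl | hi
    · rw [hT0, hT0]
    · have k := swap h (P (f o) (f o)) (map_zero _) (h1 o) (fun z => by rw [one_pow, one_smul])
        (hi0 i hi) z
      have k2 : P (f o) (f o) (T i z) = T i z - T i (P (f o) (f o) z) := by
        rw [hT i hi, hT i hi, map_smul, ← smul_sub, eq_sub_of_add_eq k]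
      rw [k2, map_sub, hTT i hi, hTT i hi, idem1 h (h1 o), h2 i o hi.symm, add_zero,
        add_sub_cancel_left]
  have b4 : ∀ i x, P (f i) (f i) (T i (J x)) = T i (J x) := fun i x => by rw [← b3, b2]
  have b5 : ∀ i, T i (J (K (f o))) = f i := fun i => by
    rw [a3, self1 h (h1 o)]
    rcases eq_or_ne o i with rfl | hi
    · rw [hT0]
    · have k := h.d_self (f o) (f i)
      rw [hp i hi, hi0 i hi, h1, one_pow, one_smul, mul_zero, zero_smul, add_zero, zero_add] at k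
      rw [hT i hi, k]
  have b6 : ∀ i x, ‖T i (J x)‖ = ‖x‖ := fun i x => by
    rw [← sq_eq_sq₀ (norm_nonneg _) (norm_nonneg _), ← real_inner_self_eq_norm_sq, b1, b2,
      real_inner_self_eq_norm_sq]
  refine ⟨fun i => T i ∘ₗ J, fun i => K ∘ₗ T i, K (f o), ⟨b1, b2, fun i j hij x => ?_,
    fun z => ?_, fun i x z => ?_⟩, by rw [← b6 o, b5, h1], fun j hj z => ?_⟩
  · show K (T i (T j (J x))) = 0
    rw [← b2 i (K (T i (T j (J x)))), b3, ← b4, h2 i j hij, map_zero, map_zero]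
  · exact (Finset.sum_congr rfl fun i _ => b3 i z).trans (h3 z)
  · show P (T i (J x)) (T i (J x)) z = ‖x‖ ^ 2 • T i (J (K (T i z)))
    rw [fib1 h (h1 i) (b4 i x), b6, b3]
  · show (2 : ℝ) • K (T j (P (T o (J (K (f o)))) (T j (J (K (f o)))) (T o (J z)))) = z
    rw [b5, b5, hT0, ← map_smul, ← map_smul, ← hT j hj, b2]

end CoordAux

open CoordAux

/-- Take a maximal family of unit vectors with `P (f i) (f i) (f j) = 0` for `i ≠ j` (induction on the
dimension, or maximal cardinality of an orthonormal family). If `y` is killed by all `P (f i) (f i)` it could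
be added (`perp`). -/
theorem Fib.exists_frame (h : Fib P a) : ∃ (k : ℕ) (f : Fin k → Eu n), (∀ i, ‖f i‖ = 1) ∧
    (∀ i j, i ≠ j → ∀ z, P (f i) (f i) (P (f j) (f j) z) = 0) ∧
      ∀ z, ∑ i, P (f i) (f i) z = z := by
  obtain ⟨S, hS⟩ : ∃ S : Set ℕ, S = {k | ∃ f : Fin k → Eu n, (∀ i, ‖f i‖ = 1) ∧
      ∀ i j, i ≠ j → ∀ z, P (f i) (f i) (P (f j) (f j) z) = 0} := ⟨_, rfl⟩
  have h0 : S.Nonempty := ⟨0, by rw [hS]; exact ⟨Fin.elim0, fun i => i.elim0, fun i => i.elim0⟩⟩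
  have hb : BddAbove S := ⟨finrank ℝ (Eu n), fun k hk => by
    rw [hS] at hk
    obtain ⟨f, h1, h2⟩ := hk
    have : Orthonormal ℝ f := ⟨h1, fun i j hij => by
      show ⟪f i, f j⟫ = 0
      rw [← self1 h (h1 i), ← self1 h (h1 j), h.adj, h2 i j hij, inner_zero_right]⟩
    simpa using this.linearIndependent.fintype_card_le_finrank⟩
  have hm := Nat.sSup_mem h0 hb
  have hn : sSup S + 1 ∉ S := fun hk => by
    have := le_csSup hb hk
    omega
  generalize sSup S = k at hm hn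
  rw [hS] at hm hn
  obtain ⟨f, h1, h2⟩ := hm
  refine ⟨k, f, h1, h2, fun z => ?_⟩
  by_contra hz
  obtain ⟨y, hy⟩ : ∃ y, y = z - ∑ i, P (f i) (f i) z := ⟨_, rfl⟩
  have hy0 : y ≠ 0 := by
    rw [hy]
    exact sub_ne_zero.2 (Ne.symm hz)
  have k1 : ∀ j, P (f j) (f j) (‖y‖⁻¹ • y) = 0 := fun j => by
    rw [map_smul, hy, map_sub, map_sum, Finset.sum_eq_single j (fun i _ hi => h2 j i hi.symm z)
      (by simp), idem1 h (h1 j), sub_self, smul_zero]
  have k2 : ‖‖y‖⁻¹ • y‖ = 1 := norm_smul_inv_norm hy0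
  generalize ‖y‖⁻¹ • y = u at k1 k2
  have k3 : ∀ j s, P u u (P (f j) (f j) s) = 0 := fun j s => by
    rcases eq_or_ne (P (f j) (f j) s) 0 with e | e
    · rw [e, map_zero]
    · exact h.perp e (by rw [fib1 h (h1 j) (idem1 h (h1 j) s), k1, smul_zero])
  refine hn ⟨Fin.cons u f, fun i => Fin.cases k2 h1 i, fun i j => ?_⟩
  refine Fin.cases ?_ (fun i => ?_) i <;> refine Fin.cases ?_ (fun j => ?_) j
  · exact fun e => (e rfl).elim
  · exact fun _ s => k3 j s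
  · refine fun _ s => ext_inner_right ℝ fun t => ?_
    show ⟪P (f i) (f i) (P u u s), t⟫ = _
    rw [h.adj, h.adj, k3, inner_zero_right, inner_zero_left]
  · exact fun e => h2 i j fun e' => e (by rw [e'])

/-- `N i` = range of `P (f i) (f i)`. For `x ∈ N i`, `y ∈ N j`, `i ≠ j`, `A x y = 2 P x y` maps `N i → N j`,
`N j → N i`, kills the other `N l`, `A x y x = ‖x‖² y`, `‖A x y z‖ = ‖x‖ ‖y‖ ‖z‖` on `N i` (`d_self`, `d_idem`,
`d2_idem`). Identify `N 0` with `Eu a`, `N i` with `N 0` by `A (f 0) (f i)`; the product is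
`m y z = (A (f 0) (f 1))⁻¹ (A (f 0) (ι₁ y) z)`. The fibre of `f 0 + ι₁ μ` is the graph of `m μ`; `(x, y)` lies in
it for `μ = m y (cj x) / ‖x‖²` (`alt_right`), so `fib` computes `A x (ι₁ y)`. For three summands compare the
fibres of `f 0 + f i + ι_j μ` and of its element `z + ι_i z + ι_j (μ z)`: all products agree and are
associative. -/
theorem Fib.coord (h : Fib P a) (hn : 1 ≤ n) : (∀ x z, P x x z = ‖x‖ ^ 2 • z) ∨
    ∃ (k : ℕ) (m : Eu a →ₗ[ℝ] Eu a →ₗ[ℝ] Eu a) (e : Eu a) (Ψ : Eu n ≃ₗ[ℝ] (Fin k → Eu a)), 2 ≤ k ∧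
      Comp m e ∧ (3 ≤ k → ∀ x y z, m (m x y) z = m x (m y z)) ∧
      (∀ x y, ⟪x, y⟫ = ∑ i, ⟪Ψ x i, Ψ y i⟫) ∧
      ∀ x y j, Ψ (P x x y) j = ∑ i, m (m (Ψ x j) (cj e (Ψ x i))) (Ψ y i) := by
  obtain ⟨k, f, h1, h2, h3⟩ := h.exists_frame
  rcases k with _ | _ | k
  · have := h3 (EuclideanSpace.single ⟨0, hn⟩ 1)
    have k := congrArg norm this
    simp at k
  · refine Or.inl fun x z => ?_
    have h4 : ∀ z, P (f 0) (f 0) z = z := fun z => (Fin.sum_univ_one _).symm.trans (h3 z)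
    rw [fib1 h (h1 0) (h4 x), h4]
  obtain ⟨ι, κ, e, F, he, hB⟩ := exists_Fr h h1 h2 h3 0
  obtain ⟨m, hm, k1, k2⟩ := F.main h (o := 0) (r := 1) Fin.zero_ne_one he hB
  refine Or.inr ⟨_, m, e, LinearEquiv.ofLinearMap (LinearMap.pi κ) (∑ i, ι i ∘ₗ LinearMap.proj i)
    (LinearMap.ext fun w => funext fun j => ?_) (LinearMap.ext fun z => ?_), by omega, hm,
    fun hk => k2 ⟨2, by omega⟩ (by simp [Fin.ext_iff]) (by simp [Fin.ext_iff]), fun x y => ?_,
    fun x y j => ?_⟩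
  · simp only [LinearMap.comp_apply, LinearMap.sum_apply, LinearMap.pi_apply, map_sum,
      LinearMap.proj_apply, LinearMap.id_apply]
    rw [Finset.sum_eq_single j (fun i _ hi => F.kj j i hi.symm _) (by simp), F.ki]
  · simp only [LinearMap.comp_apply, LinearMap.sum_apply, LinearMap.pi_apply,
      LinearMap.proj_apply, LinearMap.id_apply]
    exact F.sum z
  · show _ = ∑ i, ⟪κ i x, κ i y⟫
    conv_lhs => rw [← F.sum x, sum_inner]
    exact Finset.sum_congr rfl fun i _ => F.adj _ _ _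
  · show κ j (P x x y) = ∑ i, m (m (κ j x) (cj e (κ i x))) (κ i y)
    conv_lhs => rw [← F.sum y, map_sum, map_sum]
    refine Finset.sum_congr rfl fun i _ => ?_
    rcases eq_or_ne i j with rfl | hij
    · rw [F.diag h, hm.mul_cj, map_smul, LinearMap.smul_apply, hm.one_mul]
    · rw [F.off h _ hij, k1 i j hij]

end Vale.Agent.P231
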