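import Vale.Agent.P231.SympA

/-! Existence of a system of Jacobi fields. -/

open scoped Manifold ContDiff Topology ENNReal RealInnerProductSpace
open Set Filter Real Module

set_option linter.unusedSectionVars false

namespace Vale.Agent.P231

open Vale.Agent.P255 Vale.Agent.P234

variable {E : Type} [NormedAddCommGroup E] [NormedSpace ℝ E] [FiniteDimensional ℝ E]
  {M : Type} [MetricSpace M] [CompactSpace M] [ChartedSpace E M] [IsManifold 𝓘(ℝ, E) ∞ M]
  {g : M → E →L[ℝ] E →L[ℝ] ℝ} {κ : ℝ}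

namespace SysAux

variable {A : Type} [NormedAddCommGroup A] [NormedSpace ℝ A] {X : A → M} {V : A → E} {a : A}

theorem smG (h : RM g) (hV : SmV X V a) (t : ℝ) :
    SmP E (fun p : A × ℝ => geo g (X p.1) (V p.1) p.2) (a, t) :=
  (SmV.flow h (T := fun p : A × ℝ => p.2) (a := (a, t))
    (SmV.comp (φ := fun p : A × ℝ => p.1) (b := (a, t)) hV contDiffAt_fst) contDiffAt_snd).1

theorem evG (h : RM g) (hV : ∀ᶠ c in 𝓝 a, SmV X V c) (t : ℝ) :
    ∀ᶠ p in 𝓝 (a, t), SmP E (fun p : A × ℝ => geo g (X p.1) (V p.1) p.2) p := by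
  filter_upwards [(continuous_fst.tendsto (a, t)).eventually hV] with p hp
  exact smG h hp p.2

theorem dG (h : RM g) (hV : SmV X V a) (t : ℝ) (u : A) :
    dM E (fun c => geo g (X c) (V c) t) a u =
      dM E (fun p : A × ℝ => geo g (X p.1) (V p.1) p.2) (a, t) (u, 0) := by
  have h1 : HasFDerivAt (fun c : A => (c, t)) (ContinuousLinearMap.inl ℝ A ℝ) a :=
    hasFDerivAt_prodMk_left a t
  have h2 := dM_comp (φ := fun c : A => (c, t)) (b := a) (smG h hV t) h1.differentiableAt u
  rw [h1.fderiv] at h2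
  exact h2

theorem smooth (h : RM g) (hV : ∀ᶠ c in 𝓝 a, SmV X V c) (u : A) (t : ℝ) :
    SmV (geo g (X a) (V a)) (fun t => dM E (fun c => geo g (X c) (V c) t) a u) t := by
  have h1 := (SmP.eventually (evG h hV t) (u, 0)).self_of_nhds
  have h2 := SmV.comp (φ := fun τ : ℝ => (a, τ)) (b := t) h1 (contDiffAt_const.prodMk contDiffAt_id)
  exact h2.congr (Eventually.of_forall fun _ => rfl)
    (Eventually.of_forall fun τ => dG h hV.self_of_nhds τ u)

theorem two_le : (2 : WithTop ℕ∞) ≤ ((⊤ : ℕ∞) : WithTop ℕ∞) :=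
  WithTop.coe_le_coe.2 (le_top (a := (2 : ℕ∞)))

theorem swap {f : A × ℝ → E} {t : ℝ} (hf : ContDiffAt ℝ ∞ f (a, t)) (u : A) :
    HasDerivAt (fun τ => fderiv ℝ f (a, τ) (u, 0))
      (fderiv ℝ (fun c => fderiv ℝ f (c, t) (0, 1)) a u) t := by
  have h1 : DifferentiableAt ℝ (fderiv ℝ f) (a, t) :=
    (hf.fderiv_right (m := 1) (by rw [one_add_one_eq_two]; exact two_le)).differentiableAt one_ne_zero
  have hs : IsSymmSndFDerivAt ℝ f (a, t) := hf.isSymmSndFDerivAt (by
    simp only [minSmoothness_of_isRCLikeNormedField]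
    exact two_le)
  have h2 : HasDerivAt (fun τ : ℝ => (a, τ)) ((0 : A), (1 : ℝ)) t :=
    (hasDerivAt_const t a).prodMk (hasDerivAt_id t)
  have h3 := (h1.hasFDerivAt.comp_hasDerivAt t h2).clm_apply (hasDerivAt_const t ((u, 0) : A × ℝ))
  have h4 : HasFDerivAt (fun c : A => (c, t)) (ContinuousLinearMap.inl ℝ A ℝ) a :=
    hasFDerivAt_prodMk_left a t
  have h5 := (h1.hasFDerivAt.comp a h4).clm_apply (hasFDerivAt_const ((0, 1) : A × ℝ) a)
  have h6 : fderiv ℝ (fun c => fderiv ℝ f (c, t) (0, 1)) a u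
      = fderiv ℝ (fderiv ℝ f) (a, t) (u, 0) (0, 1) := by
    rw [show (fun c => fderiv ℝ f (c, t) (0, 1)) =
      fun c => (fderiv ℝ f ∘ fun c : A => (c, t)) c (0, 1) from rfl, h5.fderiv]
    simp
  rw [h6, hs.eq]
  simpa using h3

theorem deriv_J (h : RM g) (hV : ∀ᶠ c in 𝓝 a, SmV X V c) (u : A) (t : ℝ) :
    HasDerivAt (fun τ => dC (chartAt E (geo g (X a) (V a) t)) (geo g (X a) (V a) τ)
        (dM E (fun c => geo g (X c) (V c) τ) a u))
      (dv (fun c => geo g (X c) (V c) t) (fun c => vl g (X c) (V c) t) a u) t := by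
  have he := chart_mem_atlas E (geo g (X a) (V a) t)
  have hm := mem_chart_source E (geo g (X a) (V a) t)
  unfold dv
  generalize chartAt E (geo g (X a) (V a) t) = e at he hm ⊢
  have hG := smG h hV.self_of_nhds t
  have hsrc : ∀ᶠ p : A × ℝ in 𝓝 (a, t), geo g (X p.1) (V p.1) p.2 ∈ e.source :=
    hG.continuousAt.eventually (e.open_source.mem_nhds hm)
  have h1 := swap (hG.chart he hm) u
  have h2 : (fun c => dC e (geo g (X c) (V c) t) (vl g (X c) (V c) t)) =ᶠ[𝓝 a]
      fun c => fderiv ℝ (fun p : A × ℝ => e (geo g (X p.1) (V p.1) p.2)) (c, t) (0, 1) := by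
    have hc : Tendsto (fun c : A => (c, t)) (𝓝 a) (𝓝 (a, t)) :=
      (continuous_id.prodMk continuous_const).tendsto a
    filter_upwards [hV, hc.eventually hsrc] with c hc1 hc2
    have h3 := smG h hc1 t
    have h4 : HasDerivAt (fun τ : ℝ => (c, τ)) ((0 : A), (1 : ℝ)) t :=
      (hasDerivAt_const t c).prodMk (hasDerivAt_id t)
    have h5 := ((h3.chart he hc2).differentiableAt (by simp)).hasFDerivAt.comp_hasDerivAt t h4
    have h6 : ContinuousAt (geo g (X c) (V c)) t :=
      ContinuousAt.comp (f := fun τ : ℝ => (c, τ)) h3.continuousAt h4.continuousAt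
    exact (dC_vel he hc2 h6 h5.differentiableAt).trans h5.deriv
  rw [h2.fderiv_eq]
  refine h1.congr_of_eventuallyEq ?_
  have hc : Tendsto (fun τ : ℝ => (a, τ)) (𝓝 t) (𝓝 (a, t)) :=
    (continuous_const.prodMk continuous_id).tendsto t
  filter_upwards [hc.eventually hsrc] with τ hτ
  rw [dG h hV.self_of_nhds]
  exact (smG h hV.self_of_nhds τ).dC_dM he hτ (u, 0)

theorem slope (h : RM g) (hV : ∀ᶠ c in 𝓝 a, SmV X V c) (u : A) (t₀ : ℝ)
    (h0 : dM E (fun c => geo g (X c) (V c) t₀) a u = 0) :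
    CtV (geo g (X a) (V a)) (fun t => if t = t₀ then
      dv (fun c => geo g (X c) (V c) t₀) (fun c => vl g (X c) (V c) t₀) a u else
      (t - t₀)⁻¹ • dM E (fun c => geo g (X c) (V c) t) a u) t₀ := by
  classical
  refine (ctV_iff (chart_mem_atlas E _) (mem_chart_source E _)).2 ⟨(smooth h hV u t₀).1.continuousAt, ?_⟩
  have h1 := continuousAt_update_same.2 (hasDerivAt_iff_tendsto_slope.1 (deriv_J h hV u t₀))
  refine h1.congr (Eventually.of_forall fun t => ?_)
  by_cases ht : t = t₀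
  · subst ht
    simp only [Function.update_self, if_true, dC_chartAt]
  · simp only [Function.update_of_ne ht, if_neg ht, slope_def_module, h0, map_zero, sub_zero,
      map_smul]

theorem shift (h : RM g) (y : M) (w : E) (s t : ℝ) :
    geo g (geo g y w s) (vl g y w s) (t - s) = geo g y w t := by
  have h1 := congrFun (h.geo_aff y w s 1) (t - s)
  simpa using h1

end SysAux

/-- `e = chartAt E x`, `X b = e.symm (e x + b.1)`, `V b = dS e (e x + b.1) (v + b.2)` (`smV_symm`),
`J t = dM E (fun b => geo g (X b) (V b) t) 0`, `D t = dv ...`, `B` from `om_eq` at time `0`,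
`ε = fderiv (g V V / 2) 0`. `smooth`, `slope`: in a chart `e'` near `geo g x v t₀` put
`f (b, t) = e' (geo g (X b) (V b) t)`; `dC e' (J t u) = fderiv f (0, t) (u, 0)`, its time derivative is the
`b`-derivative of `dC e' (vl ...)` (symmetry of second derivatives). -/
theorem exists_JS (h : RM g) (x : M) (v : E) : ∃ J D B ε, JS g x v J D B ε := by
  have he := chart_mem_atlas E x
  have hm := mem_chart_source E x
  obtain ⟨X, V, hV, hX0, hV0, hdX, hdV, hen⟩ : ∃ (X : E × E → M) (V : E × E → E),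
      (∀ᶠ c in 𝓝 0, SmV X V c) ∧ X 0 = x ∧ V 0 = v ∧ (∀ u, dM E X 0 u = u.1) ∧
      (∀ u, dv X V 0 u = u.2) ∧ ∀ η : E, X (0, η) = x ∧ V (0, η) = v + η := by
    have hid : ∀ w, dS (chartAt E x) (chartAt E x x) w = w := fun w => by
      have := dS_dC he hm w
      rwa [dC_chartAt] at this
    have hc : Continuous fun b : E × E => chartAt E x x + b.1 := by fun_prop
    have ht : ∀ᶠ b : E × E in 𝓝 0, chartAt E x x + b.1 ∈ (chartAt E x).target :=
      hc.continuousAt.eventually ((chartAt E x).open_target.mem_nhds (by simp))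
    have hV : ∀ᶠ c : E × E in 𝓝 0, SmV (fun b : E × E => (chartAt E x).symm (chartAt E x x + b.1))
        (fun b => dS (chartAt E x) (chartAt E x x + b.1) (v + b.2)) c := by
      filter_upwards [ht] with c hc
      exact smV_symm he (β := fun b : E × E => chartAt E x x + b.1) (W := fun b : E × E => v + b.2)
        (contDiffAt_const.add contDiffAt_fst) hc (contDiffAt_const.add contDiffAt_snd)
    have h0 : (chartAt E x).symm (chartAt E x x + (0 : E × E).1) = x := by simp
    refine ⟨_, _, hV, h0, by simp [hid], fun u => ?_, fun u => ?_, fun η => ⟨by simp, by simp [hid]⟩⟩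
    · have h1 := hV.self_of_nhds.1.dC_dM he (by rw [h0]; exact hm) u
      rw [h0, dC_chartAt] at h1
      have h2 : (fun b : E × E => chartAt E x ((chartAt E x).symm (chartAt E x x + b.1))) =ᶠ[𝓝 0]
          fun b => chartAt E x x + b.1 := ht.mono fun b hb => (chartAt E x).right_inv hb
      rw [h1, h2.fderiv_eq, ((hasFDerivAt_fst (𝕜 := ℝ)).const_add _).fderiv]
      rfl
    · unfold dv
      beta_reduce
      rw [h0]
      have h2 : (fun b : E × E => dC (chartAt E x) ((chartAt E x).symm (chartAt E x x + b.1))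
          (dS (chartAt E x) (chartAt E x x + b.1) (v + b.2))) =ᶠ[𝓝 0] fun b => v + b.2 :=
        ht.mono fun b hb => dC_dS he hb _
      rw [h2.fderiv_eq, ((hasFDerivAt_snd (𝕜 := ℝ)).const_add _).fderiv]
      rfl
  have hVt : ∀ t : ℝ, ∀ᶠ c in 𝓝 0,
      SmV (fun c => geo g (X c) (V c) t) (fun c => vl g (X c) (V c) t) c := fun t =>
    hV.mono fun c hc => SmV.flow h (T := fun _ => t) hc contDiffAt_const
  let B0 : E × E →L[ℝ] E × E →L[ℝ] ℝ :=
    (g x).bilinearComp (ContinuousLinearMap.snd ℝ E E) (ContinuousLinearMap.fst ℝ E E) +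
      ((fderiv ℝ (gc g (chartAt E x)) (chartAt E x x)).flip v).bilinearComp
        (ContinuousLinearMap.fst ℝ E E) (ContinuousLinearMap.fst ℝ E E)
  have hB0 : ∀ u u', B0 u u' = g x u.2 u'.1 +
      fderiv ℝ (gc g (chartAt E x)) (chartAt E x x) u.1 v u'.1 := fun _ _ => rfl
  have hB : ∀ u u', (B0 - B0.flip) u u' = B0 u u' - B0 u' u := fun _ _ => rfl
  refine ⟨fun t => dM E (fun c => geo g (X c) (V c) t) 0,
    fun t => dv (fun c => geo g (X c) (V c) t) (fun c => vl g (X c) (V c) t) 0, B0 - B0.flip,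
    fderiv ℝ (fun c => g (X c) (V c) (V c) / 2) 0, ?_, ?_, ?_, ?_, ?_, ?_, ?_, ?_, ?_⟩
  · intro u
    simp only [h.geo_zero]
    exact hdX u
  · intro u u'
    rw [hB, hB]
    ring
  · intro η u
    rw [hB, hB0, hB0]
    simp
  · intro t u u' hu
    have h1 := om_eq h hV u u'
    rw [hX0, hV0, hdX, hdX, hdV, hdV] at h1
    have h2 := om_eq h (hVt t) u u'
    rw [om_flow h hV, h1, hu, hX0, hV0] at h2
    simp only [map_zero, zero_apply, sub_zero, add_zero] at h2
    rw [hB, hB0, hB0, ← h2]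
    ring
  · intro η
    have h1 : DifferentiableAt ℝ (fun c => g (X c) (V c) (V c) / 2) 0 :=
      ((hV.self_of_nhds.inner h hV.self_of_nhds).div_const 2).differentiableAt (by simp)
    have h2 : HasDerivAt (fun s : ℝ => ((0 : E), s • η)) ((0 : E), η) 0 :=
      (hasDerivAt_const _ _).prodMk (by simpa using (hasDerivAt_id (0 : ℝ)).smul_const η)
    have h3 := HasFDerivAt.comp_hasDerivAt_of_eq (0 : ℝ) h1.hasFDerivAt h2 (by rw [zero_smul]; rfl)
    have h4 : HasDerivAt (fun s : ℝ => v + s • η) η 0 := by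
      simpa using ((hasDerivAt_id (0 : ℝ)).smul_const η).const_add v
    have h5 := (((g x).hasFDerivAt.comp_hasDerivAt (0 : ℝ) h4).clm_apply h4).div_const 2
    have h6 : ((fun c => g (X c) (V c) (V c) / 2) ∘ fun s : ℝ => ((0 : E), s • η)) =
        fun s : ℝ => (g x ∘ fun s : ℝ => v + s • η) s (v + s • η) / 2 := by
      funext s
      simp only [Function.comp, (hen _).1, (hen _).2]
    rw [h6] at h3
    rw [h3.unique h5]
    simp only [Function.comp, zero_smul, add_zero, h.symm x η v]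
    ring
  · intro t u
    have h1 := th_flow h hV t u
    unfold th at h1
    beta_reduce at h1
    rwa [hX0, hV0, hdX] at h1
  · intro s t u hu
    have h1 := dM_geo_ker h (hVt s).self_of_nhds hu (t - s)
    simp only [SysAux.shift h] at h1
    rwa [hX0, hV0] at h1
  · intro u t
    have h1 := SysAux.smooth h hV u t
    rwa [hX0, hV0] at h1
  · intro t₀ u hu
    have h1 := SysAux.slope h hV u t₀ hu
    rwa [hX0, hV0] at h1

end Vale.Agent.P231
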