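import Vale.Agent.P231.Gram
import Vale.Agent.P231.Sys

/-! The normalized Gram matrix. -/

open scoped Manifold ContDiff Topology ENNReal RealInnerProductSpace
open Set Filter Real Module

set_option linter.unusedSectionVars false

namespace Vale.Agent.P231

open Vale.Agent.P255 Vale.Agent.P234

variable {E : Type} [NormedAddCommGroup E] [NormedSpace ℝ E] [FiniteDimensional ℝ E]
  {M : Type} [MetricSpace M] [CompactSpace M] [ChartedSpace E M] [IsManifold 𝓘(ℝ, E) ∞ M]
  {g : M → E →L[ℝ] E →L[ℝ] ℝ} {κ : ℝ}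
  {K H : Type} [Fintype K] [Fintype H] [DecidableEq K] [DecidableEq H]
  {x : M} {v : E} {J D : ℝ → E × E →L[ℝ] E} {B : E × E →L[ℝ] E × E →L[ℝ] ℝ}
  {ε : E × E →L[ℝ] ℝ} {e : K ⊕ H → E}

namespace DataAAux

theorem eq_zero (h : RM g) {y : M} {w : E} (hw : g y w w = 0) : w = 0 := by
  by_contra h0
  exact (h.pos y w h0).ne' hw

/-- derivative of the model lengths -/
noncomputable def ddl (t : ℝ) : K ⊕ H → ℝ :=
  Sum.elim (fun _ => cos t * cos t + sin t * -sin t) fun _ => cos t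

theorem hd (t : ℝ) (i : K ⊕ H) : HasDerivAt (fun s => dl s i) (ddl t i) t := by
  cases i with
  | inl k => exact (hasDerivAt_sin t).mul (hasDerivAt_cos t)
  | inr k => exact hasDerivAt_sin t

theorem ddl_ne {t : ℝ} {i : K ⊕ H} (hi : dl t i = 0) : ddl t i ≠ 0 := by
  have h1 := sin_sq_add_cos_sq t
  cases i with
  | inl k =>
    intro (h2 : cos t * cos t + sin t * -sin t = 0)
    rcases mul_eq_zero.1 (show sin t * cos t = 0 from hi) with h3 | h3 <;>
      rw [h3] at h1 h2 <;> nlinarith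
  | inr k =>
    intro (h2 : cos t = 0)
    rw [show sin t = 0 from hi, h2] at h1
    norm_num at h1

theorem sin_zero' {t : ℝ} (ht : t ∈ Icc 0 π) (hs : sin t = 0) : t = 0 ∨ t = π := by
  by_contra hc
  push Not at hc
  exact (sin_pos_of_pos_of_lt_pi (lt_of_le_of_ne ht.1 hc.1.symm) (lt_of_le_of_ne ht.2 hc.2)).ne' hs

theorem cos_zero' {t : ℝ} (ht : t ∈ Icc 0 π) (hs : cos t = 0) : t = π / 2 :=
  injOn_cos ht ⟨by positivity, by linarith [pi_pos]⟩ (by rw [hs, cos_pi_div_two])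

theorem map_sum0 (L : E × E →L[ℝ] E) (a : K ⊕ H → ℝ) (e : K ⊕ H → E) :
    L (0, ∑ i, a i • e i) = ∑ i, a i • L (0, e i) := by
  have : ((0 : E), ∑ i, a i • e i) = ∑ i, a i • ((0 : E), e i) := by
    ext <;> simp [Prod.fst_sum, Prod.snd_sum]
  rw [this, map_sum]
  simp only [map_smul]

theorem coef (he : Fr g x v e) (a : K ⊕ H → ℝ) (j : K ⊕ H) :
    g x (e j) (∑ i, a i • e i) = a j := by
  simp only [map_sum, map_smul, he.on, smul_eq_mul, mul_ite, mul_one, mul_zero, Finset.sum_ite_eq,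
    Finset.mem_univ, if_true]

end DataAAux

open DataAAux

theorem JS.D0 (h : RM g) (hJ : JS g x v J D B ε) (η : E) : D 0 (0, η) = η := by
  have h1 := hJ.ker 0 (0, η) (D 0 (0, η) - η, 0) (hJ.j0 _)
  rw [hJ.vert, hJ.j0, h.geo_zero] at h1
  refine sub_eq_zero.1 (eq_zero h (y := x) ?_)
  rw [map_sub (g x), sub_apply]
  exact sub_eq_zero.2 h1.symm

theorem JS.J_vert (h : RM g) (hJ : JS g x v J D B ε) (t : ℝ) (η : E) :
    J t (0, η) = JF g x v t η := by
  rw [hJ.shift 0 t (0, η) (hJ.j0 _), h.geo_zero, h.vl_zero, sub_zero, hJ.D0 h]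

/-- From `slope`. -/
theorem JS.hasDerivAt (h : RM g) (hJ : JS g x v J D B ε) {t₀ : ℝ} {u : E × E} (hu : J t₀ u = 0)
    {W : ℝ → E} (hW : CtV (geo g x v) W t₀) :
    HasDerivAt (fun t => g (geo g x v t) (W t) (J t u)) (g (geo g x v t₀) (W t₀) (D t₀ u)) t₀ := by
  have h1 := (hW.inner h (hJ.slope t₀ u hu)).tendsto
  simp only [if_true] at h1
  rw [hasDerivAt_iff_tendsto_slope]
  refine (h1.mono_left nhdsWithin_le_nhds).congr' ?_
  filter_upwards [self_mem_nhdsWithin] with t ht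
  have ht' : t ≠ t₀ := ht
  simp [slope_def_module, ht', hu]

theorem JS.D_perp (h : RM g) (hJ : JS g x v J D B ε) {t₀ : ℝ} {u : E × E} (hu : J t₀ u = 0) :
    g (geo g x v t₀) (vl g x v t₀) (D t₀ u) = ε u := by
  have h1 : CtV (geo g x v) (vl g x v) t₀ :=
    (ctV_const x (V := fun _ : ℝ => v) continuousAt_const).flow h continuousAt_id
  have h2 := hJ.hasDerivAt h hu h1
  simp only [hJ.gauss] at h2
  exact h2.unique (by simpa using ((hasDerivAt_id t₀).mul_const (ε u)).const_add (g x v u.1))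

theorem Bl.J_zero (h : Bl g κ) (hv : nr g x v = κ) (hJ : JS g x v J D B ε) (he : Fr g x v e)
    {t : ℝ} (ht : t ∈ Icc 0 π) {i : K ⊕ H} (hi : dl t i = 0) : J t (0, e i) = 0 := by
  have h1 : sin t = 0 → J t (0, e i) = 0 := fun hs => by
    rcases sin_zero' ht hs with rfl | rfl
    · exact hJ.j0 _
    · have := h.JF_per hv (he.perp i) 0
      rw [zero_add] at this
      rw [hJ.J_vert h.toRM, this, ← hJ.J_vert h.toRM]
      exact hJ.j0 _
  cases i with
  | inl k =>
    rcases mul_eq_zero.1 (show sin t * cos t = 0 from hi) with h3 | h3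
    · exact h1 h3
    · have h4 : dM E (ex g x) ((π / 2) • v) (e (.inl k)) = 0 := he.memK k
      rw [hJ.J_vert h.toRM, cos_zero' ht h3, JF, map_smul, h4, smul_zero]
  | inr k => exact h1 hi

theorem Bl.gam_eq (h : Bl g κ) (hv : nr g x v = κ) (hJ : JS g x v J D B ε) (he : Fr g x v e)
    {t : ℝ} (ht : t ∈ Icc 0 π) (i j : K ⊕ H) :
    Gam g x v e t i j = dl t i * dl t j * Gn g x v J D e t i j := by
  simp only [Gam, Gn, Matrix.of_apply, ← hJ.J_vert h.toRM]
  by_cases hi : dl t i = 0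
  · simp [h.J_zero hv hJ he ht hi, hi]
  by_cases hj : dl t j = 0
  · simp [h.J_zero hv hJ he ht hj, hj]
  simp only [Jn, if_neg hi, if_neg hj, map_smul, smul_apply, smul_eq_mul]
  field_simp

/-- `slope` and `dl t i / (t - t₀) → deriv`; the zeros `0, π/2, π` are isolated and simple. -/
theorem Bl.ctV_Jn (h : Bl g κ) (hv : nr g x v = κ) (hJ : JS g x v J D B ε) (he : Fr g x v e)
    {t : ℝ} (ht : t ∈ Icc 0 π) (i : K ⊕ H) : CtV (geo g x v) (fun s => Jn J D e s i) t := by
  by_cases hi : dl t i = 0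
  · have c1 : ContinuousAt (dslope (fun s => dl s i) t) t :=
      continuousAt_dslope_same.2 (hd t i).differentiableAt
    have c2 : dslope (fun s => dl s i) t t ≠ 0 := by
      rw [dslope_same, (hd t i).deriv]; exact ddl_ne hi
    refine ContinuousAt.congr ((hJ.slope t _ (h.J_zero hv hJ he ht hi)).smul (c1.inv₀ c2)) ?_
    filter_upwards [c1.eventually_ne c2] with s hs
    congr 1
    by_cases hst : s = t
    · rw [hst, if_pos rfl, Jn, if_pos hi, Pi.inv_apply, dslope_same]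
    · have e1 : dl s i = dslope (fun s => dl s i) t s * (s - t) := by
        have := sub_smul_dslope (fun s => dl s i) t s
        rw [hi, sub_zero, smul_eq_mul] at this
        rw [← this, mul_comm]
      have e2 : dl s i ≠ 0 := e1 ▸ mul_ne_zero hs (sub_ne_zero.2 hst)
      rw [if_neg hst, Jn, if_neg e2, Pi.inv_apply, smul_smul, ← mul_inv, ← e1]
  · have c1 := (hd t i).continuousAt
    refine ContinuousAt.congr ((hJ.smooth (0, e i) t).ctV.smul (c1.inv₀ hi)) ?_
    filter_upwards [c1.eventually_ne hi] with s hs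
    rw [Jn, if_neg hs, Pi.inv_apply]

/-- At a zero: if `D t (0, k) + J t (0, η) = 0` with `J t (0, k) = 0`, then `ker`, `vert` show that the two terms
are orthogonal; `D t (0, k) = 0` gives `B (0, k) = 0`, so `k = 0`; `J (π/2) (0, η) = 0` means `η ∈ KK`. -/
theorem Bl.li_Jn (h : Bl g κ) (hv : nr g x v = κ) (hJ : JS g x v J D B ε) (he : Fr g x v e)
    {t : ℝ} (ht : t ∈ Icc 0 π) : LinearIndependent ℝ (Jn J D e t) := by
  rw [Fintype.linearIndependent_iff]
  intro c hc
  set a : K ⊕ H → ℝ := fun i => if dl t i = 0 then c i * (ddl t i)⁻¹ else 0 with ha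
  set b : K ⊕ H → ℝ := fun i => if dl t i = 0 then 0 else c i * (dl t i)⁻¹ with hb
  have h1 : J t (0, ∑ i, a i • e i) = 0 := by
    rw [map_sum0]
    refine Finset.sum_eq_zero fun i _ => ?_
    by_cases hi : dl t i = 0
    · rw [h.J_zero hv hJ he ht hi, smul_zero]
    · simp [ha, hi]
  have h2 : D t (0, ∑ i, a i • e i) + J t (0, ∑ i, b i • e i) = 0 := by
    rw [map_sum0, map_sum0, ← Finset.sum_add_distrib]
    refine Eq.trans (Finset.sum_congr rfl fun i _ => ?_) hc
    by_cases hi : dl t i = 0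
    · simp [ha, hb, Jn, hi, (hd t i).deriv, smul_smul]
    · simp [ha, hb, Jn, hi, smul_smul]
  have h3 := hJ.ker t _ (0, ∑ i, b i • e i) h1
  rw [hJ.vert, eq_neg_of_add_eq_zero_right h2, map_neg, map_zero, zero_eq_neg] at h3
  have h4 := eq_zero h.toRM h3
  rw [h4, zero_add] at h2
  have h5 := hJ.ker t _ (∑ i, a i • e i, 0) h1
  rw [hJ.vert, h4, map_zero, zero_apply] at h5
  have h6 := eq_zero h.toRM h5
  have a0 : ∀ i, a i = 0 := fun i => by rw [← coef he a i, h6, map_zero]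
  rw [hJ.J_vert h.toRM] at h2
  intro i
  by_cases hi : dl t i = 0
  · simpa [ha, hi, ddl_ne hi] using a0 i
  have hs : sin t ≠ 0 := fun hs => hi (by cases i <;> simp [dl, hs])
  have t0 : t ≠ 0 := fun h0 => hs (by rw [h0, sin_zero])
  have t1 : t ≠ π := fun h0 => hs (by rw [h0, sin_pi])
  have h7 : ∑ i, b i • e i = 0 := by
    by_cases t2 : t = π / 2
    · have m : ∑ i, b i • e i ∈ KK g x v := by
        rw [JF, map_smul, smul_eq_zero_iff_right t0, t2] at h2
        exact h2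
      rw [he.expandK h.toRM m]
      refine Finset.sum_eq_zero fun k _ => ?_
      rw [coef he]
      simp [hb, dl, t2]
    · have := h.nc_II hv ⟨⟨lt_of_le_of_ne ht.1 t0.symm, lt_of_le_of_ne ht.2 t1⟩, t2⟩ _ h2
      exact (smul_eq_zero_iff_right t0).1 this
  have b0 : b i = 0 := by rw [← coef he b i, h7, map_zero]
  simpa [hb, hi] using b0

theorem Bl.Gn_zero (h : Bl g κ) (hv : nr g x v = κ) (hJ : JS g x v J D B ε) (he : Fr g x v e) :
    Gn g x v J D e 0 = 1 := by
  have h1 : ∀ i, Jn J D e 0 i = e i := fun i => by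
    have h2 : dl 0 i = 0 := by cases i <;> simp [dl]
    have h3 : ddl 0 i = 1 := by cases i <;> simp [ddl]
    rw [Jn, if_pos h2, (hd 0 i).deriv, h3, hJ.D0 h.toRM, inv_one, one_smul]
  ext i j
  rw [Gn, Matrix.of_apply, h1, h1, h.toRM.geo_zero, he.on, Matrix.one_apply]

theorem Bl.Gn_cont (h : Bl g κ) (hv : nr g x v = κ) (hJ : JS g x v J D B ε) (he : Fr g x v e) :
    ContinuousOn (Gn g x v J D e) (Icc 0 π) :=
  continuousOn_pi.2 fun i => continuousOn_pi.2 fun j _ ht =>
    ((h.ctV_Jn hv hJ he ht i).inner h.toRM (h.ctV_Jn hv hJ he ht j)).continuousWithinAt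

theorem Bl.Gn_pos (h : Bl g κ) (hv : nr g x v = κ) (hJ : JS g x v J D B ε) (he : Fr g x v e)
    {t : ℝ} (ht : t ∈ Icc 0 π) : (Gn g x v J D e t).PosDef :=
  gram_posDef h.toRM _ (h.li_Jn hv hJ he ht)

theorem Bl.li_JF (h : Bl g κ) (hv : nr g x v = κ) (he : Fr g x v e) {t : ℝ} (ht : t ∈ II) :
    LinearIndependent ℝ fun i => JF g x v t (e i) := by
  have h1 := (he.li h.toRM).map' (t • (dM E (ex g x) (t • v) : E →ₗ[ℝ] E))
    (LinearMap.ker_eq_bot'.2 fun w hw =>
      h.nc_II hv ht _ ((smul_eq_zero_iff_right ht.1.1.ne').1 hw))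
  simp only [JF, map_smul]
  exact h1

end Vale.Agent.P231
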