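import Vale.Agent.P231.DataA

/-! The Lagrangian curve. -/

open scoped Manifold ContDiff Topology ENNReal RealInnerProductSpace
open Set Filter Real Module

set_option linter.unusedSectionVars false

namespace Vale.Agent.P231

open Vale.Agent.P255 Vale.Agent.P234

variable {E : Type} [NormedAddCommGroup E] [NormedSpace ℝ E] [FiniteDimensional ℝ E]
  {M : Type} [MetricSpace M] [CompactSpace M] [ChartedSpace E M] [IsManifold 𝓘(ℝ, E) ∞ M]
  {g : M → E →L[ℝ] E →L[ℝ] ℝ} {κ : ℝ}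
  {K H : Type} [Fintype K] [Fintype H] [DecidableEq K] [DecidableEq H]
  {x : M} {v : E} {J D : ℝ → E × E →L[ℝ] E} {B : E × E →L[ℝ] E × E →L[ℝ] ℝ}
  {ε : E × E →L[ℝ] ℝ} {e : K ⊕ H → E}

namespace DataBAux

theorem ne_zero (h : Bl g κ) (hv : nr g x v = κ) : v ≠ 0 := by
  rintro rfl
  have := h.kpos
  rw [← hv] at this
  simp [nr] at this

theorem vl_ne (h : Bl g κ) (hv : nr g x v = κ) (t : ℝ) : vl g x v t ≠ 0 :=
  ne_zero h ((nr_vl' h.toRM x v t).trans hv)

theorem II_sub {t : ℝ} (ht : t ∈ II) : t ∈ Icc 0 π := ⟨ht.1.1.le, ht.1.2.le⟩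

theorem dl_ne {t : ℝ} (ht : t ∈ II) (i : K ⊕ H) : dl t i ≠ 0 := by
  have h1 : sin t ≠ 0 := (sin_pos_of_pos_of_lt_pi ht.1.1 ht.1.2).ne'
  have h2 : cos t ≠ 0 := by
    have h3 := ht.1.1
    have h4 := ht.1.2
    rcases lt_or_gt_of_ne (show t ≠ π / 2 from ht.2) with h | h
    · exact (cos_pos_of_mem_Ioo ⟨by linarith, h⟩).ne'
    · exact (cos_neg_of_pi_div_two_lt_of_lt h (by linarith)).ne
  rcases i with i | i
  · exact mul_ne_zero h1 h2
  · exact h1

theorem isOpen_II : IsOpen II := isOpen_Ioo.sdiff isClosed_singleton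

theorem mem_lo {t : ℝ} (h0 : 0 < t) (h1 : t < π / 2) : t ∈ II :=
  ⟨⟨h0, by linarith [pi_pos]⟩, h1.ne⟩

theorem mem_hi {t : ℝ} (h0 : π / 2 < t) (h1 : t < π) : t ∈ II :=
  ⟨⟨by linarith [pi_pos], h1⟩, h0.ne'⟩

theorem card_eq (he : Fr g x v e) : Fintype.card (K ⊕ H) + 1 = finrank ℝ E := by
  rw [Fintype.card_sum]
  exact he.card

theorem perp_JF (h : RM g) (hJ : JS g x v J D B ε) (he : Fr g x v e) (t : ℝ) (i : K ⊕ H) :
    g (geo g x v t) (vl g x v t) (JF g x v t (e i)) = 0 := by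
  rw [← hJ.J_vert h, hJ.gauss, hJ.en, he.perp, map_zero, mul_zero, add_zero]

theorem gam_pos (h : Bl g κ) (hv : nr g x v = κ) (he : Fr g x v e) {t : ℝ} (ht : t ∈ II) :
    (Gam g x v e t).PosDef := gram_posDef h.toRM _ (h.li_JF hv he ht)

theorem gam_diag (h : Bl g κ) (hv : nr g x v = κ) (hJ : JS g x v J D B ε) (he : Fr g x v e)
    {t : ℝ} (ht : t ∈ Icc 0 π) : Gam g x v e t =
      Matrix.diagonal (dl t) * Gn g x v J D e t * Matrix.diagonal (dl t) := by
  ext i j
  rw [h.gam_eq hv hJ he ht, Matrix.mul_diagonal, Matrix.diagonal_mul]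
  ring

theorem gam_inv (h : Bl g κ) (hv : nr g x v = κ) (hJ : JS g x v J D B ε) (he : Fr g x v e)
    {t : ℝ} (ht : t ∈ II) (i j : K ⊕ H) :
    (Gam g x v e t)⁻¹ i j = (Gn g x v J D e t)⁻¹ i j / (dl t i * dl t j) := by
  have h1 : Matrix.diagonal (fun i : K ⊕ H => (dl t i)⁻¹) * Matrix.diagonal (dl t) = 1 := by
    rw [Matrix.diagonal_mul_diagonal, ← Matrix.diagonal_one]
    exact congrArg Matrix.diagonal (funext fun i => inv_mul_cancel₀ (dl_ne ht i))
  have h2 := Matrix.nonsing_inv_mul _ (h.Gn_pos hv hJ he (II_sub ht)).det_pos.ne'.isUnit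
  have h3 : (Gam g x v e t)⁻¹ = Matrix.diagonal (fun i : K ⊕ H => (dl t i)⁻¹) *
      (Gn g x v J D e t)⁻¹ * Matrix.diagonal (fun i : K ⊕ H => (dl t i)⁻¹) := by
    apply Matrix.inv_eq_left_inv
    rw [gam_diag h hv hJ he (II_sub ht), Matrix.mul_assoc, Matrix.mul_assoc, Matrix.mul_assoc,
      ← Matrix.mul_assoc _ (Matrix.diagonal (dl t)), h1, Matrix.one_mul,
      ← Matrix.mul_assoc _ (Gn g x v J D e t), h2, Matrix.one_mul, h1]
  rw [h3, Matrix.mul_diagonal, Matrix.diagonal_mul]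
  have := dl_ne ht i
  have := dl_ne ht j
  field_simp

theorem J_exp (h : RM g) (hJ : JS g x v J D B ε) (s t : ℝ) (j : K ⊕ H) :
    J t (zv g x v J ε e s j) =
      J t (cv g x v ε (e j)) + ∑ i, Sn g x v J ε e s i j • JF g x v t (e i) := by
  simp only [zv, map_add, map_sum, map_smul, hJ.J_vert h]

theorem cont_inv {ι : Type} [Fintype ι] [DecidableEq ι] {A : ℝ → Matrix ι ι ℝ} {t : ℝ}
    (hA : ContinuousAt A t) (h0 : (A t).det ≠ 0) (i j : ι) :
    ContinuousAt (fun s => (A s)⁻¹ i j) t := by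
  have h1 : ContinuousAt (Inv.inv : Matrix ι ι ℝ → Matrix ι ι ℝ) (A t) :=
    continuousAt_matrix_inv _ (by
      rw [Ring.inverse_eq_inv']
      exact continuousAt_inv₀ h0)
  exact ((continuous_apply_apply i j).continuousAt).comp (h1.comp hA)

theorem deriv_mul0 {f a : ℝ → ℝ} {a' t : ℝ} (hf : ContinuousAt f t) (ha : HasDerivAt a a' t)
    (h0 : a t = 0) : HasDerivAt (fun s => f s * a s) (f t * a') t := by
  rw [hasDerivAt_iff_tendsto_slope] at ha ⊢
  refine ((hf.tendsto.mono_left nhdsWithin_le_nhds).mul ha).congr fun s => ?_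
  simp only [slope_def_field, h0]
  ring

theorem ctV_JF (h : RM g) (hJ : JS g x v J D B ε) (w : E) (t : ℝ) :
    CtV (geo g x v) (fun s => JF g x v s w) t := by
  have := (hJ.smooth (0, w) t).ctV
  simpa only [hJ.J_vert h] using this

theorem cont_gam (h : RM g) (hJ : JS g x v J D B ε) (t : ℝ) :
    ContinuousAt (Gam g x v e) t :=
  continuousAt_pi.2 fun i => continuousAt_pi.2 fun j =>
    (ctV_JF h hJ (e i) t).inner h (ctV_JF h hJ (e j) t)

end DataBAux

open DataBAux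

theorem Bl.eps_zv (h : Bl g κ) (hv : nr g x v = κ) (hJ : JS g x v J D B ε) (he : Fr g x v e)
    (s : ℝ) (j : K ⊕ H) : (zv g x v J ε e s j).1 = e j ∧ ε (zv g x v J ε e s j) = 0 := by
  constructor
  · simp [zv, cv, Prod.fst_sum]
  · have h0 : g x v v ≠ 0 := (h.pos x v (ne_zero h hv)).ne'
    have e1 : cv g x v ε (e j) = (e j, 0) + (-(ε (e j, 0) / g x v v)) • ((0 : E), v) := by
      simp [cv]
    simp only [zv, e1, map_add, map_sum, map_smul, hJ.en, he.perp, smul_eq_mul, mul_zero,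
      Finset.sum_const_zero, add_zero]
    field_simp
    ring

/-- `eq_zero_of_perp` at `geo g x v s` with the family `JF g x v s (e i)`. -/
theorem Bl.J_zv (h : Bl g κ) (hv : nr g x v = κ) (hJ : JS g x v J D B ε) (he : Fr g x v e)
    {s : ℝ} (hs : s ∈ II) (j : K ⊕ H) : J s (zv g x v J ε e s j) = 0 := by
  refine eq_zero_of_perp h.toRM (vl_ne h hv s) (h.li_JF hv he hs) (perp_JF h.toRM hJ he s)
    (card_eq he) ?_ fun i => ?_
  · rw [hJ.gauss, (h.eps_zv hv hJ he s j).1, (h.eps_zv hv hJ he s j).2, he.perp, mul_zero, add_zero]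
  · have h1 : Gam g x v e s * Sn g x v J ε e s = -Matrix.of fun i j =>
        g (geo g x v s) (JF g x v s (e i)) (J s (cv g x v ε (e j))) := by
      rw [Sn, Matrix.mul_neg, ← Matrix.mul_assoc,
        Matrix.mul_nonsing_inv _ (gam_pos h hv he hs).det_pos.ne'.isUnit, Matrix.one_mul]
    have h2 := congrFun (congrFun h1 i) j
    rw [Matrix.mul_apply, Matrix.neg_apply, Matrix.of_apply] at h2
    rw [J_exp h.toRM hJ, map_add, map_sum, ← neg_eq_iff_add_eq_zero, ← h2]
    refine Finset.sum_congr rfl fun l _ => ?_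
    rw [map_smul, smul_eq_mul, mul_comm]
    rfl

theorem Bl.J_zv' (h : Bl g κ) (hv : nr g x v = κ) (hJ : JS g x v J D B ε) (he : Fr g x v e)
    (s : ℝ) {t : ℝ} (ht : t ∈ II) (j : K ⊕ H) : J t (zv g x v J ε e s j) =
      ∑ i, (Sn g x v J ε e s i j - Sn g x v J ε e t i j) • JF g x v t (e i) := by
  have h1 := h.J_zv hv hJ he ht j
  rw [J_exp h.toRM hJ] at h1
  rw [J_exp h.toRM hJ, eq_neg_of_add_eq_zero_left h1]
  simp only [sub_smul, Finset.sum_sub_distrib]
  abel

theorem Bl.D_zv (h : Bl g κ) (hv : nr g x v = κ) (hJ : JS g x v J D B ε) (he : Fr g x v e)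
    {s : ℝ} (hs : s ∈ II) (i j : K ⊕ H) :
    g (geo g x v s) (D s (zv g x v J ε e s j)) (JF g x v s (e i)) = -(if i = j then 1 else 0) := by
  rw [← hJ.J_vert h.toRM, ← hJ.ker s _ _ (h.J_zv hv hJ he hs j), hJ.anti, hJ.vert,
    (h.eps_zv hv hJ he s j).1, he.on]

namespace DataBAux

theorem skew (h : Bl g κ) (hv : nr g x v = κ) (hJ : JS g x v J D B ε) (he : Fr g x v e)
    {s : ℝ} (hs : s ∈ II) (i j : K ⊕ H) :
    Sn g x v J ε e s i j - Sn g x v J ε e s j i = B (cv g x v ε (e i)) (cv g x v ε (e j)) := by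
  have h1 : B (zv g x v J ε e s i) (zv g x v J ε e s j) = 0 := by
    rw [hJ.ker s _ _ (h.J_zv hv hJ he hs i), h.J_zv hv hJ he hs j, map_zero]
  have h2 : ∀ (l : K ⊕ H) (u : E × E), u.1 = e l → ∀ m,
      B (zv g x v J ε e s m) u = B (cv g x v ε (e m)) u + Sn g x v J ε e s l m := by
    intro l u hu m
    simp only [zv, map_add, map_sum, map_smul, add_apply,
      sum_apply, smul_apply, hJ.vert, hu, he.on,
      smul_eq_mul, mul_ite, mul_one, mul_zero, Finset.sum_ite_eq', Finset.mem_univ, if_true]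
  rw [h2 j _ (h.eps_zv hv hJ he s j).1, hJ.anti, h2 i _ rfl, hJ.anti] at h1
  linarith

theorem deriv_Sn (h : Bl g κ) (hv : nr g x v = κ) (hJ : JS g x v J D B ε) (he : Fr g x v e)
    {t : ℝ} (ht : t ∈ II) (i j : K ⊕ H) :
    HasDerivAt (fun s => Sn g x v J ε e s i j) ((Gam g x v e t)⁻¹ i j) t := by
  have hA : ∀ l, HasDerivAt (fun s => g (geo g x v s) (JF g x v s (e l)) (J s (zv g x v J ε e t j)))
      (-(if l = j then 1 else 0)) t := by
    intro l
    have := hJ.hasDerivAt h.toRM (h.J_zv hv hJ he ht j) (ctV_JF h.toRM hJ (e l) t)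
    rwa [h.symm, h.D_zv hv hJ he ht] at this
  have h1 := (HasDerivAt.fun_sum fun l (_ : l ∈ Finset.univ) =>
    deriv_mul0 (cont_inv (cont_gam (e := e) h.toRM hJ t) (gam_pos h hv he ht).det_pos.ne' i l)
      (hA l) (by rw [h.J_zv hv hJ he ht j, map_zero])).const_sub (Sn g x v J ε e t i j)
  simp only [mul_neg, mul_ite, mul_one, mul_zero, Finset.sum_neg_distrib, Finset.sum_ite_eq',
    Finset.mem_univ, if_true, neg_neg] at h1
  refine h1.congr_of_eventuallyEq ?_
  filter_upwards [isOpen_II.mem_nhds ht] with s hs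
  have h2 : ∀ l, g (geo g x v s) (JF g x v s (e l)) (J s (zv g x v J ε e t j)) =
      (Gam g x v e s * (Sn g x v J ε e t - Sn g x v J ε e s)) l j := by
    intro l
    rw [h.J_zv' hv hJ he t hs, map_sum, Matrix.mul_apply]
    refine Finset.sum_congr rfl fun m _ => ?_
    rw [map_smul, smul_eq_mul, mul_comm]
    rfl
  simp only [h2]
  rw [← Matrix.mul_apply, ← Matrix.mul_assoc,
    Matrix.nonsing_inv_mul _ (gam_pos h hv he hs).det_pos.ne'.isUnit, Matrix.one_mul,
    Matrix.sub_apply, sub_sub_cancel]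

theorem Sn_eq (h : Bl g κ) (hv : nr g x v = κ) (hJ : JS g x v J D B ε) (he : Fr g x v e)
    {t : ℝ} (ht : t ∈ II) (i j : K ⊕ H) : Sn g x v J ε e t i j =
      -∑ l, (Gn g x v J D e t)⁻¹ i l / dl t i *
        g (geo g x v t) (Jn J D e t l) (J t (cv g x v ε (e j))) := by
  rw [Sn, Matrix.neg_apply, Matrix.mul_apply]
  refine congrArg Neg.neg (Finset.sum_congr rfl fun l _ => ?_)
  rw [gam_inv h hv hJ he ht, Matrix.of_apply, Jn, if_neg (dl_ne ht l), hJ.J_vert h.toRM, map_smul,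
    smul_apply, smul_eq_mul]
  have := dl_ne ht i
  have := dl_ne ht l
  field_simp

end DataBAux

/-- `symm`: `0 = B (zv s i) (zv s j) = B (cv i) (cv j) + Sn s j i - Sn s i j`. `deriv`: `Sn` is differentiable on
`II` (smooth entries, invertible `Gam`); differentiate
`g (JF t (e i)) (J t (zv s j)) = (Gam t * (Sn s - Sn t)) i j` at `t = s` (`hasDerivAt`, `D_zv`).
`lim`: `Sn t (inr i) j = -(dl t (inr i))⁻¹ * ∑ l, (Gn t)⁻¹ (inr i) l * g (Jn t l) (J t (cv (e j)))`. -/
theorem Bl.bkd (h : Bl g κ) (hv : nr g x v = κ) (hJ : JS g x v J D B ε) (he : Fr g x v e) :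
    BKD (Gn g x v J D e) (Sn g x v J ε e) where
  cont := h.Gn_cont hv hJ he
  pos := fun _ ht => h.Gn_pos hv hJ he ht
  symm := by
    intro s hs t ht
    refine Matrix.IsSymm.ext fun i j => ?_
    have h1 := skew h hv hJ he hs i j
    have h2 := skew h hv hJ he ht i j
    rw [Matrix.sub_apply, Matrix.sub_apply]
    linarith
  deriv := by
    intro t ht i j
    rw [← gam_inv h hv hJ he ht]
    exact deriv_Sn h hv hJ he ht i j
  lim := by
    intro i j
    have hp := pi_div_two_pos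
    have hm : π / 2 ∈ Icc 0 π := ⟨hp.le, by linarith⟩
    have hG : ContinuousAt (Gn g x v J D e) (π / 2) :=
      (h.Gn_cont hv hJ he).continuousAt (Icc_mem_nhds hp (by linarith))
    have hc : ContinuousAt (fun t => -∑ l, (Gn g x v J D e t)⁻¹ (.inr i) l / sin t *
        g (geo g x v t) (Jn J D e t l) (J t (cv g x v ε (e (.inr j))))) (π / 2) := by
      refine (tendsto_finsetSum _ fun l _ => ?_ : ContinuousAt _ _).neg
      exact ((cont_inv hG (h.Gn_pos hv hJ he hm).det_pos.ne' _ l).div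
        continuous_sin.continuousAt (by simp)).mul
        ((h.ctV_Jn hv hJ he hm l).inner h.toRM (hJ.smooth _ _).ctV)
    refine ⟨_, (hc.tendsto.mono_left nhdsWithin_le_nhds).congr' ?_⟩
    filter_upwards [self_mem_nhdsWithin,
      nhdsWithin_le_nhds (Ioo_mem_nhds hp (show π / 2 < π by linarith))] with t h1 h2
    exact (Sn_eq h hv hJ he ⟨h2, h1⟩ _ _).symm

end Vale.Agent.P231
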