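import Vale.Agent.P231.DataB

/-! The density in terms of the Lagrangian curve. -/

open scoped Manifold ContDiff Topology ENNReal RealInnerProductSpace
open Set Filter Real Module

set_option linter.unusedSectionVars false

namespace Vale.Agent.P231

open Vale.Agent.P255 Vale.Agent.P234

variable {E : Type} [NormedAddCommGroup E] [NormedSpace ℝ E] [FiniteDimensional ℝ E]
  {M : Type} [MetricSpace M] [CompactSpace M] [ChartedSpace E M] [IsManifold 𝓘(ℝ, E) ∞ M]
  {g : M → E →L[ℝ] E →L[ℝ] ℝ} {κ : ℝ}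
  {K H : Type} [Fintype K] [Fintype H] [DecidableEq K] [DecidableEq H]
  {x : M} {v : E} {J D : ℝ → E × E →L[ℝ] E} {B : E × E →L[ℝ] E × E →L[ℝ] ℝ}
  {ε : E × E →L[ℝ] ℝ} {e : K ⊕ H → E}

open DataBAux

namespace DataCAux

theorem perp_w (h : Bl g κ) (hv : nr g x v = κ) (hJ : JS g x v J D B ε) (he : Fr g x v e)
    {s : ℝ} (hs : s ∈ II) (j : K ⊕ H) :
    g (geo g x v s) (vl g x v s) (D s (zv g x v J ε e s j)) = 0 := by
  rw [hJ.D_perp h.toRM (h.J_zv hv hJ he hs j), (h.eps_zv hv hJ he s j).2]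

theorem pair_w (h : Bl g κ) (hv : nr g x v = κ) (hJ : JS g x v J D B ε) (he : Fr g x v e)
    {s : ℝ} (hs : s ∈ II) (i : K ⊕ H) (c : K ⊕ H → ℝ) :
    g (geo g x v s) (JF g x v s (e i)) (∑ j, c j • D s (zv g x v J ε e s j)) = -c i := by
  rw [map_sum]
  have e1 : ∀ j, g (geo g x v s) (JF g x v s (e i)) (c j • D s (zv g x v J ε e s j)) =
      -(if i = j then c j else 0) := by
    intro j
    rw [map_smul, h.symm, h.D_zv hv hJ he hs, smul_eq_mul]
    split_ifs <;> simp
  simp only [e1, Finset.sum_neg_distrib, Finset.sum_ite_eq, Finset.mem_univ, if_true]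

theorem li_w (h : Bl g κ) (hv : nr g x v = κ) (hJ : JS g x v J D B ε) (he : Fr g x v e)
    {s : ℝ} (hs : s ∈ II) : LinearIndependent ℝ fun j => D s (zv g x v J ε e s j) := by
  rw [Fintype.linearIndependent_iff]
  intro c hc i
  have := pair_w h hv hJ he hs i c
  rw [hc, map_zero] at this
  exact neg_eq_zero.1 this.symm

theorem w_eq (h : Bl g κ) (hv : nr g x v = κ) (hJ : JS g x v J D B ε) (he : Fr g x v e)
    {s : ℝ} (hs : s ∈ II) (j : K ⊕ H) : D s (zv g x v J ε e s j) =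
      ∑ l, (-(Gam g x v e s)⁻¹) l j • JF g x v s (e l) := by
  rw [← sub_eq_zero]
  refine eq_zero_of_perp h.toRM (vl_ne h hv s) (h.li_JF hv he hs) (perp_JF h.toRM hJ he s)
    (card_eq he) ?_ fun i => ?_
  · simp only [map_sub, map_sum, map_smul, perp_w h hv hJ he hs, perp_JF h.toRM hJ he s,
      smul_zero, Finset.sum_const_zero, sub_zero]
  · have h1 : Gam g x v e s * -(Gam g x v e s)⁻¹ = -1 := by
      rw [Matrix.mul_neg, Matrix.mul_nonsing_inv _ (gam_pos h hv he hs).det_pos.ne'.isUnit]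
    have h2 := congrFun (congrFun h1 i) j
    rw [Matrix.mul_apply, Matrix.neg_apply, Matrix.one_apply] at h2
    rw [map_sub, h.symm, h.D_zv hv hJ he hs, ← h2, map_sum, sub_eq_zero]
    refine Finset.sum_congr rfl fun l _ => ?_
    rw [map_smul, smul_eq_mul, mul_comm]
    rfl

theorem det_neg_sq {ι : Type} [Fintype ι] [DecidableEq ι] (A : Matrix ι ι ℝ) :
    (-A).det ^ 2 = A.det ^ 2 := by
  rw [Matrix.det_neg, mul_pow, ← pow_mul, mul_comm _ 2, pow_mul, neg_one_sq, one_pow, one_mul]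

theorem gd_w (h : Bl g κ) (hv : nr g x v = κ) (hJ : JS g x v J D B ε) (he : Fr g x v e)
    {s : ℝ} (hs : s ∈ II) : gd (g (geo g x v s)) (fun j => D s (zv g x v J ε e s j)) *
      (Gam g x v e s).det = 1 := by
  have h0 := (gam_pos h hv he hs).det_pos.ne'
  simp only [w_eq h hv hJ he hs]
  rw [gd_mul, det_neg_sq, Matrix.det_nonsing_inv, Ring.inverse_eq_inv',
    show gd (g (geo g x v s)) (fun l => JF g x v s (e l)) = (Gam g x v e s).det from rfl]
  field_simp

theorem JF_w (h : Bl g κ) (hv : nr g x v = κ) (hJ : JS g x v J D B ε) (he : Fr g x v e)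
    {s t : ℝ} (hs : s ∈ II) (ht : t ∈ II) (j : K ⊕ H) :
    JF g (geo g x v s) (vl g x v s) (t - s) (D s (zv g x v J ε e s j)) =
      ∑ i, (-(Sn g x v J ε e t - Sn g x v J ε e s)) i j • JF g x v t (e i) := by
  rw [← hJ.shift s t _ (h.J_zv hv hJ he hs j), h.J_zv' hv hJ he s ht, neg_sub]
  rfl

theorem det_gam (h : Bl g κ) (hv : nr g x v = κ) (hJ : JS g x v J D B ε) (he : Fr g x v e)
    {t : ℝ} (ht : t ∈ II) :
    (Gam g x v e t).det = (√(Gn g x v J D e t).det * |∏ i : K ⊕ H, dl t i|) ^ 2 := by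
  rw [gam_diag h hv hJ he (II_sub ht), Matrix.det_mul, Matrix.det_mul, Matrix.det_diagonal,
    mul_pow, sq_abs, Real.sq_sqrt (h.Gn_pos hv hJ he (II_sub ht)).det_pos.le]
  ring

theorem Ph_symm (G S : ℝ → Matrix (K ⊕ H) (K ⊕ H) ℝ) (s t : ℝ) : Ph G S s t = Ph G S t s := by
  have h1 : |(S t - S s).det| = |(S s - S t).det| := by
    rw [← sq_eq_sq_iff_abs_eq_abs, ← det_neg_sq, neg_sub]
  unfold Ph
  rw [h1]
  ring

end DataCAux

open DataCAux

/-- `w j = D s (zv s j)` is a basis of the normal space at time `s`, dual to `-JF s (e i)`, so its Gram matrix is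
`(Gam s)⁻¹` (expand `w j` in the basis `JF s (e i)`); `shift`, `J_zv'`, `FF_sq`, `gd_mul`, `gam_eq`. -/
theorem Bl.FF_eq (h : Bl g κ) (hv : nr g x v = κ) (hJ : JS g x v J D B ε) (he : Fr g x v e)
    {s t : ℝ} (hs : s ∈ II) (ht : t ∈ II) (hst : s ≠ t) :
    FF g (geo g x v s) (vl g x v s) (t - s) = Ph (Gn g x v J D e) (Sn g x v J ε e) s t := by
  have h1 := FF_sq h.toRM (vl_ne h hv s) (li_w h hv hJ he hs) (perp_w h hv hJ he hs) (card_eq he)
    (sub_ne_zero.2 hst.symm)
  simp only [JF_w h hv hJ he hs ht] at h1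
  rw [geo_flow h.toRM, add_sub_cancel, gd_mul, det_neg_sq,
    show gd (g (geo g x v t)) (fun l => JF g x v t (e l)) = (Gam g x v e t).det from rfl] at h1
  have h2 := gd_w h hv hJ he hs
  have h3 : FF g (geo g x v s) (vl g x v s) (t - s) ^ 2 =
      Ph (Gn g x v J D e) (Sn g x v J ε e) s t ^ 2 := by
    rw [Ph, mul_pow, mul_pow, sq_abs, ← det_gam h hv hJ he hs, ← det_gam h hv hJ he ht,
      mul_right_comm, ← h1, mul_assoc, h2, mul_one]
  refine (pow_left_inj₀ (FF_nonneg _ _ _) ?_ two_ne_zero).1 h3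
  unfold Ph
  positivity

/-- The map `c ↦ ∑ j, c j • D s (zv s j)` sends the kernel of the matrix onto `KK`. -/
theorem Bl.ker_le (h : Bl g κ) (hv : nr g x v = κ) (hJ : JS g x v J D B ε) (he : Fr g x v e)
    {s : ℝ} (hs : s ∈ Ioo 0 (π / 2)) : finrank ℝ (KK g (geo g x v s) (vl g x v s)) ≤
      finrank ℝ (LinearMap.ker (Matrix.toLin'
        (Sn g x v J ε e (s + π / 2) - Sn g x v J ε e s))) := by
  have hsI : s ∈ II := mem_lo hs.1 hs.2
  have htI : s + π / 2 ∈ II := mem_hi (by linarith [hs.1]) (by linarith [hs.2])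
  refine le_trans (Submodule.finrank_mono ?_) (Submodule.finrank_map_le
    (Fintype.linearCombination ℝ fun j => D s (zv g x v J ε e s j)) _)
  intro k hk
  obtain ⟨c, hc⟩ : ∃ c : K ⊕ H → ℝ, ∑ j, c j • D s (zv g x v J ε e s j) = k := by
    refine ⟨fun j => -g (geo g x v s) (JF g x v s (e j)) k, ?_⟩
    rw [← sub_eq_zero]
    refine eq_zero_of_perp h.toRM (vl_ne h hv s) (h.li_JF hv he hsI) (perp_JF h.toRM hJ he s)
      (card_eq he) ?_ fun i => ?_
    · simp only [map_sub, map_sum, map_smul, perp_w h hv hJ he hsI, h.KK_perp hk,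
        smul_zero, Finset.sum_const_zero, sub_zero]
    · rw [map_sub, pair_w h hv hJ he hsI, neg_neg, sub_self]
  refine ⟨c, ?_, by rw [Fintype.linearCombination_apply, hc]⟩
  have h1 : ∑ j, c j • JF g (geo g x v s) (vl g x v s) (s + π / 2 - s)
      (D s (zv g x v J ε e s j)) = 0 := by
    have h2 : dM E (ex g (geo g x v s)) ((π / 2) • vl g x v s) k = 0 := hk
    rw [add_sub_cancel_left]
    rw [← hc, map_sum] at h2
    simp only [JF, map_smul] at h2 ⊢
    rw [Finset.sum_congr rfl fun j _ => smul_comm _ _ _, ← Finset.smul_sum, h2, smul_zero]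
  simp only [JF_w h hv hJ he hsI htI, Finset.smul_sum, smul_smul] at h1
  rw [Finset.sum_comm] at h1
  simp only [← Finset.sum_smul] at h1
  have h3 := Fintype.linearIndependent_iff.1 (h.li_JF hv he htI) _ h1
  show Matrix.toLin' _ c = 0
  rw [Matrix.toLin'_apply, ← neg_eq_zero, ← Matrix.neg_mulVec]
  funext i
  rw [Pi.zero_apply, ← h3 i, Matrix.mulVec, dotProduct]
  exact Finset.sum_congr rfl fun j _ => mul_comm _ _

/-- `FF_eq`, `FF_per`. -/
theorem Bl.isL (h : Bl g κ) (hv : nr g x v = κ) (hJ : JS g x v J D B ε) (he : Fr g x v e)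
    {r : ℝ} (hr : r ∈ Ioo 0 (π / 2)) : IsL (Gn g x v J D e) (Sn g x v J ε e) r
      fun s => FF g (geo g x v s) (vl g x v s) r := by
  obtain ⟨r0, r1⟩ := hr
  have hp := pi_pos
  constructor
  · intro s hs ht
    have := h.FF_eq hv hJ he hs ht (by linarith)
    rwa [add_sub_cancel_left] at this
  · intro s hs
    obtain ⟨s0, s1⟩ := hs
    have h1 := h.FF_eq hv hJ he (mem_hi (t := s) (by linarith) s1)
      (mem_lo (t := s + r - π) (by linarith) (by linarith)) (by linarith)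
    have h2 := h.FF_per ((nr_vl' h.toRM x v s).trans hv) (t := s + r - π - s) (by linarith)
      (by linarith)
    rw [show s + r - π - s + π = r by ring] at h2
    rw [Ph_symm, ← h1, ← h2]

/-- Start the geodesic slightly earlier and use the symmetry of `Ph`. -/
theorem Bl.FF_symm (h : Bl g κ) (hv : nr g x v = κ) {r : ℝ} (hr : r ∈ Ioo 0 (π / 2)) :
    FF g (geo g x v r) (-vl g x v r) r = FF g x v r := by
  obtain ⟨r0, r1⟩ := hr
  obtain ⟨δ, hδ⟩ : ∃ δ : ℝ, δ = (π / 2 - r) / 2 := ⟨_, rfl⟩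
  have hv' := (nr_vl' h.toRM x v (-δ)).trans hv
  obtain ⟨J, D, B, ε, hJ⟩ := exists_JS h.toRM (geo g x v (-δ)) (vl g x v (-δ))
  obtain ⟨b, c, e, he⟩ := h.exists_Fr hv'
  have hs : δ ∈ II := mem_lo (by linarith) (by linarith)
  have ht : δ + r ∈ II := mem_lo (by linarith) (by linarith)
  have h1 := h.FF_eq hv' hJ he hs ht (by linarith)
  have h2 := h.FF_eq hv' hJ he ht hs (by linarith)
  rw [geo_flow h.toRM, vl_flow' h.toRM, neg_add_cancel, h.toRM.geo_zero, h.toRM.vl_zero,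
    add_sub_cancel_left] at h1
  rw [geo_flow h.toRM, vl_flow' h.toRM, neg_add_cancel_left, sub_add_cancel_left] at h2
  rw [FF_neg, h1, h2, Ph_symm]

end Vale.Agent.P231
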