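import Vale.Agent.P234.Defs

/-! Blaschke manifolds, compact rank one symmetric spaces and their volumes. -/

open scoped Manifold ContDiff Quaternion ENNReal NNReal LinearAlgebra.Projectivization
open MeasureTheory

namespace Vale.Agent.P231

open Vale.Agent.P255 Vale.Agent.P234

section Blaschke

variable {E : Type} [NormedAddCommGroup E] [NormedSpace ℝ E]
  {M : Type} [MetricSpace M] [ChartedSpace E M]

/-- The differential of `exp_x` at `v`. -/
noncomputable def dexp (g : M → E →L[ℝ] E →L[ℝ] ℝ) (x : M) (v : E) : E →L[ℝ] E :=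
  mfderiv 𝓘(ℝ, E) 𝓘(ℝ, E) (ex g x) v

/-- `exp_x` restricted to the open ball of radius `r` is a diffeomorphism onto its image: it is
injective there and its differential is bijective at every point of the ball. -/
def DiffeoOn (g : M → E →L[ℝ] E →L[ℝ] ℝ) (x : M) (r : ℝ) : Prop :=
  Set.InjOn (ex g x) {v | √(g x v v) < r} ∧
    ∀ v, √(g x v v) < r → Function.Bijective (dexp g x v)

/-- The injectivity radius at `x`. -/
noncomputable def injAt (g : M → E →L[ℝ] E →L[ℝ] ℝ) (x : M) : ℝ≥0∞ :=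
  ⨆ (r : ℝ≥0) (_ : DiffeoOn g x r), (r : ℝ≥0∞)

/-- Blaschke manifolds: positive dimension, injectivity radius equal to the diameter. -/
def IsBlaschke (g : M → E →L[ℝ] E →L[ℝ] ℝ) : Prop :=
  1 ≤ Module.finrank ℝ E ∧ ⨅ x, injAt g x = Metric.ediam (Set.univ : Set M)

end Blaschke

/-- The volume of the compact rank one symmetric space of dimension `n` and diameter `D` whose
cut loci have codimension `a`. -/
noncomputable def modelVol (n a : ℕ) (D : ℝ) : ℝ :=
  (2 * D / Real.pi) ^ n * (n * volume.real (Metric.ball (0 : EuclideanSpace ℝ (Fin n)) 1)) *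
    ∫ t in (0 : ℝ)..Real.pi / 2, Real.sin t ^ (n - 1) * Real.cos t ^ (a - 1)

/-- The Fubini-Study distance of two lines in `K ^ (k + 1)`. -/
noncomputable def fsDist {K : Type} [NormedDivisionRing K] [StarRing K] {k : ℕ}
    (p q : ℙ K (Fin (k + 1) → K)) : ℝ :=
  Real.arccos (‖∑ i, p.rep i * star (q.rep i)‖ /
    (√(∑ i, ‖p.rep i‖ ^ 2) * √(∑ i, ‖q.rep i‖ ^ 2)))

/-- Octonions as pairs of quaternions. -/
abbrev Oct : Type := ℍ[ℝ] × ℍ[ℝ]

/-- The Cayley-Dickson product. -/
noncomputable def omul (x y : Oct) : Oct :=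
  (x.1 * y.1 - star y.2 * x.2, y.2 * x.1 + x.2 * star y.1)

/-- Octonion conjugation. -/
noncomputable def oconj (x : Oct) : Oct := (star x.1, -x.2)

/-- The Euclidean inner product of octonions. -/
noncomputable def oinner (x y : Oct) : ℝ := inner ℝ x.1 y.1 + inner ℝ x.2 y.2

/-- The Cayley plane: Hermitian idempotent `3 × 3` octonion matrices of trace one. -/
def Cayley : Type :=
  {X : Fin 3 → Fin 3 → Oct // (∀ i j, X j i = oconj (X i j)) ∧
    (∀ i j, ∑ l, omul (X i l) (X l j) = X i j) ∧ ∑ i, (X i i).1.re = 1}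

/-- The standard distance of the Cayley plane, `cos² d(X,Y) = tr (X ∘ Y)`. -/
noncomputable def cayleyDist (X Y : Cayley) : ℝ :=
  Real.arccos √(∑ i, ∑ j, oinner (X.1 i j) (Y.1 i j))

/-- `M` is isometric, after scaling, to `X` with the distance function `d`. -/
def Homothetic (M : Type) [MetricSpace M] (X : Type) (d : X → X → ℝ) : Prop :=
  ∃ c > (0 : ℝ), ∃ f : M ≃ X, ∀ x y, d (f x) (f y) = c * dist x y

/-- `M` is isometric, after scaling, to a compact rank one symmetric space. -/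
def IsCross (M : Type) [MetricSpace M] : Prop :=
  (∃ k ≥ 1, Homothetic M (Metric.sphere (0 : EuclideanSpace ℝ (Fin (k + 1))) 1)
    fun x y => InnerProductGeometry.angle x.1 y.1) ∨
  (∃ k ≥ 1, Homothetic M (ℙ ℝ (Fin (k + 1) → ℝ)) fsDist) ∨
  (∃ k ≥ 1, Homothetic M (ℙ ℂ (Fin (k + 1) → ℂ)) fsDist) ∨
  (∃ k ≥ 1, Homothetic M (ℙ ℍ[ℝ] (Fin (k + 1) → ℍ[ℝ])) fsDist) ∨
  Homothetic M Cayley cayleyDist

end Vale.Agent.P231
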