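import Vale.Agent.P231.FibA

/-! The eikonal equation in the model. -/

open scoped Topology RealInnerProductSpace Quaternion LinearAlgebra.Projectivization
open Set Filter Real Module

set_option linter.unusedSectionVars false

namespace Vale.Agent.P231

variable {n a : ℕ} {P : Eu n →L[ℝ] Eu n →L[ℝ] Eu n →L[ℝ] Eu n}

theorem gm_symm (h : Fib P a) (y w w' : Eu n) : gm P y w w' = gm P y w' w := by
  have e : ⟪P y y w, w'⟫ = ⟪P y y w', w⟫ := by rw [h.adj, real_inner_comm]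
  simp only [gm, e, real_inner_comm w w']
  ring

namespace EikAux

theorem cc_hp (P : Eu n →L[ℝ] Eu n →L[ℝ] Eu n →L[ℝ] Eu n) (p : ℝ × Eu n) :
    (fun z => cc P p (hp z)) = fun z : Eu n => p.1 ^ 2 * cos ‖z‖ ^ 2 +
      2 * p.1 * (cos ‖z‖ * (sin ‖z‖ / ‖z‖) * ⟪p.2, z⟫) +
      (sin ‖z‖ / ‖z‖) ^ 2 * ⟪P p.2 p.2 z, z⟫ := by
  funext z
  simp only [cc, hp, map_smul, real_inner_smul_left, real_inner_smul_right]
  ring

theorem hasF_norm {z : Eu n} (hz : z ≠ 0) :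
    HasFDerivAt (fun z : Eu n => ‖z‖) (‖z‖⁻¹ • innerSL ℝ z) z := by
  have h0 : ‖z‖ ≠ 0 := norm_ne_zero_iff.2 hz
  have h1 := (hasStrictFDerivAt_norm_sq z).hasFDerivAt.sqrt (pow_ne_zero 2 h0)
  simp only [sqrt_sq (norm_nonneg _)] at h1
  refine h1.congr_fderiv ?_
  ext w
  simp only [smul_apply, smul_eq_mul, nsmul_eq_mul]
  field_simp
  norm_num

theorem fderiv_cc (h : Fib P a) (p : ℝ × Eu n) {θ : Eu n} (hθ : ‖θ‖ = 1) {s : ℝ} (hs : 0 < s)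
    (w : Eu n) : fderiv ℝ (fun z => cc P p (hp z)) (s • θ) w =
      (-2 * p.1 ^ 2 * cos s * sin s + 2 * p.1 * (cos s ^ 2 - sin s ^ 2) * ⟪p.2, θ⟫ +
        2 * sin s * cos s * ⟪P p.2 p.2 θ, θ⟫) * ⟪θ, w⟫ +
      (2 * p.1 * cos s * sin s * (⟪p.2, w⟫ - ⟪p.2, θ⟫ * ⟪θ, w⟫) +
        2 * sin s ^ 2 * (⟪P p.2 p.2 θ, w⟫ - ⟪P p.2 p.2 θ, θ⟫ * ⟪θ, w⟫)) / s := by
  have hn : ‖s • θ‖ = s := by rw [norm_smul, hθ, mul_one, Real.norm_of_nonneg hs.le]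
  have hz : s • θ ≠ 0 := by
    rw [← norm_ne_zero_iff, hn]; exact hs.ne'
  have hN := hasF_norm hz
  have hρ : HasDerivAt (fun t : ℝ => sin t / t) ((cos s * s - sin s * 1) / s ^ 2) ‖s • θ‖ := by
    rw [hn]; exact (hasDerivAt_sin s).div (hasDerivAt_id s) hs.ne'
  have hR := hρ.comp_hasFDerivAt (s • θ) hN
  have hC := (hasDerivAt_cos ‖s • θ‖).comp_hasFDerivAt (s • θ) hN
  have hA : HasFDerivAt (fun z : Eu n => ⟪p.2, z⟫) (innerSL ℝ p.2) (s • θ) :=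
    (innerSL ℝ p.2).hasFDerivAt
  have hB := ((P p.2 p.2).hasFDerivAt (x := s • θ)).inner ℝ (hasFDerivAt_id (s • θ))
  have hT := (((hC.pow 2).const_mul (p.1 ^ 2)).add (((hC.mul hR).mul hA).const_mul (2 * p.1))).add
    ((hR.pow 2).mul hB)
  have hE := (congrArg (fun f => fderiv ℝ f (s • θ)) (cc_hp P p)).trans hT.fderiv
  rw [hE]
  have e : ⟪P p.2 p.2 w, θ⟫ = ⟪P p.2 p.2 θ, w⟫ := by rw [h.adj, real_inner_comm]
  simp only [add_apply, smul_apply, Function.comp_apply,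
    Pi.mul_apply, innerSL_apply_apply, smul_eq_mul, nsmul_eq_mul, ContinuousLinearMap.comp_apply,
    ContinuousLinearMap.prod_apply, fderivInnerCLM_apply, ContinuousLinearMap.id_apply, id,
    map_smul, real_inner_smul_left, real_inner_smul_right, hn, e, Nat.add_one_sub_one, pow_one,
    Nat.cast_ofNat]
  field_simp
  ring

theorem gm_smul (P : Eu n →L[ℝ] Eu n →L[ℝ] Eu n →L[ℝ] Eu n) {θ : Eu n} (hθ : ‖θ‖ = 1) {s : ℝ}
    (hs : 0 < s) (w w' : Eu n) : gm P (s • θ) w w' = ⟪θ, w⟫ * ⟪θ, w'⟫ +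
      (sin s * cos s / s) ^ 2 * (⟪P θ θ w, w'⟫ - ⟪θ, w⟫ * ⟪θ, w'⟫) +
      (sin s / s) ^ 2 * (⟪w, w'⟫ - ⟪P θ θ w, w'⟫) := by
  have hn : ‖s • θ‖ = s := by rw [norm_smul, hθ, mul_one, Real.norm_of_nonneg hs.le]
  simp only [gm, hn, map_smul, smul_apply, real_inner_smul_left]
  field_simp

theorem gm_split (h : Fib P a) {θ : Eu n} (hθ : ‖θ‖ = 1) {s : ℝ} (hs : 0 < s) (hS : sin s ≠ 0)
    (hC : cos s ≠ 0) (c : ℝ) {w₁ w₂ : Eu n} (h₁ : ⟪θ, w₁⟫ = 0) (h₁' : P θ θ w₁ = w₁)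
    (h₂ : P θ θ w₂ = 0) (w' : Eu n) :
    gm P (s • θ) (c • θ + (s / (sin s * cos s) ^ 2) • w₁ + (s / sin s ^ 2) • w₂) w' =
      c * ⟪θ, w'⟫ + (⟪w₁, w'⟫ + ⟪w₂, w'⟫) / s := by
  have hP : P θ θ θ = θ := by rw [h.self, hθ]; simp
  have h₂' : ⟪θ, w₂⟫ = 0 := by rw [← hP, h.adj, h₂, inner_zero_right]
  have hθθ : ⟪θ, θ⟫ = 1 := by rw [real_inner_self_eq_norm_sq, hθ]; simp
  rw [gm_smul P hθ hs]
  simp only [map_add, map_smul, hP, h₁', h₂, inner_add_left, inner_add_right, real_inner_smul_left,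
    real_inner_smul_right, h₁, h₂', hθθ, smul_zero, inner_zero_left]
  field_simp
  ring

theorem alg {l C S α β N : ℝ} (hT : S ^ 2 + C ^ 2 = 1) (hN : l ^ 2 + N = 1) :
    (-2 * l ^ 2 * C * S + 2 * l * (C ^ 2 - S ^ 2) * α + 2 * S * C * β) ^ 2 +
      4 * l ^ 2 * (β - α ^ 2) + 4 * (l ^ 2 * C ^ 2 + 2 * l * C * S * α + S ^ 2 * β) * (N - β) =
      4 * (l ^ 2 * C ^ 2 + 2 * l * C * S * α + S ^ 2 * β) *
        (1 - (l ^ 2 * C ^ 2 + 2 * l * C * S * α + S ^ 2 * β)) := by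
  linear_combination (4 * (l ^ 2 * C ^ 2 + 2 * l * C * S * α + S ^ 2 * β) * (l ^ 2 + β) -
    4 * l ^ 2 * (β - α ^ 2) * (S ^ 2 + C ^ 2 + 1)) * hT +
    4 * (l ^ 2 * C ^ 2 + 2 * l * C * S * α + S ^ 2 * β) * hN

end EikAux

theorem contDiffAt_cc (p : ℝ × Eu n) {z : Eu n} (hz : z ≠ 0) :
    ContDiffAt ℝ 1 (fun z => cc P p (hp z)) z := by
  rw [EikAux.cc_hp]
  have hN : ContDiffAt ℝ 1 (fun z : Eu n => ‖z‖) z := contDiffAt_norm ℝ hz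
  have hR : ContDiffAt ℝ 1 (fun z : Eu n => sin ‖z‖ / ‖z‖) z :=
    hN.sin.div hN (norm_ne_zero_iff.2 hz)
  exact ((contDiffAt_const.mul (hN.cos.pow 2)).add (contDiffAt_const.mul
    ((hN.cos.mul hR).mul (contDiffAt_const.inner ℝ contDiffAt_id)))).add
    ((hR.pow 2).mul ((P p.2 p.2).contDiff.contDiffAt.inner ℝ contDiffAt_id))

/-- `z = s • θ`, `p = (l, ζ)`, `α = ⟪ζ, θ⟫`, `β = ⟪P ζ ζ θ, θ⟫`, `c = l² cos² s + 2 l cos s sin s α + sin² s β`.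
The gradient is `w = (∂ₛ c) • θ + (s / (sin s cos s)²) • w₁ + (s / sin² s) • w₂`, with
`w₁ = (2 l cos s sin s) • (P θ θ ζ - α • θ)`,
`w₂ = (2 l cos s sin s) • (ζ - P θ θ ζ) + (2 sin² s) • (P ζ ζ θ - β • θ)`;
`‖P θ θ ζ‖² = β`, `P θ θ (P ζ ζ θ) = β • θ`, `‖P ζ ζ θ‖² = ‖ζ‖² β`, `⟪ζ, P ζ ζ θ⟫ = ‖ζ‖² α`. -/
theorem Fib.eik (h : Fib P a) {p : ℝ × Eu n} (hp' : p ∈ Hs n) {z : Eu n} (hz : z ∈ Bo n) :
    ∃ w, (∀ w', fderiv ℝ (fun z => cc P p (hp z)) z w' = gm P z w w') ∧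
      gm P z w w = 4 * cc P p (hp z) * (1 - cc P p (hp z)) := by
  obtain ⟨l, ζ⟩ := p
  obtain ⟨hs, hs'⟩ := hz
  obtain ⟨-, hN⟩ := hp'
  simp only at hN
  obtain ⟨θ, hθ, hzθ⟩ : ∃ θ : Eu n, ‖θ‖ = 1 ∧ z = ‖z‖ • θ :=
    ⟨‖z‖⁻¹ • z, by rw [norm_smul, norm_inv, norm_norm, inv_mul_cancel₀ hs.ne'],
      by rw [smul_smul, mul_inv_cancel₀ hs.ne', one_smul]⟩
  generalize ‖z‖ = s at hs hs' hzθ
  subst hzθ
  have hS : sin s ≠ 0 := (sin_pos_of_pos_of_lt_pi hs (by linarith [pi_pos])).ne'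
  have hC : cos s ≠ 0 := (cos_pos_of_mem_Ioo ⟨by linarith, hs'⟩).ne'
  have hP : P θ θ θ = θ := by rw [h.self, hθ]; simp
  have hPP : ∀ u, P θ θ (P θ θ u) = P θ θ u := fun u => by rw [h.idem, hθ]; simp
  have hθθ : ⟪θ, θ⟫ = 1 := by rw [real_inner_self_eq_norm_sq, hθ]; simp
  set α := ⟪ζ, θ⟫ with hα
  set β := ⟪P ζ ζ θ, θ⟫ with hβ
  have hiso : P θ θ (P ζ ζ θ) = β • θ := by
    have := h.isocl ζ θ θ
    rwa [hP] at this
  have e1 : ⟪θ, P θ θ ζ⟫ = α := by rw [← h.adj, hP, hα, real_inner_comm]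
  have e1' : ⟪P θ θ ζ, θ⟫ = α := by rw [real_inner_comm, e1]
  have e2 : ⟪θ, ζ⟫ = α := by rw [hα, real_inner_comm]
  have e3 : ⟪θ, P ζ ζ θ⟫ = β := by rw [hβ, real_inner_comm]
  have e4 : ⟪P θ θ ζ, ζ⟫ = β := by rw [h.beta_symm]
  have e4' : ⟪ζ, P θ θ ζ⟫ = β := by rw [real_inner_comm, e4]
  have e5 : ⟪P θ θ ζ, P θ θ ζ⟫ = β := by rw [← h.adj, hPP, e4]
  have e6 : ⟪P θ θ ζ, P ζ ζ θ⟫ = β * α := by rw [h.adj, hiso, real_inner_smul_right]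
  have e6' : ⟪P ζ ζ θ, P θ θ ζ⟫ = β * α := by rw [real_inner_comm, e6]
  have e7 : ⟪ζ, P ζ ζ θ⟫ = ‖ζ‖ ^ 2 * α := by rw [← h.adj, h.self, real_inner_smul_left]
  have e7' : ⟪P ζ ζ θ, ζ⟫ = ‖ζ‖ ^ 2 * α := by rw [real_inner_comm, e7]
  have e8 : ⟪P ζ ζ θ, P ζ ζ θ⟫ = ‖ζ‖ ^ 2 * β := by rw [← h.adj, h.idem, real_inner_smul_left]
  have e9 : ⟪ζ, ζ⟫ = ‖ζ‖ ^ 2 := real_inner_self_eq_norm_sq ζ
  have key := EikAux.gm_split h hθ hs hS hC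
    (-2 * l ^ 2 * cos s * sin s + 2 * l * (cos s ^ 2 - sin s ^ 2) * α + 2 * sin s * cos s * β)
    (w₁ := (2 * l * cos s * sin s) • (P θ θ ζ - α • θ))
    (w₂ := (2 * l * cos s * sin s) • (ζ - P θ θ ζ) + (2 * sin s ^ 2) • (P ζ ζ θ - β • θ))
    (by simp only [real_inner_smul_right, inner_sub_right, e1, hθθ]; ring)
    (by simp only [map_smul, map_sub, hPP, hP])
    (by simp only [map_add, map_smul, map_sub, hPP, hP, hiso, sub_self, smul_zero, add_zero])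
  refine ⟨_, fun w' => ?_, (key _).trans ?_⟩
  · rw [key, EikAux.fderiv_cc h _ hθ hs]
    simp only [inner_add_left, inner_sub_left, real_inner_smul_left]
    ring
  · have hc : cc P (l, ζ) (hp (s • θ)) =
        l ^ 2 * cos s ^ 2 + 2 * l * cos s * sin s * α + sin s ^ 2 * β := by
      simp only [hp_smul hθ, cc, map_smul, real_inner_smul_left, real_inner_smul_right]
      ring
    rw [hc, ← EikAux.alg (sin_sq_add_cos_sq s) hN]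
    simp only [inner_add_left, inner_sub_left, real_inner_smul_left, inner_add_right,
      inner_sub_right, real_inner_smul_right, e1, e1', e2, e3, e4, e4', e5, e6, e6', e7, e7', e8, e9,
      hθθ, ← hα, ← hβ]
    field_simp
    ring

end Vale.Agent.P231
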