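import Vale.Agent.P231.Base

/-! Algebra of quadratic fibrations. -/

open scoped Topology RealInnerProductSpace Quaternion LinearAlgebra.Projectivization
open Set Filter Real Module

set_option linter.unusedSectionVars false

namespace Vale.Agent.P231

variable {n a : ℕ} {P : Eu n →L[ℝ] Eu n →L[ℝ] Eu n →L[ℝ] Eu n}

namespace FibAAux

theorem coef {V : Type} [AddCommGroup V] [Module ℝ V] {c₀ c₁ c₂ c₃ c₄ : V}
    (h : ∀ t : ℝ, c₀ + t • c₁ + t ^ 2 • c₂ + t ^ 3 • c₃ + t ^ 4 • c₄ = 0) : c₁ = 0 ∧ c₂ = 0 :=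
  ⟨by linear_combination (norm := module) (2 / 3 : ℝ) • h 1 - (2 / 3 : ℝ) • h (-1) -
      (1 / 12 : ℝ) • h 2 + (1 / 12 : ℝ) • h (-2),
    by linear_combination (norm := module) (2 / 3 : ℝ) • h 1 + (2 / 3 : ℝ) • h (-1) -
      (1 / 24 : ℝ) • h 2 - (1 / 24 : ℝ) • h (-2) - (5 / 4 : ℝ) • h 0⟩

theorem nsq (x y : Eu n) (t : ℝ) :
    ‖x + t • y‖ ^ 2 = ‖x‖ ^ 2 + 2 * t * ⟪x, y⟫ + t ^ 2 * ‖y‖ ^ 2 := by
  rw [norm_add_sq_real, norm_smul, real_inner_smul_right, mul_pow, Real.norm_eq_abs, sq_abs]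
  ring

theorem expand (h : Fib P a) (x y : Eu n) (t : ℝ) :
    P (x + t • y) (x + t • y) = P x x + (2 * t) • P x y + t ^ 2 • P y y := by
  simp only [map_add, map_smul, add_apply, smul_apply,
    h.symm y x]
  module

theorem idem2 (h : Fib P a) (x y z : Eu n) :
    (2 : ℝ) • (P x x (P x y z) + P x y (P x x z) - (⟪x, y⟫ • P x x z + ‖x‖ ^ 2 • P x y z)) = 0 ∧
    P x x (P y y z) + (4 : ℝ) • P x y (P x y z) + P y y (P x x z) -
      (‖x‖ ^ 2 • P y y z + (4 * ⟪x, y⟫) • P x y z + ‖y‖ ^ 2 • P x x z) = 0 := by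
  refine coef (c₀ := P x x (P x x z) - ‖x‖ ^ 2 • P x x z)
    (c₃ := (2 : ℝ) • (P y y (P x y z) + P x y (P y y z) -
      (⟪x, y⟫ • P y y z + ‖y‖ ^ 2 • P x y z)))
    (c₄ := P y y (P y y z) - ‖y‖ ^ 2 • P y y z) fun t => ?_
  have := h.idem (x + t • y) z
  rw [nsq, expand h] at this
  simp only [map_add, map_smul, add_apply,
    smul_apply] at this
  linear_combination (norm := module) this

theorem inner_PP (h : Fib P a) (x z w : Eu n) :
    ⟪P x x z, P x x w⟫ = ‖x‖ ^ 2 * ⟪P x x z, w⟫ := by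
  rw [← h.adj, h.idem, real_inner_smul_left]

theorem beta_bd (h : Fib P a) (x y : Eu n) :
    ⟪x, y⟫ ^ 2 ≤ ⟪P x x y, y⟫ ∧ ⟪P x x y, y⟫ ≤ ‖x‖ ^ 2 * ‖y‖ ^ 2 := by
  rcases eq_or_ne x 0 with rfl | hx
  · simp
  have h0 : 0 < ‖x‖ ^ 2 := by positivity
  have h1 : ‖P x x y‖ ^ 2 = ‖x‖ ^ 2 * ⟪P x x y, y⟫ := by
    rw [← real_inner_self_eq_norm_sq, inner_PP h]
  have h2 : ⟪P x x y, x⟫ = ‖x‖ ^ 2 * ⟪x, y⟫ := by
    rw [h.adj, h.self, real_inner_smul_right, real_inner_comm]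
  have h3 := nsq (P x x y) x (-⟪x, y⟫)
  have h4 := nsq (P x x y) y (-‖x‖ ^ 2)
  rw [h1] at h3 h4
  rw [h2] at h3
  refine ⟨le_of_mul_le_mul_left ?_ h0, le_of_mul_le_mul_left ?_ h0⟩
  · nlinarith [sq_nonneg ‖P x x y + -⟪x, y⟫ • x‖]
  · nlinarith [sq_nonneg ‖P x x y + -‖x‖ ^ 2 • y‖]

end FibAAux

open FibAAux

/-- Expand `idem`, `self` at `x + t • y` and compare coefficients (polynomial identities in `t`). -/
theorem Fib.d_self (h : Fib P a) (x y : Eu n) :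
    (2 : ℝ) • P x y x + P x x y = (2 * ⟪x, y⟫) • x + ‖x‖ ^ 2 • y := by
  refine sub_eq_zero.1 (coef (c₀ := P x x x - ‖x‖ ^ 2 • x)
    (c₂ := (2 : ℝ) • P x y y + P y y x - ((2 * ⟪x, y⟫) • y + ‖y‖ ^ 2 • x))
    (c₃ := P y y y - ‖y‖ ^ 2 • y) (c₄ := 0) fun t => ?_).1
  have := h.self (x + t • y)
  rw [nsq, expand h] at this
  simp only [map_add, map_smul, add_apply,
    smul_apply] at this
  linear_combination (norm := module) this

theorem Fib.d_idem (h : Fib P a) (x y z : Eu n) :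
    P x x (P x y z) + P x y (P x x z) = ⟪x, y⟫ • P x x z + ‖x‖ ^ 2 • P x y z := by
  linear_combination (norm := module) (1 / 2 : ℝ) • (idem2 h x y z).1

theorem Fib.d2_idem (h : Fib P a) (x y z : Eu n) :
    P x x (P y y z) + (4 : ℝ) • P x y (P x y z) + P y y (P x x z) =
      ‖x‖ ^ 2 • P y y z + (4 * ⟪x, y⟫) • P x y z + ‖y‖ ^ 2 • P x x z :=
  sub_eq_zero.1 (idem2 h x y z).2

/-- Inside a fibre (`fib` for `x + t • y`). -/
theorem Fib.in_fib (h : Fib P a) {x y : Eu n} (hy : P x x y = ‖x‖ ^ 2 • y) :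
    ‖x‖ ^ 2 • P x y = ⟪x, y⟫ • P x x := by
  have h1 := h.fib x (x + (1 : ℝ) • y) (by rw [map_add, map_smul, h.self, hy]; module)
  rw [nsq, expand h] at h1
  linear_combination (norm := module) (1 / 2 : ℝ) • h1 - (1 / 2 : ℝ) • h.fib x y hy

/-- Inner product of `d_self x y` with `y` and of `d_self y x` with `x`. (Also gives `perp`.) -/
theorem Fib.beta_symm (h : Fib P a) (x y : Eu n) : ⟪P x x y, y⟫ = ⟪P y y x, x⟫ := by
  have h1 := congrArg (⟪·, y⟫) (h.d_self x y)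
  have h2 := congrArg (⟪·, x⟫) (h.d_self y x)
  simp only [inner_add_left, real_inner_smul_left, real_inner_self_eq_norm_sq] at h1 h2
  rw [h.adj x y x y, real_inner_comm (P x y y) x] at h1
  rw [h.symm y x, real_inner_comm x y] at h2
  linear_combination h1 - h2

theorem Fib.perp (h : Fib P a) {x y : Eu n} (hx : x ≠ 0) (hy : P x x y = 0) : P y y x = 0 := by
  rw [← inner_self_eq_zero (𝕜 := ℝ), inner_PP h, ← h.beta_symm, hy, inner_zero_left, mul_zero]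

/-- The fibres are isoclinic: for `u` in the fibre of `y`, `⟪P x x u, u⟫ = ⟪P u u x, x⟫` and `fib`; polarize. -/
theorem Fib.isocl (h : Fib P a) (x y z : Eu n) :
    P y y (P x x (P y y z)) = ⟪P x x y, y⟫ • P y y z := by
  rcases eq_or_ne y 0 with rfl | hy
  · simp
  have h0 : ‖y‖ ^ 2 ≠ 0 := by positivity
  have k : ∀ u, ‖y‖ ^ 2 * ⟪P x x (P y y u), P y y u⟫ = ‖P y y u‖ ^ 2 * ⟪P x x y, y⟫ := fun u => by
    have := congrArg (fun T : Eu n →L[ℝ] Eu n => ⟪T x, x⟫) (h.fib y _ (h.idem y u))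
    simp only [smul_apply, real_inner_smul_left] at this
    rw [h.beta_symm x, h.beta_symm x, this]
  refine ext_inner_right ℝ fun w => mul_left_cancel₀ h0 ?_
  have h1 := k (z + w)
  simp only [map_add, inner_add_left, inner_add_right, norm_add_sq_real] at h1
  rw [h.adj x x (P y y w) (P y y z), real_inner_comm _ (P y y w), inner_PP h y z w] at h1
  rw [h.adj y y, real_inner_smul_left]
  linear_combination (1 / 2) * (h1 - k z - k w)

theorem Fib.trace (h : Fib P a) (x y : Eu n) :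
    ∑ i, ⟪P x x (EuclideanSpace.single i 1), P y y (EuclideanSpace.single i 1)⟫ =
      a * ⟪P x x y, y⟫ := by
  have key : ∀ y : Eu n, ‖y‖ = 1 →
      ∑ i, ⟪P x x (EuclideanSpace.single i 1), P y y (EuclideanSpace.single i 1)⟫ =
        a * ⟪P x x y, y⟫ := fun y hy => by
    set A : Eu n →ₗ[ℝ] Eu n := (P x x : Eu n →ₗ[ℝ] Eu n) with hA
    set B : Eu n →ₗ[ℝ] Eu n := (P y y : Eu n →ₗ[ℝ] Eu n) with hB
    have h1 : IsIdempotentElem B := LinearMap.ext fun z => by simpa [hB, hy] using h.idem y z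
    have h2 : B * (A * B) = ⟪P x x y, y⟫ • B := LinearMap.ext fun z => h.isocl x y z
    have h3 := LinearMap.trace_eq_sum_inner (A * B) (EuclideanSpace.basisFun (Fin n) ℝ)
    have h4 := LinearMap.trace_mul_comm ℝ B (A * B)
    rw [h2, mul_assoc, h1.eq, map_smul, (LinearMap.IsIdempotentElem.isProj_range _ h1).trace,
      h.rank y hy, h3] at h4
    rw [mul_comm, ← smul_eq_mul, h4]
    refine Finset.sum_congr rfl fun i _ => ?_
    rw [h.adj, EuclideanSpace.basisFun_apply]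
    rfl
  rcases eq_or_ne y 0 with rfl | hy
  · simp
  have h0 : ‖y‖ ≠ 0 := norm_ne_zero_iff.2 hy
  have h1 := key (‖y‖⁻¹ • y) (norm_smul_inv_norm hy)
  simp only [map_smul, smul_apply, real_inner_smul_left, real_inner_smul_right,
    ← Finset.mul_sum] at h1
  refine mul_left_cancel₀ (inv_ne_zero h0) (mul_left_cancel₀ (inv_ne_zero h0) ?_)
  linear_combination h1

theorem Fib.cc_symm (h : Fib P a) (p q : ℝ × Eu n) : cc P p q = cc P q p := by
  unfold cc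
  rw [h.beta_symm, real_inner_comm p.2 q.2]
  ring

theorem Fib.cc_self (h : Fib P a) {p : ℝ × Eu n} (hp : p ∈ Hs n) : cc P p p = 1 := by
  unfold cc
  rw [h.self, real_inner_smul_left, real_inner_self_eq_norm_sq]
  linear_combination (p.1 ^ 2 + ‖p.2‖ ^ 2 + 1) * hp.2

/-- For `q.2 = σ • θ`, `cc = ‖(p.1 q.1) • θ + σ • P θ θ p.2‖²`. -/
theorem Fib.cc_mem (h : Fib P a) {p q : ℝ × Eu n} (hp : p ∈ Hs n) (hq : q ∈ Hs n) :
    cc P p q ∈ Icc (0 : ℝ) 1 ∧ (0 < p.1 → cc P p q = 1 → p = q) := by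
  obtain ⟨s, x⟩ := p
  obtain ⟨t, y⟩ := q
  obtain ⟨p1, p2⟩ := hp
  obtain ⟨q1, q2⟩ := hq
  obtain ⟨b1, b2⟩ := beta_bd h x y
  simp only [cc] at *
  have h1 := nsq (s • y) x (-t)
  rw [norm_smul, real_inner_smul_left, mul_pow, Real.norm_eq_abs, sq_abs, real_inner_comm x y] at h1
  have h2 : (s ^ 2 + ‖x‖ ^ 2) * (t ^ 2 + ‖y‖ ^ 2) = 1 := by rw [p2, q2, mul_one]
  refine ⟨⟨by nlinarith [sq_nonneg (s * t + ⟪x, y⟫)], by nlinarith [sq_nonneg ‖s • y + -t • x‖]⟩,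
    fun hs hc => ?_⟩
  have h3 : s • y + -t • x = 0 := by
    rw [← norm_eq_zero, ← sq_eq_zero_iff]
    nlinarith [sq_nonneg ‖s • y + -t • x‖]
  have h4 : s • y = t • x := by linear_combination (norm := module) h3
  have h5 := congrArg (‖·‖ ^ 2) h4
  simp only [norm_smul, mul_pow, Real.norm_eq_abs, sq_abs] at h5
  have h6 : s = t := (sq_eq_sq₀ p1 q1).1 (by linear_combination t ^ 2 * p2 - s ^ 2 * q2 + h5)
  subst h6
  rw [smul_right_injective _ hs.ne' h4]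

/-- Entries `p.1²`, `p.1 * p.2 i` (twice), `⟪P p.2 p.2 eᵢ, eⱼ⟫ / √a`. -/
theorem Fib.exists_emb (h : Fib P a) (hn : 1 ≤ n) :
    ∃ Φ : ℝ × Eu n → EuclideanSpace ℝ (Option (Fin n) × Option (Fin n)), Continuous Φ ∧
      (∀ p q, ⟪Φ p, Φ q⟫ = cc P p q) ∧ ∀ p, Φ p (none, none) = p.1 ^ 2 := by
  have ha : (0 : ℝ) < a := by
    have h1 : ‖(EuclideanSpace.single ⟨0, hn⟩ 1 : Eu n)‖ = 1 := by simp
    rw [Nat.cast_pos, ← h.rank _ h1, Nat.pos_iff_ne_zero, Ne, Submodule.finrank_eq_zero,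
      LinearMap.range_eq_bot]
    intro h2
    have h3 := h.self (EuclideanSpace.single ⟨0, hn⟩ 1)
    rw [h1, one_pow, one_smul] at h3
    have h4 := LinearMap.congr_fun h2 (EuclideanSpace.single ⟨0, hn⟩ 1)
    rw [ContinuousLinearMap.coe_coe, h3] at h4
    rw [h4] at h1
    simp at h1
  refine ⟨fun p => WithLp.toLp 2 fun k => match k with
    | (none, none) => p.1 ^ 2
    | (none, some j) => p.1 * p.2 j
    | (some i, none) => p.1 * p.2 i
    | (some i, some j) => P p.2 p.2 (EuclideanSpace.single i 1) j / √a, ?_, fun p q => ?_,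
    fun _ => rfl⟩
  · refine (PiLp.continuous_toLp 2 _).comp (continuous_pi ?_)
    rintro ⟨_ | i, _ | j⟩ <;> dsimp only <;> fun_prop
  · have h1 := h.trace p.2 q.2
    have h2 : ∀ u v : ℝ, u / √a * (v / √a) = (a : ℝ)⁻¹ * (u * v) := fun u v => by
      rw [div_mul_div_comm, Real.mul_self_sqrt ha.le, div_eq_inv_mul]
    have h3 : ∀ u v : ℝ, q.1 * u * (p.1 * v) = p.1 * q.1 * (u * v) := fun u v => by ring
    unfold cc
    rw [← (inv_mul_eq_iff_eq_mul₀ ha.ne').2 h1]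
    simp only [PiLp.inner_apply, Fintype.sum_prod_type, Fintype.sum_option, RCLike.inner_apply,
      conj_trivial, h2, h3, ← Finset.mul_sum, Finset.sum_add_distrib]
    ring

theorem hp_mem {y : Eu n} (hy : ‖y‖ ≤ π / 2) : hp y ∈ Hs n := by
  refine ⟨cos_nonneg_of_neg_pi_div_two_le_of_le (by linarith [norm_nonneg y, pi_pos]) hy, ?_⟩
  rcases eq_or_ne y 0 with rfl | h0
  · simp [hp]
  · simp only [hp, norm_smul, mul_pow, Real.norm_eq_abs, sq_abs]
    rw [← mul_pow, div_mul_cancel₀ _ (norm_ne_zero_iff.2 h0), cos_sq_add_sin_sq]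

theorem hp_smul {θ : Eu n} (hθ : ‖θ‖ = 1) (t : ℝ) : hp (t • θ) = (cos t, sin t • θ) := by
  simp only [hp, norm_smul, hθ, mul_one, Real.norm_eq_abs, cos_abs, smul_smul]
  congr 2
  rcases lt_trichotomy t 0 with h | rfl | h
  · rw [abs_of_neg h, sin_neg, neg_div_neg_eq, div_mul_cancel₀ _ h.ne]
  · simp
  · rw [abs_of_pos h, div_mul_cancel₀ _ h.ne']

theorem continuous_hp : Continuous (hp : Eu n → ℝ × Eu n) := by
  have : (hp : Eu n → ℝ × Eu n) = fun y => (cos ‖y‖, sinc ‖y‖ • y) := by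
    funext y
    rcases eq_or_ne y 0 with rfl | h0
    · simp [hp]
    · rw [hp, sinc_of_ne_zero (norm_ne_zero_iff.2 h0)]
  rw [this]
  exact (continuous_cos.comp continuous_norm).prodMk
    ((continuous_sinc.comp continuous_norm).smul continuous_id)

theorem hp_surj {p : ℝ × Eu n} (hp' : p ∈ Hs n) : ∃ y, ‖y‖ ≤ π / 2 ∧ hp y = p := by
  obtain ⟨s, x⟩ := p
  obtain ⟨p1, p2⟩ := hp'
  simp only at p1 p2
  rcases eq_or_ne x 0 with rfl | h0
  · have : s = 1 := (sq_eq_sq₀ p1 zero_le_one).1 (by simpa using p2)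
    exact ⟨0, by simp; positivity, by simp [hp, this]⟩
  have h1 : s ≤ 1 := by nlinarith [sq_nonneg ‖x‖]
  have h2 : ‖‖x‖⁻¹ • x‖ = 1 := norm_smul_inv_norm h0
  refine ⟨arccos s • ‖x‖⁻¹ • x, ?_, ?_⟩
  · rw [norm_smul, h2, mul_one, Real.norm_of_nonneg (arccos_nonneg s)]
    exact arccos_le_pi_div_two.2 p1
  · rw [hp_smul h2, cos_arccos (by linarith) h1, sin_arccos,
      show 1 - s ^ 2 = ‖x‖ ^ 2 by linarith, sqrt_sq (norm_nonneg x),
      smul_inv_smul₀ (norm_ne_zero_iff.2 h0)]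

theorem hp_inj {y z : Eu n} (hy : ‖y‖ ≤ π / 2) (hz : ‖z‖ ≤ π / 2) (h : hp y = hp z) : y = z := by
  have h1 : ‖y‖ = ‖z‖ := injOn_cos ⟨norm_nonneg y, by linarith [pi_pos]⟩
    ⟨norm_nonneg z, by linarith [pi_pos]⟩ (congrArg Prod.fst h)
  rcases eq_or_ne z 0 with rfl | h0
  · simpa using h1
  have h2 := congrArg Prod.snd h
  simp only [hp, h1] at h2
  have h3 := norm_pos_iff.2 h0
  exact smul_right_injective _
    (div_pos (sin_pos_of_pos_of_lt_pi h3 (by linarith [pi_pos])) h3).ne' h2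

end Vale.Agent.P231
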