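import Vale.Agent.P231.Per

/-! Gram determinants and the density. -/

open scoped Manifold ContDiff Topology ENNReal RealInnerProductSpace
open Set Filter Real Module

set_option linter.unusedSectionVars false

namespace Vale.Agent.P231

open Vale.Agent.P255 Vale.Agent.P234

variable {E : Type} [NormedAddCommGroup E] [NormedSpace ℝ E] [FiniteDimensional ℝ E]
  {M : Type} [MetricSpace M] [CompactSpace M] [ChartedSpace E M] [IsManifold 𝓘(ℝ, E) ∞ M]
  {g : M → E →L[ℝ] E →L[ℝ] ℝ} {κ : ℝ}
  {K H : Type} [Fintype K] [Fintype H] [DecidableEq K] [DecidableEq H]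
  {ι : Type} [Fintype ι] [DecidableEq ι]

theorem gd_mul (G : E →L[ℝ] E →L[ℝ] ℝ) (f : ι → E) (A : Matrix ι ι ℝ) :
    gd G (fun j => ∑ i, A i j • f i) = A.det ^ 2 * gd G f := by
  have : (Matrix.of fun j k => G (∑ i, A i j • f i) (∑ i, A i k • f i)) =
      A.transpose * (Matrix.of fun i j => G (f i) (f j)) * A := by
    ext j k
    simp only [Matrix.of_apply, Matrix.mul_apply, Matrix.transpose_apply, map_sum, map_smul,
      sum_apply, smul_apply, smul_eq_mul, Finset.sum_mul,
      Finset.mul_sum]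
    refine Finset.sum_congr rfl fun l _ => Finset.sum_congr rfl fun i _ => by ring
  unfold gd
  rw [this, Matrix.det_mul, Matrix.det_mul, Matrix.det_transpose]
  ring

namespace GramAux

theorem herm (h : RM g) (x : M) (f : ι → E) :
    (Matrix.of fun i j => g x (f i) (f j)).IsHermitian := by
  ext i j
  simp only [Matrix.conjTranspose_apply, Matrix.of_apply, star_trivial]
  exact h.symm x _ _

theorem quad (G : E →L[ℝ] E →L[ℝ] ℝ) (f : ι → E) (c : ι → ℝ) :
    star c ⬝ᵥ (Matrix.mulVec (Matrix.of fun i j => G (f i) (f j)) c) =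
      G (∑ i, c i • f i) (∑ i, c i • f i) := by
  simp only [star_trivial, dotProduct, Matrix.mulVec, Matrix.of_apply, map_sum, map_smul,
    sum_apply, smul_apply, smul_eq_mul, Finset.mul_sum]
  rw [Finset.sum_comm]
  refine Finset.sum_congr rfl fun l _ => Finset.sum_congr rfl fun i _ => by ring

theorem g_nonneg (h : RM g) (x : M) (v : E) : 0 ≤ g x v v := by
  by_cases hv : v = 0
  · simp [hv]
  · exact (h.pos x v hv).le

theorem gd_equiv {ι' : Type} [Fintype ι'] [DecidableEq ι'] (G : E →L[ℝ] E →L[ℝ] ℝ) (f : ι → E)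
    (e : ι' ≃ ι) : gd G (fun i => f (e i)) = gd G f :=
  Matrix.det_submatrix_equiv_self e (Matrix.of fun i j => G (f i) (f j))

theorem gd_smul (G : E →L[ℝ] E →L[ℝ] ℝ) (f : ι → E) (t : ℝ) :
    gd G (fun i => t • f i) = (t ^ Fintype.card ι) ^ 2 * gd G f := by
  have : (Matrix.of fun j k => G (t • f j) (t • f k)) =
      (t ^ 2) • (Matrix.of fun i j => G (f i) (f j)) := by
    ext j k
    simp only [Matrix.of_apply, map_smul, smul_apply, smul_eq_mul,
      Matrix.smul_apply]
    ring
  unfold gd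
  rw [this, Matrix.det_smul, ← pow_mul, ← pow_mul, mul_comm 2]

theorem gd_block (G : E →L[ℝ] E →L[ℝ] ℝ) (v : E) (f : ι → E) (hp : ∀ i, G v (f i) = 0) :
    gd G (Sum.elim (fun _ : Unit => v) f) = G v v * gd G f := by
  have : (Matrix.of fun j k => G (Sum.elim (fun _ : Unit => v) f j)
      (Sum.elim (fun _ : Unit => v) f k)) =
      Matrix.fromBlocks (Matrix.of fun _ _ : Unit => G v v) 0
        (Matrix.of fun i _ => G (f i) v) (Matrix.of fun i j => G (f i) (f j)) := by
    ext j k
    rcases j with j | j <;> rcases k with k | k <;> simp [hp]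
  unfold gd
  rw [this, Matrix.det_fromBlocks_zero₁₂, Matrix.det_unique]
  rfl

theorem li_cons (h : RM g) {x : M} {v : E} (hv : v ≠ 0) {f : ι → E}
    (hf : LinearIndependent ℝ f) (hp : ∀ i, g x v (f i) = 0) :
    LinearIndependent ℝ (Sum.elim (fun _ : Unit => v) f) := by
  rw [Fintype.linearIndependent_iff] at hf ⊢
  intro c hc
  rw [Fintype.sum_sum_type] at hc
  simp only [Finset.univ_unique, Finset.sum_singleton, Sum.elim_inl, Sum.elim_inr] at hc
  have h1 := congrArg (g x v) hc
  simp only [map_add, map_smul, map_sum, hp, smul_eq_mul, mul_zero, Finset.sum_const_zero,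
    add_zero, map_zero] at h1
  have h2 : c (.inl default) = 0 := (mul_eq_zero.1 h1).resolve_right (h.pos x v hv).ne'
  rw [h2, zero_smul, zero_add] at hc
  rintro (i | i)
  · exact h2
  · exact hf (fun i => c (.inr i)) hc i

theorem li_of_on (G : E →L[ℝ] E →L[ℝ] ℝ) {f : ι → E}
    (hf : ∀ i j, G (f i) (f j) = if i = j then 1 else 0) : LinearIndependent ℝ f := by
  rw [Fintype.linearIndependent_iff]
  intro c hc j
  have h1 := congrArg (G (f j)) hc
  simpa [hf] using h1

theorem ne_zero (h : Bl g κ) {x : M} {v : E} (hv : nr g x v = κ) : v ≠ 0 := by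
  rintro rfl
  have := h.sq hv
  have h2 := h.kpos
  simp only [map_zero] at this
  nlinarith

end GramAux

open GramAux

theorem gram_posDef (h : RM g) (x : M) {f : ι → E} (hf : LinearIndependent ℝ f) :
    (Matrix.of fun i j => g x (f i) (f j)).PosDef := by
  refine Matrix.PosDef.of_dotProduct_mulVec_pos (herm h x f) fun c hc => ?_
  rw [quad]
  refine h.pos x _ fun h0 => hc ?_
  funext i
  exact Fintype.linearIndependent_iff.1 hf c h0 i

theorem gd_nonneg (h : RM g) (x : M) (f : ι → E) : 0 ≤ gd (g x) f := by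
  refine Matrix.PosSemidef.det_nonneg
    (Matrix.PosSemidef.of_dotProduct_mulVec_nonneg (herm h x f) fun c => ?_)
  rw [quad]
  exact g_nonneg h x _

theorem GramAux.gd_pos (h : RM g) (x : M) {f : ι → E} (hf : LinearIndependent ℝ f) :
    0 < gd (g x) f := (gram_posDef h x hf).det_pos

/-- The Jacobian can be computed in any basis. -/
theorem jac_sq (h : RM g) (x : M) (v : E) (b : Basis ι ℝ E) :
    jac g x v ^ 2 * gd (g x) b = gd (g (ex g x v)) fun i => dM E (ex g x) v (b i) := by
  set b0 := finBasis ℝ E with hb0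
  let e : ι ≃ Fin (finrank ℝ E) := b.indexEquiv b0
  let A : Matrix ι ι ℝ := fun i j => b0.repr (b j) (e i)
  have hA : ∀ j, b j = ∑ i, A i j • b0 (e i) := fun j => by
    rw [e.sum_comp fun k => b0.repr (b j) k • b0 k]
    exact (b0.sum_repr (b j)).symm
  have h1 : gd (g x) b = A.det ^ 2 * gd (g x) b0 := by
    rw [← gd_equiv (g x) b0 e, ← gd_mul]
    exact congrArg _ (funext hA)
  have h2 : (gd (g (ex g x v)) fun i => dM E (ex g x) v (b i)) =
      A.det ^ 2 * gd (g (ex g x v)) fun i => dM E (ex g x) v (b0 i) := by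
    rw [← gd_equiv (g (ex g x v)) (fun i => dM E (ex g x) v (b0 i)) e, ← gd_mul]
    refine congrArg _ (funext fun j => ?_)
    rw [hA j]
    simp only [map_sum, map_smul]
  have h3 := gd_pos h x b0.linearIndependent
  rw [h1, h2, jac, Real.sq_sqrt (div_nonneg (gd_nonneg h _ _) h3.le), ← hb0]
  field_simp

theorem jac_pos (h : RM g) {x : M} {v : E} (hv : NC g x v) : 0 < jac g x v := by
  refine Real.sqrt_pos.2 (div_pos (gd_pos h _ ?_) (gd_pos h x (finBasis ℝ E).linearIndependent))
  exact (finBasis ℝ E).linearIndependent.map' (dM E (ex g x) v : E →ₗ[ℝ] E)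
    (LinearMap.ker_eq_bot'.2 hv)

theorem FF_nonneg (x : M) (v : E) (t : ℝ) : 0 ≤ FF g x v t :=
  mul_nonneg (pow_nonneg (abs_nonneg t) _) (Real.sqrt_nonneg _)

theorem FF_neg (x : M) (v : E) (t : ℝ) : FF g x (-v) t = FF g x v (-t) := by
  rw [FF, FF, abs_neg, smul_neg, neg_smul]

theorem Bl.FF_pos (h : Bl g κ) {x : M} {v : E} (hv : nr g x v = κ) {t : ℝ}
    (ht : t ∈ Ioo 0 (π / 2)) : 0 < FF g x v t :=
  mul_pos (pow_pos (abs_pos.2 ht.1.ne') _)
    (jac_pos h.toRM (h.nc hv (by rw [abs_of_pos ht.1]; exact ht.2)))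

/-- `jac_sq` for the basis `(v, f)`; both Gram matrices are block diagonal (`gauss`, `dM_ex_self`). -/
theorem FF_sq (h : RM g) {x : M} {v : E} (hv : v ≠ 0) {f : ι → E} (hf : LinearIndependent ℝ f)
    (hp : ∀ i, g x v (f i) = 0) (hc : Fintype.card ι + 1 = finrank ℝ E) {t : ℝ} (ht : t ≠ 0) :
    FF g x v t ^ 2 * gd (g x) f = gd (g (geo g x v t)) fun i => JF g x v t (f i) := by
  have hc' : Fintype.card (Unit ⊕ ι) = finrank ℝ E := by
    rw [Fintype.card_sum, Fintype.card_unit, ← hc, add_comm]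
  have h1 := jac_sq h x (t • v)
    (basisOfLinearIndependentOfCardEqFinrank' _ (li_cons h hv hf hp) hc')
  rw [coe_basisOfLinearIndependentOfCardEqFinrank', gd_block _ _ _ hp] at h1
  have h2 : (fun i => dM E (ex g x) (t • v) (Sum.elim (fun _ : Unit => v) f i)) =
      Sum.elim (fun _ : Unit => vl g x v t) fun i => dM E (ex g x) (t • v) (f i) := by
    funext i
    rcases i with i | i
    · exact h.dM_ex_self x v t
    · rfl
  have h3 : ∀ i, g (ex g x (t • v)) (vl g x v t) (dM E (ex g x) (t • v) (f i)) = 0 := fun i => by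
    have := h.gauss x (t • v) (f i)
    rw [h.vl_smul, mul_one] at this
    simp only [map_smul, smul_apply, smul_eq_mul, hp, mul_zero] at this
    exact (mul_eq_zero.1 this).resolve_left ht
  rw [h2, gd_block _ _ _ h3, h.energy] at h1
  have h4 : jac g x (t • v) ^ 2 * gd (g x) f =
      gd (g (ex g x (t • v))) fun i => dM E (ex g x) (t • v) (f i) := by
    refine mul_left_cancel₀ (h.pos x v hv).ne' ?_
    rw [← h1]
    ring
  have h5 : (fun i => JF g x v t (f i)) = fun i => t • dM E (ex g x) (t • v) (f i) := by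
    funext i
    rw [JF, map_smul]
  rw [h5, gd_smul, h.geo_eq, ← h4, FF, ← hc, Nat.add_sub_cancel, mul_pow, ← abs_pow, sq_abs]
  ring

theorem Bl.exists_Fr (h : Bl g κ) {x : M} {v : E} (hv : nr g x v = κ) :
    ∃ (b c : ℕ) (e : Fin b ⊕ Fin c → E), Fr g x v e := by
  obtain ⟨j, hj⟩ := exists_iso h.toRM x one_pos
  simp only [one_pow, one_mul] at hj
  set u := j.symm v with hu
  have hju : j u = v := j.apply_symm_apply v
  have hu0 : u ≠ 0 := fun h0 => ne_zero h hv (by rw [← hju, h0, map_zero])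
  let K' : Submodule ℝ (Eu (finrank ℝ E)) := (KK g x v).map (j.symm : E →ₗ[ℝ] Eu (finrank ℝ E))
  have hK' : ∀ a ∈ K', j a ∈ KK g x v := by
    rintro _ ⟨k, hk, rfl⟩
    simpa using hk
  have hrk : finrank ℝ K' = finrank ℝ (KK g x v) :=
    LinearEquiv.finrank_map_eq j.symm.toLinearEquiv _
  have hperp : ∀ a ∈ K', ⟪u, a⟫ = 0 := fun a ha => by
    rw [← hj, hju]
    exact h.KK_perp (hK' a ha)
  let W : Submodule ℝ (Eu (finrank ℝ E)) := (K' ⊔ Submodule.span ℝ {u})ᗮ
  have hW : ∀ a ∈ K' ⊔ Submodule.span ℝ {u}, ∀ w ∈ W, ⟪a, w⟫ = 0 := fun a ha w hw =>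
    Submodule.inner_right_of_mem_orthogonal ha hw
  have hdis : K' ⊓ Submodule.span ℝ {u} = ⊥ := by
    rw [eq_bot_iff]
    rintro a ⟨ha, ha'⟩
    obtain ⟨c, rfl⟩ := Submodule.mem_span_singleton.1 ha'
    have := hperp _ ha
    rw [inner_smul_right, mul_eq_zero, inner_self_eq_zero] at this
    rw [this.resolve_right hu0, zero_smul]
    exact Submodule.zero_mem _
  have hsum : finrank ℝ K' + finrank ℝ W + 1 = finrank ℝ E := by
    have h1 := Submodule.finrank_sup_add_finrank_inf_eq K' (Submodule.span ℝ {u})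
    rw [hdis, finrank_bot, finrank_span_singleton hu0] at h1
    have h2 := Submodule.finrank_add_finrank_orthogonal (K' ⊔ Submodule.span ℝ {u})
    rw [finrank_euclideanSpace_fin] at h2
    change finrank ℝ K' + finrank ℝ (K' ⊔ Submodule.span ℝ {u})ᗮ + 1 = _
    omega
  let bK := stdOrthonormalBasis ℝ K'
  let bW := stdOrthonormalBasis ℝ W
  refine ⟨finrank ℝ K', finrank ℝ W, Sum.elim (fun i => j (bK i)) fun i => j (bW i), ?_, ?_, ?_, ?_,
    ?_⟩
  · rintro (i | i) (k | k)
    · simp only [Sum.elim_inl, hj, Sum.inl.injEq]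
      exact orthonormal_iff_ite.1 bK.orthonormal i k
    · simp only [Sum.elim_inl, Sum.elim_inr, hj, reduceCtorEq, if_false]
      exact hW _ (Submodule.mem_sup_left (bK i).2) _ (bW k).2
    · simp only [Sum.elim_inl, Sum.elim_inr, hj, reduceCtorEq, if_false]
      rw [real_inner_comm]
      exact hW _ (Submodule.mem_sup_left (bK k).2) _ (bW i).2
    · simp only [Sum.elim_inr, hj, Sum.inr.injEq]
      exact orthonormal_iff_ite.1 bW.orthonormal i k
  · rintro (i | i)
    · exact h.KK_perp (hK' _ (bK i).2)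
    · rw [Sum.elim_inr, ← hju, hj]
      exact hW _ (Submodule.mem_sup_right (Submodule.mem_span_singleton_self u)) _ (bW i).2
  · rw [Fintype.card_fin, Fintype.card_fin, hsum]
  · rw [Fintype.card_fin, hrk]
  · exact fun i => hK' _ (bK i).2

theorem Fr.li (h : RM g) {x : M} {v : E} {e : K ⊕ H → E} (he : Fr g x v e) :
    LinearIndependent ℝ e := by
  have _ := h
  exact li_of_on (g x) he.on

theorem GramAux.zero_of_perp (h : RM g) {x : M} {v : E} (hv : v ≠ 0) {f : ι → E}
    (hf : LinearIndependent ℝ f) (hp : ∀ i, g x v (f i) = 0)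
    (hc : Fintype.card ι + 1 = finrank ℝ E) {w : E} (hw : g x v w = 0) (hw' : ∀ i, g x (f i) w = 0) :
    w = 0 := by
  have hc' : Fintype.card (Unit ⊕ ι) = finrank ℝ E := by
    rw [Fintype.card_sum, Fintype.card_unit, ← hc, add_comm]
  have h1 := (basisOfLinearIndependentOfCardEqFinrank' _ (li_cons h hv hf hp) hc').sum_repr w
  rw [coe_basisOfLinearIndependentOfCardEqFinrank'] at h1
  by_contra h0
  refine (h.pos x w h0).ne' ?_
  have h2 := congrArg (fun z => g x z w) h1
  simp only [map_sum, map_smul, sum_apply, smul_apply,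
    smul_eq_mul] at h2
  rw [← h2]
  refine Finset.sum_eq_zero ?_
  rintro (i | i) -
  · rw [Sum.elim_inl, hw, mul_zero]
  · rw [Sum.elim_inr, hw', mul_zero]

/-- Expansion of normal vectors. -/
theorem Fr.expand (h : RM g) {x : M} {v : E} (hv : v ≠ 0) {e : K ⊕ H → E} (he : Fr g x v e) {w : E}
    (hw : g x v w = 0) : w = ∑ i, g x (e i) w • e i := by
  refine sub_eq_zero.1 (zero_of_perp h hv (he.li h) he.perp
    (by rw [Fintype.card_sum]; exact he.card) ?_ fun i => ?_)
  · simp [hw, he.perp]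
  · simp only [map_sub, map_sum, map_smul, he.on, smul_eq_mul, mul_ite, mul_one, mul_zero,
      Finset.sum_ite_eq, Finset.mem_univ, if_true, sub_self]

theorem Fr.expandK (h : RM g) {x : M} {v : E} {e : K ⊕ H → E} (he : Fr g x v e) {w : E}
    (hw : w ∈ KK g x v) : w = ∑ i, g x (e (.inl i)) w • e (.inl i) := by
  have hli : LinearIndependent ℝ fun i => e (.inl i) := (he.li h).comp _ Sum.inl_injective
  have hsp : Submodule.span ℝ (range fun i => e (.inl i)) = KK g x v := by
    refine Submodule.eq_of_le_of_finrank_eq ?_ ?_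
    · rw [Submodule.span_le]
      rintro _ ⟨i, rfl⟩
      exact he.memK i
    · rw [finrank_span_eq_card hli, he.cardK]
  rw [← hsp, Submodule.mem_span_range_iff_exists_fun] at hw
  obtain ⟨c, rfl⟩ := hw
  refine Finset.sum_congr rfl fun i _ => ?_
  simp [he.on]

/-- A vector orthogonal to `v` and to `finrank - 1` independent normal vectors vanishes. -/
theorem eq_zero_of_perp (h : RM g) {x : M} {v : E} (hv : v ≠ 0) {f : ι → E}
    (hf : LinearIndependent ℝ f) (hp : ∀ i, g x v (f i) = 0)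
    (hc : Fintype.card ι + 1 = finrank ℝ E) {w : E} (hw : g x v w = 0) (hw' : ∀ i, g x (f i) w = 0) :
    w = 0 := zero_of_perp h hv hf hp hc hw hw'

theorem Bl.FF_per (h : Bl g κ) {x : M} {v : E} (hv : nr g x v = κ) {t : ℝ} (ht : t ≠ 0)
    (ht' : t + π ≠ 0) : FF g x v (t + π) = FF g x v t := by
  obtain ⟨b, c, e, he⟩ := h.exists_Fr hv
  have hc : Fintype.card (Fin b ⊕ Fin c) + 1 = finrank ℝ E := by
    rw [Fintype.card_sum]; exact he.card
  have h1 := FF_sq h.toRM (ne_zero h hv) (he.li h.toRM) he.perp hc ht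
  have h2 := FF_sq h.toRM (ne_zero h hv) (he.li h.toRM) he.perp hc ht'
  rw [h.geo_per hv, funext fun i => h.JF_per hv (he.perp i) t, ← h1] at h2
  exact (pow_left_inj₀ (FF_nonneg _ _ _) (FF_nonneg _ _ _) two_ne_zero).1
    (mul_right_cancel₀ (gd_pos h.toRM x (he.li h.toRM)).ne' h2)

end Vale.Agent.P231
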