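import Vale.Agent.P231.Polar
import Vale.Agent.P231.DataC

/-! Invariance of the Liouville measure. -/

open scoped Manifold ContDiff Topology ENNReal RealInnerProductSpace
open Set Filter Real Module

set_option linter.unusedSectionVars false

namespace Vale.Agent.P231

open Vale.Agent.P255 Vale.Agent.P234

variable {E : Type} [NormedAddCommGroup E] [NormedSpace ℝ E] [FiniteDimensional ℝ E]
  {M : Type} [MetricSpace M] [CompactSpace M] [ChartedSpace E M] [IsManifold 𝓘(ℝ, E) ∞ M]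
  {g : M → E →L[ℝ] E →L[ℝ] ℝ} {κ : ℝ}
  [MeasurableSpace M] [BorelSpace M]

open MeasureTheory

namespace InvAux

theorem swap_mem {p : M × M} : p.swap ∈ Om M κ ↔ p ∈ Om M κ := by
  simp only [Om, mem_ofPred_eq, Prod.fst_swap, Prod.snd_swap, dist_comm p.2 p.1]

theorem tt_swap (p : M × M) : tt κ p.swap = tt κ p := by
  simp only [tt, Prod.fst_swap, Prod.snd_swap, dist_comm p.2 p.1]

theorem mem_Om (hκ : 0 < κ) {p : M × M} : p ∈ Om M κ ↔ tt κ p ∈ Ioo 0 (π / 2) := by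
  simp only [Om, tt, mem_ofPred_eq, mem_Ioo, div_lt_iff₀ hκ, div_pos_iff_of_pos_right hκ]

theorem measurable_tt : Measurable (tt κ : M × M → ℝ) :=
  (continuous_dist.div_const κ).measurable

theorem meas_mv (h : Bl g κ) (s s' : ℝ) : Measurable (mv g κ s s') :=
  h.measurable_mv.comp (measurable_prodMk_left (x := (s, s')))

/-- the reversed geodesic -/
theorem geo_back (h : RM g) (x : M) (v : E) (r t : ℝ) :
    geo g (geo g x v r) (-vl g x v r) t = geo g x v (r - t) := by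
  rw [geo_neg h, geo_flow h, sub_eq_add_neg]

theorem exists_rep (h : Bl g κ) {p : M × M} (hp : p ∈ Om M κ) :
    ∃ x v t, nr g x v = κ ∧ t ∈ Ioo 0 (π / 2) ∧ p = (x, geo g x v t) ∧ tt κ p = t := by
  obtain ⟨h1, h2, h3⟩ := h.dir_spec hp
  exact ⟨p.1, dir g κ p, tt κ p, h1, h3, by rw [h2], rfl⟩

theorem nr_iota (h : Bl g κ) {x : M} {ι : Eu (finrank ℝ E) ≃L[ℝ] E}
    (hι : ∀ a b, g x (ι a) (ι b) = κ ^ 2 * ⟪a, b⟫)
    (θ : Metric.sphere (0 : Eu (finrank ℝ E)) 1) : nr g x (ι θ) = κ := by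
  rw [nr, hι, real_inner_self_eq_norm_sq, norm_eq_of_mem_sphere θ, one_pow, mul_one,
    Real.sqrt_sq h.kpos.le]

theorem int_ind {a b : ℝ} (ha : 0 ≤ a) (hb : b ≤ π / 2) {f f' : ℝ → ℝ≥0∞}
    (hf : ∀ t ∈ Ioo 0 (π / 2), f t = (Ioo a b).indicator f' t) :
    ∫⁻ t in Ioo 0 (π / 2), f t = ∫⁻ t, (Ioo a b).indicator f' t := by
  rw [setLIntegral_congr_fun measurableSet_Ioo hf, ← lintegral_indicator measurableSet_Ioo,
    indicator_indicator, inter_eq_self_of_subset_right (Ioo_subset_Ioo ha hb)]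

theorem mv_mv (h : Bl g κ) {p : M × M} (hp : p ∈ Om M κ) (s a : ℝ) :
    mv g κ a a (mv g κ s s p) = mv g κ (s + a) (s + a) p := by
  obtain ⟨x, v, t, hv, ht, rfl, -⟩ := exists_rep h hp
  have hw : nr g (geo g x v s) (vl g x v s) = κ := by rw [nr_vl' h.toRM, hv]
  rw [h.mv_geo hv ht, h.mv_geo hv ht, add_comm t s, ← geo_flow h.toRM x v s t, h.mv_geo hw ht,
    geo_flow h.toRM, geo_flow h.toRM]
  rw [show s + (t + a) = t + (s + a) by ring]

theorem mv_zero (h : Bl g κ) (p : M × M) : mv g κ 0 0 p = p := by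
  by_cases hp : p ∈ Om M κ
  · obtain ⟨x, v, t, hv, ht, rfl, -⟩ := exists_rep h hp
    rw [h.mv_geo hv ht, h.toRM.geo_zero, add_zero]
  · rw [mv, if_neg hp]

theorem tt_mv (h : Bl g κ) (p : M × M) (s : ℝ) : tt κ (mv g κ s s p) = tt κ p := by
  by_cases hp : p ∈ Om M κ
  · obtain ⟨x, v, t, hv, ht, rfl, h1⟩ := exists_rep h hp
    have hw : nr g (geo g x v s) (vl g x v s) = κ := by rw [nr_vl' h.toRM, hv]
    rw [h1, h.mv_geo hv ht, add_comm t s, ← geo_flow h.toRM x v s t]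
    exact (h.dir_geo hw ht).2.2
  · rw [mv, if_neg hp]

theorem mv_split (h : Bl g κ) {p : M × M} {s c : ℝ} (hs : 0 ≤ s) (hc : c + s ≤ π / 2)
    (hp : tt κ p ∈ Ioo 0 c) : mv g κ s s p = (mv g κ 0 (-s) (mv g κ 0 s p).swap).swap := by
  have hp' : p ∈ Om M κ := (mem_Om h.kpos).2 ⟨hp.1, by linarith [hp.2]⟩
  obtain ⟨x, v, t, hv, ht, rfl, h1⟩ := exists_rep h hp'
  rw [h1] at hp
  have ht' : t + s ∈ Ioo 0 (π / 2) := ⟨by linarith [hp.1], by linarith [hp.2]⟩
  have hw : nr g (geo g x v (t + s)) (-vl g x v (t + s)) = κ := by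
    rw [nr_neg, nr_vl' h.toRM, hv]
  have h2 : geo g x v 0 = geo g (geo g x v (t + s)) (-vl g x v (t + s)) (t + s) := by
    rw [geo_back h.toRM, sub_self]
  rw [h.mv_geo hv ht, h.mv_geo hv ht, Prod.swap_prod_mk (a := geo g x v 0), h2, h.mv_geo hw ht',
    Prod.swap_prod_mk, geo_back h.toRM, geo_back h.toRM, sub_zero,
    show t + s - (t + s + -s) = s by ring]

end InvAux

open InvAux

/-- `FF_symm`, `dir_geo`. -/
theorem Bl.Fp_swap (h : Bl g κ) (p : M × M) : Fp g κ p.swap = Fp g κ p := by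
  by_cases hp : p ∈ Om M κ
  · obtain ⟨x, v, t, hv, ht, rfl, -⟩ := exists_rep h hp
    have hw : nr g (geo g x v t) (-vl g x v t) = κ := by rw [nr_neg, nr_vl' h.toRM, hv]
    have h2 : x = geo g (geo g x v t) (-vl g x v t) t := by
      rw [geo_back h.toRM, sub_self, h.toRM.geo_zero]
    obtain ⟨a1, a2, a3⟩ := h.dir_geo hw ht
    obtain ⟨b1, b2, b3⟩ := h.dir_geo hv ht
    rw [← h2] at a1 a2 a3
    rw [Prod.swap_prod_mk, Fp, Fp, if_pos a1, if_pos b1, a2, a3, b2, b3]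
    exact h.FF_symm hv ht
  · rw [Fp, Fp, if_neg hp, if_neg fun h' => hp (swap_mem.1 h')]

theorem Bl.nu_swap (h : Bl g κ) {φ : M × M → ℝ≥0∞} (hφ : Measurable φ) :
    ∫⁻ p, φ p.swap ∂nu g κ = ∫⁻ p, φ p ∂nu g κ := by
  have : Fact ((μHE[finrank ℝ E] : Measure M) univ ≠ ⊤) := ⟨h.vol_fin.1⟩
  have hf : Measurable fun p : M × M => ENNReal.ofReal (Fp g κ p)⁻¹ :=
    h.measurable_Fp.inv.ennreal_ofReal
  have hO : MeasurableSet (Om M κ) := isOpen_Om.measurableSet
  rw [nu, lintegral_withDensity_eq_lintegral_mul _ hf hφ,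
    lintegral_withDensity_eq_lintegral_mul _ hf (g := fun p => φ p.swap) (hφ.comp measurable_swap),
    ← lintegral_indicator hO, ← lintegral_indicator hO, ← lintegral_prod_swap]
  refine lintegral_congr fun p => ?_
  by_cases hp : p ∈ Om M κ
  · rw [indicator_of_mem hp, indicator_of_mem (swap_mem.2 hp), Pi.mul_apply, Pi.mul_apply,
      h.Fp_swap, Prod.swap_swap]
  · rw [indicator_of_notMem hp, indicator_of_notMem fun h' => hp (swap_mem.1 h')]

/-- Translation of the radial variable in `lintegral_nu`. -/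
theorem Bl.nu_ext (h : Bl g κ) {φ : M × M → ℝ≥0∞} (hφ : Measurable φ) (s : ℝ) {a b : ℝ}
    (ha : 0 ≤ a) (hb : b ≤ π / 2) (ha' : 0 ≤ a + s) (hb' : b + s ≤ π / 2) :
    ∫⁻ p, (tt κ ⁻¹' Ioo a b).indicator (fun p => φ (mv g κ 0 s p)) p ∂nu g κ =
      ∫⁻ p, (tt κ ⁻¹' Ioo (a + s) (b + s)).indicator φ p ∂nu g κ := by
  choose ι hι using fun x => exists_iso h.toRM x h.kpos
  rw [h.lintegral_nu hι (Measurable.indicator (f := fun p => φ (mv g κ 0 s p))
      (hφ.comp (meas_mv h 0 s)) (measurable_tt measurableSet_Ioo)),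
    h.lintegral_nu hι (hφ.indicator (measurable_tt measurableSet_Ioo))]
  refine lintegral_congr fun x => congrArg _ (lintegral_congr fun θ => ?_)
  have hv := nr_iota h (hι x) θ
  rw [int_ind ha hb (f' := fun t => φ (x, geo g x (ι x θ) (t + s))),
    int_ind ha' hb' (f' := fun t => φ (x, geo g x (ι x θ) t)),
    ← lintegral_add_right_eq_self
      ((Ioo (a + s) (b + s)).indicator fun t => φ (x, geo g x (ι x θ) t)) s]
  · refine lintegral_congr fun t => ?_
    by_cases ht : t ∈ Ioo a b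
    · rw [indicator_of_mem ht, indicator_of_mem (show t + s ∈ Ioo (a + s) (b + s) from
        ⟨by linarith [ht.1], by linarith [ht.2]⟩)]
    · rw [indicator_of_notMem ht, indicator_of_notMem fun h' : t + s ∈ Ioo (a + s) (b + s) =>
        ht ⟨by linarith [h'.1], by linarith [h'.2]⟩]
  · intro t ht
    have h1 := (h.dir_geo hv ht).2.2
    by_cases h2 : t ∈ Ioo (a + s) (b + s)
    · rw [indicator_of_mem h2, indicator_of_mem (by rw [mem_preimage, h1]; exact h2)]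
    · rw [indicator_of_notMem h2, indicator_of_notMem (by rw [mem_preimage, h1]; exact h2)]
  · intro t ht
    have h1 := (h.dir_geo hv ht).2.2
    by_cases h2 : t ∈ Ioo a b
    · rw [indicator_of_mem h2, indicator_of_mem (by rw [mem_preimage, h1]; exact h2),
        h.mv_geo hv ht, h.toRM.geo_zero]
    · rw [indicator_of_notMem h2, indicator_of_notMem (by rw [mem_preimage, h1]; exact h2)]

namespace InvAux

theorem swap_ind (h : Bl g κ) {φ : M × M → ℝ≥0∞} (hφ : Measurable φ) (a b : ℝ) :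
    ∫⁻ p, (tt κ ⁻¹' Ioo a b).indicator (fun p => φ p.swap) p ∂nu g κ =
      ∫⁻ p, (tt κ ⁻¹' Ioo a b).indicator φ p ∂nu g κ := by
  rw [← h.nu_swap (hφ.indicator (measurable_tt measurableSet_Ioo))]
  refine lintegral_congr fun p => ?_
  by_cases hp : p ∈ tt κ ⁻¹' Ioo a b
  · rw [indicator_of_mem hp, indicator_of_mem (by rw [mem_preimage, tt_swap]; exact hp)]
  · rw [indicator_of_notMem hp, indicator_of_notMem (by rw [mem_preimage, tt_swap]; exact hp)]

theorem small (h : Bl g κ) {φ : M × M → ℝ≥0∞} (hφ : Measurable φ) {s c : ℝ} (hs : 0 ≤ s)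
    (hc : c + s ≤ π / 2) :
    ∫⁻ p, (tt κ ⁻¹' Ioo 0 c).indicator (fun p => φ (mv g κ s s p)) p ∂nu g κ =
      ∫⁻ p, (tt κ ⁻¹' Ioo 0 c).indicator φ p ∂nu g κ := by
  have m1 : Measurable fun p : M × M => φ p.swap := hφ.comp measurable_swap
  have m2 : Measurable fun p : M × M => φ (mv g κ 0 (-s) p).swap :=
    m1.comp (meas_mv h 0 (-s))
  have m3 : Measurable fun p : M × M => φ (mv g κ 0 (-s) p.swap).swap := m2.comp measurable_swap
  have e1 := h.nu_ext m3 s (a := 0) (b := c) le_rfl (by linarith) (by linarith) hc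
  have e2 := swap_ind h m2 (0 + s) (c + s)
  have e3 := h.nu_ext m1 (-s) (a := 0 + s) (b := c + s) (by linarith) hc (by linarith)
    (by linarith)
  have e4 := swap_ind h hφ 0 c
  rw [add_neg_cancel_right, add_neg_cancel_right] at e3
  rw [← e4, ← e3, ← e2, ← e1]
  refine lintegral_congr fun p => ?_
  by_cases hp : p ∈ tt κ ⁻¹' Ioo 0 c
  · rw [indicator_of_mem hp, indicator_of_mem hp, mv_split h hs hc hp]
  · rw [indicator_of_notMem hp, indicator_of_notMem hp]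

theorem iter (h : Bl g κ) {s c : ℝ} (hs : 0 ≤ s) (hc : c + s ≤ π / 2) {φ : M × M → ℝ≥0∞}
    (hφ : Measurable φ) (n : ℕ) :
    ∫⁻ p, (tt κ ⁻¹' Ioo 0 c).indicator (fun p => φ (mv g κ (n * s) (n * s) p)) p ∂nu g κ =
      ∫⁻ p, (tt κ ⁻¹' Ioo 0 c).indicator φ p ∂nu g κ := by
  induction n with
  | zero => simp only [Nat.cast_zero, zero_mul, mv_zero h]
  | succ n ih =>
    rw [← ih, ← small h (φ := fun p => φ (mv g κ (n * s) (n * s) p))
      (hφ.comp (meas_mv h _ _)) hs hc]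
    refine lintegral_congr fun p => ?_
    by_cases hp : p ∈ tt κ ⁻¹' Ioo 0 c
    · have hp' : p ∈ Om M κ := (mem_Om h.kpos).2 ⟨hp.1, by linarith [hp.2]⟩
      rw [indicator_of_mem hp, indicator_of_mem hp, mv_mv h hp',
        show s + n * s = ((n + 1 : ℕ) : ℝ) * s by push_cast; ring]
    · rw [indicator_of_notMem hp, indicator_of_notMem hp]

theorem sup (h : Bl g κ) (f : M × M → ℝ≥0∞) :
    ∫⁻ p, f p ∂nu g κ = ⨆ k : ℕ,
      ∫⁻ p, (tt κ ⁻¹' Ioo 0 (π / 2 - 1 / ((k : ℝ) + 1))).indicator f p ∂nu g κ := by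
  have hO : MeasurableSet (Om M κ) := isOpen_Om.measurableSet
  have h1 : ∀ᵐ p ∂nu g κ, p ∈ Om M κ :=
    (withDensity_absolutelyContinuous _ _).ae_le (ae_restrict_mem hO)
  have h2 : Om M κ = ⋃ k : ℕ, tt κ ⁻¹' Ioo 0 (π / 2 - 1 / ((k : ℝ) + 1)) := by
    ext p
    rw [mem_Om h.kpos, mem_iUnion]
    constructor
    · intro hp
      obtain ⟨k, hk⟩ := exists_nat_one_div_lt (sub_pos.2 hp.2)
      exact ⟨k, hp.1, by linarith⟩
    · rintro ⟨k, hk⟩
      have : (0 : ℝ) < 1 / ((k : ℝ) + 1) := Nat.one_div_pos_of_nat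
      exact ⟨hk.1, by linarith [hk.2]⟩
  have h3 : Monotone fun k : ℕ => (tt κ : M × M → ℝ) ⁻¹' Ioo 0 (π / 2 - 1 / ((k : ℝ) + 1)) :=
    fun k l hkl => preimage_mono (Ioo_subset_Ioo le_rfl (by
      have := Nat.one_div_le_one_div (α := ℝ) hkl
      linarith))
  conv_lhs => rw [← Measure.restrict_eq_self_of_ae_mem h1, h2,
    setLIntegral_iUnion_of_directed f h3.directed_le]
  exact iSup_congr fun k => (lintegral_indicator (measurable_tt measurableSet_Ioo) f).symm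

end InvAux

/-- On `tt < π/2 - s`, `mv s s = swap ∘ mv 0 (-s) ∘ swap ∘ mv 0 s`. Iterate with small steps
(`mv s s ∘ mv s' s' = mv (s + s') (s + s')`, `tt` is preserved) and use monotone convergence. -/
theorem Bl.nu_inv (h : Bl g κ) {φ : M × M → ℝ≥0∞} (hφ : Measurable φ) {s : ℝ} (hs : 0 ≤ s) :
    ∫⁻ p, φ (mv g κ s s p) ∂nu g κ = ∫⁻ p, φ p ∂nu g κ := by
  rw [sup h φ, sup h fun p => φ (mv g κ s s p)]
  refine iSup_congr fun k => ?_
  have hk : (0 : ℝ) < 1 / ((k : ℝ) + 1) := Nat.one_div_pos_of_nat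
  obtain ⟨n, hn⟩ := exists_nat_gt (s / (1 / ((k : ℝ) + 1)))
  have hn0 : (0 : ℝ) < n := lt_of_le_of_lt (div_nonneg hs hk.le) hn
  have h1 : s / n ≤ 1 / ((k : ℝ) + 1) := by
    rw [div_lt_iff₀ hk] at hn
    rw [div_le_iff₀ hn0]
    linarith
  have := iter h (s := s / n) (c := π / 2 - 1 / ((k : ℝ) + 1)) (div_nonneg hs hn0.le)
    (by linarith) hφ n
  rwa [mul_div_cancel₀ _ hn0.ne'] at this

end Vale.Agent.P231
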