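import Vale.Agent.P231.Mat

/-! Jensen inequality for the logarithm of the determinant. -/

open scoped Topology Matrix
open Set Filter Real Module

set_option linter.unusedSectionVars false

namespace Vale.Agent.P231

variable {d K H : Type} [Fintype d] [DecidableEq d] [Fintype K] [Fintype H] [DecidableEq K]
  [DecidableEq H]

namespace JenAux

theorem mono_one {f f' : ℝ → ℝ} {a b : ℝ} (hab : a ≤ b) (hf : ContinuousOn f (Icc a b))
    (h : ∀ t ∈ Ioo a b, HasDerivAt f (f' t) t ∧ 0 ≤ f' t) : f a ≤ f b := by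
  have hm : MonotoneOn f (Icc a b) := by
    apply monotoneOn_of_deriv_nonneg (convex_Icc a b) hf
    · intro t ht
      rw [interior_Icc] at ht
      exact (h t ht).1.differentiableAt.differentiableWithinAt
    · intro t ht
      rw [interior_Icc] at ht
      rw [(h t ht).1.deriv]
      exact (h t ht).2
  exact hm (left_mem_Icc.2 hab) (right_mem_Icc.2 hab) hab

theorem mono_two {f f' : ℝ → ℝ} {a b c : ℝ} (hab : a ≤ b) (hf : ContinuousOn f (Icc a b))
    (h : ∀ t ∈ Ioo a b, t ≠ c → HasDerivAt f (f' t) t ∧ 0 ≤ f' t) : f a ≤ f b := by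
  by_cases hc : c ∈ Ioo a b
  · have h1 : f a ≤ f c := by
      refine mono_one (f' := f') hc.1.le (hf.mono (Icc_subset_Icc le_rfl hc.2.le)) ?_
      intro t ht
      exact h t ⟨ht.1, ht.2.trans hc.2⟩ ht.2.ne
    have h2 : f c ≤ f b := by
      refine mono_one (f' := f') hc.2.le (hf.mono (Icc_subset_Icc hc.1.le le_rfl)) ?_
      intro t ht
      exact h t ⟨hc.1.trans ht.1, ht.2⟩ ht.1.ne'
    exact h1.trans h2
  · refine mono_one (f' := f') hab hf ?_
    intro t ht
    exact h t ht (fun e => hc (e ▸ ht))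

theorem exists_ne {x y : ℝ} (hxy : x < y) (c : ℝ) : ∃ t ∈ Ioo x y, t ≠ c := by
  by_cases h : (x + y) / 2 = c
  · refine ⟨(3 * x + y) / 4, ⟨by linarith, by linarith⟩, ?_⟩
    intro e
    linarith
  · exact ⟨(x + y) / 2, ⟨by linarith, by linarith⟩, h⟩

end JenAux

/-- Monotonicity with one exceptional point (`monotoneOn_of_deriv_nonneg` on both sides of `c`). -/
theorem mono_off {f f' : ℝ → ℝ} {x y c : ℝ} (hxy : x < y) (hf : ContinuousOn f (Icc x y))
    (h : ∀ t ∈ Ioo x y, t ≠ c → HasDerivAt f (f' t) t ∧ 0 ≤ f' t) :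
    f x ≤ f y ∧ (f x = f y → ∀ t ∈ Ioo x y, t ≠ c → f' t = 0) := by
  refine ⟨JenAux.mono_two hxy.le hf h, ?_⟩
  intro he t ht htc
  have hconst : ∀ s ∈ Ioo x y, f s = f x := by
    intro s hs
    have h1 : f x ≤ f s := by
      refine JenAux.mono_two (f' := f') (c := c) hs.1.le
        (hf.mono (Icc_subset_Icc le_rfl hs.2.le)) ?_
      intro u hu huc
      exact h u ⟨hu.1, hu.2.trans hs.2⟩ huc
    have h2 : f s ≤ f y := by
      refine JenAux.mono_two (f' := f') (c := c) hs.2.le
        (hf.mono (Icc_subset_Icc hs.1.le le_rfl)) ?_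
      intro u hu huc
      exact h u ⟨hs.1.trans hu.1, hu.2⟩ huc
    linarith
  have hev : f =ᶠ[𝓝 t] fun _ => f x := by
    filter_upwards [isOpen_Ioo.mem_nhds ht] with s hs using hconst s hs
  have h0 : HasDerivAt f 0 t := (hasDerivAt_const t (f x)).congr_of_eventuallyEq hev
  exact (h t ht htc).1.unique h0

namespace JenAux

theorem cont_entry {T : ℝ → Matrix d d ℝ} {S : Set ℝ} (hT : ContinuousOn T S) (i j : d) :
    ContinuousOn (fun s => T s i j) S :=
  (continuous_id.matrix_elem i j : Continuous fun M : Matrix d d ℝ => M i j).comp_continuousOn hT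

theorem strict {f f' : ℝ → ℝ} {x y c : ℝ} (hxy : x < y) (hf : ContinuousOn f (Icc x y))
    (h : ∀ t ∈ Ioo x y, t ≠ c → HasDerivAt f (f' t) t ∧ 0 < f' t) : f x < f y := by
  obtain ⟨h1, h2⟩ := mono_off (f' := f') (c := c) hxy hf
    (fun t ht htc => ⟨(h t ht htc).1, (h t ht htc).2.le⟩)
  refine lt_of_le_of_ne h1 ?_
  intro he
  obtain ⟨t, ht, htc⟩ := exists_ne hxy c
  exact (h t ht htc).2.ne' (h2 he t ht htc)

theorem trace_mul_eq (C M : Matrix d d ℝ) : (C * M).trace = ∑ i, ∑ j, C i j * M j i := by
  simp only [Matrix.trace, Matrix.diag, Matrix.mul_apply]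

theorem quad_eq (M : Matrix d d ℝ) (ξ : d → ℝ) :
    ξ ⬝ᵥ M *ᵥ ξ = ∑ i, ∑ j, ξ i * ξ j * M i j := by
  simp only [dotProduct, Matrix.mulVec, Finset.mul_sum]
  refine Finset.sum_congr rfl fun i _ => Finset.sum_congr rfl fun j _ => ?_
  ring

end JenAux

/-- `A = (W y - W x)⁻¹ • (T y - T x)` is positive definite (`mono_off` for `ξ T ξ` and for `T i j - T j i`).
`ψ t = trace (A⁻¹ * T t) - card d * W t - Z t + log A.det * W t` has derivative `≥ 0` by `tangent`. -/
theorem jensen {T B : ℝ → Matrix d d ℝ} {w W Z : ℝ → ℝ} {x y c : ℝ} (hxy : x < y)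
    (hT : ContinuousOn T (Icc x y)) (hW : ContinuousOn W (Icc x y)) (hZ : ContinuousOn Z (Icc x y))
    (h : ∀ t ∈ Ioo x y, t ≠ c → (B t).PosDef ∧ 0 < w t ∧
      (∀ i j, HasDerivAt (fun s => T s i j) (w t * B t i j) t) ∧ HasDerivAt W (w t) t ∧
        HasDerivAt Z (w t * log (B t).det) t) :
    (T y - T x).PosDef ∧
      Fintype.card d * log (W y - W x) + (Z y - Z x) / (W y - W x) ≤ log (T y - T x).det ∧
      (Fintype.card d * log (W y - W x) + (Z y - Z x) / (W y - W x) = log (T y - T x).det →
        ∀ t ∈ Ioo x y, t ≠ c → B t = (W y - W x)⁻¹ • (T y - T x)) := by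
  have hWp : 0 < W y - W x := by
    have := JenAux.strict (f := W) (f' := w) (c := c) hxy hW
      (fun t ht htc => ⟨(h t ht htc).2.2.2.1, (h t ht htc).2.1⟩)
    linarith
  have hsym : ∀ i j, T y i j - T x i j ≤ T y j i - T x j i := by
    intro i j
    have := (mono_off (f := fun s => T s j i - T s i j) (f' := fun _ => 0) (c := c) hxy
      ((JenAux.cont_entry hT j i).sub (JenAux.cont_entry hT i j)) (by
        intro t ht htc
        obtain ⟨hB, -, hd, -, -⟩ := h t ht htc
        refine ⟨?_, le_rfl⟩
        have hs : B t j i = B t i j := by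
          have := hB.1.apply i j
          simpa using this
        have h1 := (hd j i).sub (hd i j)
        rw [hs, sub_self] at h1
        exact h1)).1
    linarith
  have hpd : (T y - T x).PosDef := by
    refine Matrix.PosDef.of_dotProduct_mulVec_pos ?_ ?_
    · ext i j
      simp only [Matrix.conjTranspose_apply, star_trivial, Matrix.sub_apply]
      exact le_antisymm (hsym j i) (hsym i j)
    · intro ξ hξ
      have := JenAux.strict (f := fun s => ∑ i, ∑ j, ξ i * ξ j * T s i j)
        (f' := fun t => ∑ i, ∑ j, ξ i * ξ j * (w t * B t i j)) (c := c) hxy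
        (by
          refine continuousOn_finsetSum _ fun i _ => continuousOn_finsetSum _ fun j _ => ?_
          exact continuousOn_const.mul (JenAux.cont_entry hT i j)) (by
          intro t ht htc
          obtain ⟨hB, hw, hd, -, -⟩ := h t ht htc
          refine ⟨?_, ?_⟩
          · refine HasDerivAt.fun_sum fun i _ => HasDerivAt.fun_sum fun j _ => ?_
            exact (hd i j).const_mul _
          · have h1 := hB.dotProduct_mulVec_pos hξ
            rw [star_trivial, JenAux.quad_eq] at h1
            have h2 : ∑ i, ∑ j, ξ i * ξ j * (w t * B t i j)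
                = w t * ∑ i, ∑ j, ξ i * ξ j * B t i j := by
              rw [Finset.mul_sum]
              refine Finset.sum_congr rfl fun i _ => ?_
              rw [Finset.mul_sum]
              refine Finset.sum_congr rfl fun j _ => ?_
              ring
            rw [h2]
            exact mul_pos hw h1)
      rw [star_trivial, Matrix.sub_mulVec, dotProduct_sub, JenAux.quad_eq, JenAux.quad_eq]
      linarith
  set A : Matrix d d ℝ := (W y - W x)⁻¹ • (T y - T x) with hAdef
  have hA : A.PosDef := hpd.smul (inv_pos.2 hWp)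
  have hTA : T y - T x = (W y - W x) • A := by
    rw [hAdef, smul_smul, mul_inv_cancel₀ hWp.ne', one_smul]
  have hdetA : 0 < A.det := hA.det_pos
  have hlog : log (T y - T x).det = Fintype.card d * log (W y - W x) + log A.det := by
    rw [hTA, Matrix.det_smul, Real.log_mul (pow_pos hWp _).ne' hdetA.ne', Real.log_pow]
  have htr : (A⁻¹ * T y).trace - (A⁻¹ * T x).trace = (W y - W x) * Fintype.card d := by
    rw [← Matrix.trace_sub, ← Matrix.mul_sub, hTA, Matrix.mul_smul,
      Matrix.nonsing_inv_mul _ (isUnit_iff_ne_zero.2 hdetA.ne'), Matrix.trace_smul,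
      Matrix.trace_one, smul_eq_mul]
  obtain ⟨h1, h2⟩ := mono_off
    (f := fun s => (∑ i, ∑ j, A⁻¹ i j * T s j i) - Fintype.card d * W s - Z s + log A.det * W s)
    (f' := fun t => w t * (((A⁻¹ * B t).trace - Fintype.card d) - (log (B t).det - log A.det)))
    (c := c) hxy
    (by
      refine (ContinuousOn.sub (ContinuousOn.sub ?_ (continuousOn_const.mul hW)) hZ).add
        (continuousOn_const.mul hW)
      refine continuousOn_finsetSum _ fun i _ => continuousOn_finsetSum _ fun j _ => ?_
      exact continuousOn_const.mul (JenAux.cont_entry hT j i)) (by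
      intro t ht htc
      obtain ⟨hB, hw, hd, hdW, hdZ⟩ := h t ht htc
      refine ⟨?_, mul_nonneg hw.le (sub_nonneg.2 (tangent hA hB).1)⟩
      have e1 : HasDerivAt (fun s => ∑ i, ∑ j, A⁻¹ i j * T s j i)
          (∑ i, ∑ j, A⁻¹ i j * (w t * B t j i)) t := by
        refine HasDerivAt.fun_sum fun i _ => HasDerivAt.fun_sum fun j _ => ?_
        exact (hd j i).const_mul _
      have e2 : ∑ i, ∑ j, A⁻¹ i j * (w t * B t j i) = w t * (A⁻¹ * B t).trace := by
        rw [JenAux.trace_mul_eq, Finset.mul_sum]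
        refine Finset.sum_congr rfl fun i _ => ?_
        rw [Finset.mul_sum]
        refine Finset.sum_congr rfl fun j _ => ?_
        ring
      rw [e2] at e1
      have e3 := ((e1.fun_sub (hdW.const_mul (Fintype.card d : ℝ))).fun_sub hdZ).fun_add
        (hdW.const_mul (log A.det))
      refine e3.congr_deriv ?_
      ring)
  simp only [← JenAux.trace_mul_eq] at h1 h2
  refine ⟨hpd, ?_, ?_⟩
  · rw [hlog]
    have : (Z y - Z x) / (W y - W x) ≤ log A.det := by
      rw [div_le_iff₀ hWp]
      linarith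
    linarith
  · intro he t ht htc
    rw [hlog] at he
    have e1 : (Z y - Z x) / (W y - W x) = log A.det := by linarith
    rw [div_eq_iff hWp.ne'] at e1
    have e2 := h2 (by linarith) t ht htc
    obtain ⟨hB, hw, -⟩ := h t ht htc
    have e3 := (mul_eq_zero.1 e2).resolve_left hw.ne'
    exact (tangent hA hB).2 (by linarith)

end Vale.Agent.P231
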