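import Vale.Agent.P231.Cone
import Vale.Agent.P234.Ker

/-! Closed geodesics and great sphere fibrations. -/

open scoped Manifold ContDiff Topology ENNReal RealInnerProductSpace
open Set Filter Real Module

set_option linter.unusedSectionVars false

namespace Vale.Agent.P231

open Vale.Agent.P255 Vale.Agent.P234

variable {E : Type} [NormedAddCommGroup E] [NormedSpace ℝ E] [FiniteDimensional ℝ E]
  {M : Type} [MetricSpace M] [CompactSpace M] [ChartedSpace E M] [IsManifold 𝓘(ℝ, E) ∞ M]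
  {g : M → E →L[ℝ] E →L[ℝ] ℝ} {κ : ℝ}

namespace PerAux

theorem rev_geo (h : RM g) (x : M) (v : E) :
    geo g (geo g x v (π / 2)) (-vl g x v (π / 2)) (π / 2) = x := by
  rw [geo_neg h, geo_flow h, add_neg_cancel, h.geo_zero]

theorem rev_vl (h : RM g) (x : M) (v : E) :
    vl g (geo g x v (π / 2)) (-vl g x v (π / 2)) (π / 2) = -v := by
  rw [vl_neg h, vl_flow' h, add_neg_cancel, h.vl_zero]

theorem rev_nr (h : RM g) (x : M) (v : E) :
    nr g (geo g x v (π / 2)) (-vl g x v (π / 2)) = nr g x v := by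
  rw [nr_neg, nr_vl' h]

theorem cn_of_lam {q p : M} {u : E} (hu : u ∈ Lam g κ q p) : u ∈ Cn g κ q p :=
  ⟨1, zero_le_one, u, hu, (one_smul ℝ u).symm⟩

theorem lam_of_cn (h : Bl g κ) {q p : M} {u : E} (hu : u ∈ Cn g κ q p) (h0 : nr g q u ≠ 0) :
    (κ / nr g q u) • u ∈ Lam g κ q p := by
  obtain ⟨t, ht, u', hu', rfl⟩ := hu
  rw [nr_smul, abs_of_nonneg ht, hu'.1] at h0 ⊢
  have h1 : κ / (t * κ) * t = 1 := by
    have := left_ne_zero_of_mul h0
    have := h.kpos.ne'
    field_simp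
  rw [smul_smul, h1, one_smul]
  exact hu'

theorem lam_of_cn' (h : Bl g κ) {q p : M} {u : E} (hu : u ∈ Cn g κ q p) (h0 : nr g q u = κ) :
    u ∈ Lam g κ q p := by
  have := lam_of_cn h hu (by rw [h0]; exact h.kpos.ne')
  rwa [h0, div_self h.kpos.ne', one_smul] at this

/-- the cone is a subspace -/
theorem sub (h : Bl g κ) {x : M} {v : E} (hv : nr g x v = κ)
    (hn : -v ∈ Lam g κ x (geo g x v (π / 2))) :
    ∃ Q : Submodule ℝ E, (Q : Set E) = Cn g κ x (geo g x v (π / 2)) ∧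
      finrank ℝ Q = finrank ℝ (KK g (geo g x v (π / 2)) (-vl g x v (π / 2))) + 1 := by
  have := h.cone (p := geo g x v (π / 2)) (w := -vl g x v (π / 2))
    ((rev_nr h.toRM x v).trans hv) (by rw [rev_geo h.toRM, rev_vl h.toRM]; exact hn)
  rwa [rev_geo h.toRM] at this

theorem dnr (h : Bl g κ) {x : M} {v : E} (hv : nr g x v = κ) (w : E) :
    HasDerivAt (fun s : ℝ => nr g x (v + s • w)) (g x v w / κ) 0 := by
  have h1 : HasDerivAt (fun s : ℝ => g x v v + 2 * g x v w * s + g x w w * s ^ 2)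
      (2 * g x v w) 0 := by
    have := (((hasDerivAt_id' (0 : ℝ)).const_mul (2 * g x v w)).const_add (g x v v)).fun_add
      ((hasDerivAt_pow 2 (0 : ℝ)).const_mul (g x w w))
    simpa using this
  have h2 : (fun s : ℝ => nr g x (v + s • w)) =
      fun s : ℝ => √(g x v v + 2 * g x v w * s + g x w w * s ^ 2) := by
    funext s
    unfold nr
    simp only [map_add, map_smul, add_apply, smul_apply,
      smul_eq_mul, h.symm x w v]
    ring_nf
  have h3 : g x v v + 2 * g x v w * 0 + g x w w * 0 ^ 2 = κ ^ 2 := by rw [h.sq hv]; ring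
  have h4 := h1.sqrt (by rw [h3]; exact pow_ne_zero _ h.kpos.ne')
  rw [h3, sqrt_sq h.kpos.le, mul_div_mul_left _ _ two_ne_zero] at h4
  rw [h2]
  exact h4

theorem ev_nr (h : Bl g κ) {x : M} {v : E} (hv : nr g x v = κ) (w : E) :
    ∀ᶠ s : ℝ in 𝓝 0, nr g x (v + s • w) ≠ 0 :=
  (dnr h hv w).continuousAt.eventually_ne (by rw [zero_smul, add_zero, hv]; exact h.kpos.ne')

theorem dline (v w : E) : HasDerivAt (fun s : ℝ => v + s • w) w 0 := by
  simpa using ((hasDerivAt_id' (0 : ℝ)).smul_const w).const_add v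

theorem dM_curve (h : RM g) (x : M) {φ : ℝ → E} {φ' : E} (hφ : HasDerivAt φ φ' 0) :
    dM E (fun s => ex g x (φ s)) 0 1 = dM E (ex g x) (φ 0) φ' := by
  have h1 : SmP E (ex g x) (φ 0) := h.smP_ex x contDiffAt_id
  rw [dM_comp h1 hφ.differentiableAt, hφ.hasFDerivAt.fderiv]
  simp

/-- differentiate along great circles -/
theorem le (h : Bl g κ) {x : M} {v : E} (hv : nr g x v = κ) {Q : Submodule ℝ E}
    (hQ : (Q : Set E) = Cn g κ x (geo g x v (π / 2))) : Q ≤ KK g x v ⊔ Submodule.span ℝ {v} := by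
  intro w hw
  have hvQ : v ∈ Q := by
    rw [← SetLike.mem_coe, hQ]
    exact cn_of_lam ⟨hv, (h.geo_eq x v _).symm⟩
  have hk := h.kpos.ne'
  have h0 : nr g x (v + (0 : ℝ) • w) = κ := by rw [zero_smul, add_zero, hv]
  obtain ⟨c, hc⟩ : ∃ c, HasDerivAt (fun s : ℝ => π / 2 * (κ / nr g x (v + s • w))) c 0 :=
    ⟨_, ((hasDerivAt_const (0 : ℝ) κ).fun_div (dnr h hv w) (by rw [h0]; exact hk)).const_mul _⟩
  have h1 := dM_curve h.toRM x (hc.fun_smul (dline v w))
  have h2 : (fun s : ℝ => ex g x ((π / 2 * (κ / nr g x (v + s • w))) • (v + s • w))) =ᶠ[𝓝 0]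
      fun _ => geo g x v (π / 2) := by
    filter_upwards [ev_nr h hv w] with s hs
    have h3 : v + s • w ∈ Cn g κ x (geo g x v (π / 2)) := by
      rw [← hQ]; exact Q.add_mem hvQ (Q.smul_mem s hw)
    rw [← smul_smul]
    exact (lam_of_cn h h3 hs).2
  have h3 : dM E (fun _ : ℝ => geo g x v (π / 2)) 0 = 0 := mfderiv_const
  rw [dM_congr h2, h3, h0, div_self hk, mul_one, zero_smul, add_zero] at h1
  have h4 : (π / 2) • w + c • v ∈ KK g x v := h1.symm
  have h5 : w = (π / 2)⁻¹ • ((π / 2) • w + c • v - c • v) := by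
    rw [add_sub_cancel_right, inv_smul_smul₀ (by positivity)]
  rw [h5]
  exact Submodule.smul_mem _ _ (Submodule.sub_mem _ (Submodule.mem_sup_left h4)
    (Submodule.mem_sup_right (Submodule.smul_mem _ _ (Submodule.mem_span_singleton_self v))))

theorem rk (K : Submodule ℝ E) (v : E) :
    finrank ℝ ↥(K ⊔ Submodule.span ℝ {v}) ≤ finrank ℝ K + 1 :=
  (Submodule.finrank_add_le_finrank_add_finrank K _).trans
    (Nat.add_le_add_left (by simpa using finrank_span_le_card ({v} : Set E)) _)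

end PerAux

open PerAux

/-- `pair` and `cone` show that `Cn g κ q p` is a subspace, so `Lam` is symmetric. -/
theorem Bl.lam_neg (h : Bl g κ) {q p : M} {u : E} (hu : u ∈ Lam g κ q p) : -u ∈ Lam g κ q p := by
  obtain ⟨u₀, h1, h2⟩ := h.pair (h.lam_dist hu)
  have hp : geo g q u₀ (π / 2) = p := (h.geo_eq q u₀ _).trans h1.2
  obtain ⟨Q, hQ, -⟩ := sub h h1.1 (by rw [hp]; exact h2)
  rw [hp] at hQ
  refine lam_of_cn' h ?_ ((nr_neg q u).trans hu.1)
  rw [← hQ]
  refine Q.neg_mem ?_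
  rw [← SetLike.mem_coe, hQ]
  exact cn_of_lam hu

theorem Bl.geo_per (h : Bl g κ) {x : M} {v : E} (hv : nr g x v = κ) (t : ℝ) :
    geo g x v (t + π) = geo g x v t := by
  have h1 := (h.lam_neg (h.back ((nr_vl' h.toRM x v t).trans hv))).2
  rw [neg_neg, ← h.geo_eq, geo_flow h.toRM, geo_flow h.toRM, add_halves] at h1
  exact h1

theorem Bl.vl_per (h : Bl g κ) {x : M} {v : E} (hv : nr g x v = κ) (t : ℝ) :
    vl g x v (t + π) = vl g x v t := by
  have h1 : geo g (geo g x v π) (vl g x v π) = geo g x v := funext fun s => by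
    rw [geo_flow h.toRM, add_comm, h.geo_per hv]
  rw [add_comm, ← vl_flow' h.toRM]
  exact congrArg (fun γ => vel E γ t) h1

/-- `Cn g κ x q ⊆ KK ⊔ span {v}` by differentiating along great circles; with `u = -vl g x v (π/2)`, `cone` in
both directions gives `dim Cn x q = dim KK q u + 1 ≥ dim Cn q x = dim KK x v + 1`. -/
theorem Bl.fiber (h : Bl g κ) {x : M} {v w : E} (hv : nr g x v = κ) (hw : nr g x w = κ) :
    ex g x ((π / 2) • w) = ex g x ((π / 2) • v) ↔ w ∈ KK g x v ⊔ Submodule.span ℝ {v} := by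
  obtain ⟨Q₁, hQ₁, r₁⟩ := sub h hv (h.lam_neg ⟨hv, (h.geo_eq x v _).symm⟩)
  obtain ⟨Q₂, hQ₂, r₂⟩ := h.cone hv (by simpa using h.lam_neg (h.back hv))
  have l₁ := le h hv hQ₁
  have l₂ := le h ((rev_nr h.toRM x v).trans hv) (Q := Q₂) (by rw [rev_geo h.toRM]; exact hQ₂)
  have e₁ : Q₁ = KK g x v ⊔ Submodule.span ℝ {v} := by
    refine Submodule.eq_of_le_of_finrank_le l₁ ((rk _ _).trans ?_)
    rw [← r₂, r₁]
    exact (Submodule.finrank_mono l₂).trans (rk _ _)
  rw [← e₁, ← SetLike.mem_coe, hQ₁, ← h.geo_eq x v]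
  exact ⟨fun h1 => cn_of_lam ⟨hw, h1⟩, fun h1 => (lam_of_cn' h h1 hw).2⟩

theorem Bl.KK_perp (h : Bl g κ) {x : M} {v k : E} (hk : k ∈ KK g x v) : g x v k = 0 := by
  have h1 := h.toRM.ker_orth (w := (π / 2) • v) (κ := k) hk
  rw [map_smul, smul_apply, smul_eq_mul] at h1
  exact (mul_eq_zero.1 h1).resolve_left (by positivity)

/-- `ex g x ((t + π) • z) = ex g x ((t + π - π κ / nr z) • z)` for `z = v + s • w`; differentiate at `s = 0`. -/
theorem Bl.JF_per (h : Bl g κ) {x : M} {v w : E} (hv : nr g x v = κ) (hw : g x v w = 0) (t : ℝ) :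
    JF g x v (t + π) w = JF g x v t w := by
  have hk := h.kpos.ne'
  have h0 : nr g x (v + (0 : ℝ) • w) = κ := by rw [zero_smul, add_zero, hv]
  have hc : HasDerivAt (fun s : ℝ => t + π - π * (κ / nr g x (v + s • w))) 0 0 := by
    have := (((hasDerivAt_const (0 : ℝ) κ).fun_div (dnr h hv w)
      (by rw [h0]; exact hk)).const_mul π).const_sub (t + π)
    simpa [hw] using this
  have h1 := dM_curve h.toRM x (hc.fun_smul (dline v w))
  have h2 := dM_curve h.toRM x ((dline v w).fun_const_smul (t + π))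
  have h3 : (fun s : ℝ => ex g x ((t + π - π * (κ / nr g x (v + s • w))) • (v + s • w))) =ᶠ[𝓝 0]
      fun s => ex g x ((t + π) • (v + s • w)) := by
    filter_upwards [ev_nr h hv w] with s hs
    have h4 : nr g x ((κ / nr g x (v + s • w)) • (v + s • w)) = κ := by
      rw [nr_smul, abs_of_nonneg (div_nonneg h.kpos.le (nr_nonneg _ _)), div_mul_cancel₀ _ hs]
    have h5 := h.geo_per h4 ((t + π) * (nr g x (v + s • w) / κ) - π)
    rw [h.geo_eq, h.geo_eq, smul_smul, smul_smul] at h5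
    have h6 : ((t + π) * (nr g x (v + s • w) / κ) - π + π) * (κ / nr g x (v + s • w)) =
        t + π := by field_simp; ring
    have h7 : ((t + π) * (nr g x (v + s • w) / κ) - π) * (κ / nr g x (v + s • w)) =
        t + π - π * (κ / nr g x (v + s • w)) := by field_simp
    rw [h6, h7] at h5
    exact h5.symm
  rw [dM_congr h3, h0, div_self hk, mul_one, add_sub_cancel_right] at h1
  simp only [zero_smul, add_zero] at h1 h2
  exact h2.symm.trans h1

theorem Bl.nc_II (h : Bl g κ) {x : M} {v : E} (hv : nr g x v = κ) {t : ℝ} (ht : t ∈ II) :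
    NC g x (t • v) := by
  obtain ⟨⟨h0, h1⟩, h2⟩ := ht
  rcases lt_or_gt_of_ne (show t ≠ π / 2 from h2) with h3 | h3
  · exact h.nc hv (by rw [abs_of_pos h0]; exact h3)
  intro k hk
  have h4 := h.toRM.ker_orth hk
  rw [map_smul, smul_apply, smul_eq_mul] at h4
  have h5 : g x v (t⁻¹ • k) = 0 := by
    rw [map_smul, (mul_eq_zero.1 h4).resolve_left h0.ne', smul_zero]
  have h6 := h.JF_per hv h5 (t - π)
  rw [sub_add_cancel, JF, smul_inv_smul₀ h0.ne', hk] at h6
  have h7 := h.nc hv (t := t - π) (by rw [abs_lt]; constructor <;> linarith) _ h6.symm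
  rw [smul_eq_zero, smul_eq_zero] at h7
  exact (h7.resolve_left (by linarith)).resolve_left (inv_ne_zero h0.ne')

end Vale.Agent.P231
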