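import Vale.Agent.P231.Base

/-! Curves with trigonometric Gram kernel. -/

open scoped Topology RealInnerProductSpace
open Set Filter Real

namespace Vale.Agent.P231

variable {V : Type} [NormedAddCommGroup V] [InnerProductSpace ℝ V]

namespace TrigAux

theorem rel {ι : Type} [Fintype ι] (x : ι → V) (c s l : ι → ℝ)
    (h : ∀ i j, ⟪x i, x j⟫ = (1 + c i * c j + s i * s j) / 2) (h1 : ∑ i, l i = 0)
    (h2 : ∑ i, l i * c i = 0) (h3 : ∑ i, l i * s i = 0) : ∑ i, l i • x i = 0 := by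
  have k : ∀ j, ⟪∑ i, l i • x i, x j⟫ = 0 := by
    intro j
    rw [sum_inner]
    have : ∀ i, ⟪l i • x i, x j⟫ = (l i + l i * c i * c j + l i * s i * s j) / 2 := by
      intro i
      rw [real_inner_smul_left, h]
      ring
    rw [Finset.sum_congr rfl fun i _ => this i, ← Finset.sum_div, Finset.sum_add_distrib,
      Finset.sum_add_distrib, ← Finset.sum_mul, ← Finset.sum_mul, h1, h2, h3]
    ring
  rw [← inner_self_eq_zero (𝕜 := ℝ), inner_sum]
  exact Finset.sum_eq_zero fun j _ => by rw [real_inner_smul_right, k, mul_zero]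

theorem cos_sq_sub (t s s' : ℝ) : cos (s - s') ^ 2 =
    (1 + cos (2 * (s - t)) * cos (2 * (s' - t)) + sin (2 * (s - t)) * sin (2 * (s' - t))) / 2 := by
  rw [cos_sq, add_assoc, ← cos_sub, show 2 * (s - t) - 2 * (s' - t) = 2 * (s - s') by ring]
  ring

theorem deriv_nonpos {φ : ℝ → ℝ} {d x : ℝ} (h : HasDerivAt φ d x) (h0 : φ x = 0)
    (h1 : ∀ᶠ s in 𝓝[<] x, 0 ≤ φ s) : d ≤ 0 := by
  refine le_of_tendsto (hasDerivAt_iff_tendsto_slope_left_right.1 h).1 ?_
  filter_upwards [h1, self_mem_nhdsWithin] with s hs hs'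
  rw [slope_def_field, h0, sub_zero]
  exact div_nonpos_of_nonneg_of_nonpos hs (sub_nonpos.2 (le_of_lt hs'))

/-- a trigonometric polynomial with a double zero at `t₁` has its next zero at distance `π` -/
theorem far {A B C t₀ t₁ : ℝ} (h0 : t₀ < 0) (h1 : 0 < t₁)
    (z0 : A + cos (2 * t₀) * B + sin (2 * t₀) * C = 0)
    (z1 : A + cos (2 * t₁) * B + sin (2 * t₁) * C = 0)
    (p : 0 < A + cos (2 * 0) * B + sin (2 * 0) * C)
    (hb : ∀ s ∈ Ioo t₀ t₁, 0 ≤ A + cos (2 * s) * B + sin (2 * s) * C ∧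
      A + cos (2 * s) * B + sin (2 * s) * C ≤ (s - t₁) ^ 2) : t₀ + π ≤ t₁ := by
  have hd : HasDerivAt (fun s => A + cos (2 * s) * B + sin (2 * s) * C)
      (-sin (2 * t₁) * 2 * B + cos (2 * t₁) * 2 * C) t₁ := by
    have e : HasDerivAt (fun s : ℝ => 2 * s) 2 t₁ := by
      simpa using (hasDerivAt_id t₁).const_mul 2
    exact ((e.cos.mul_const B).const_add A).add (e.sin.mul_const C)
  have hq : HasDerivAt (fun s : ℝ => (s - t₁) ^ 2) 0 t₁ := by
    simpa using ((hasDerivAt_id t₁).sub_const t₁).fun_pow 2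
  have hm : ∀ᶠ s in 𝓝[<] t₁, s ∈ Ioo t₀ t₁ := Ioo_mem_nhdsLT (h0.trans h1)
  have d1 := deriv_nonpos hd z1 (hm.mono fun s hs => (hb s hs).1)
  have d2 := deriv_nonpos (hq.fun_sub hd) (by rw [z1]; ring)
    (hm.mono fun s hs => sub_nonneg.2 (hb s hs).2)
  have d3 : -sin (2 * t₁) * B + cos (2 * t₁) * C = 0 := by linarith
  have e := sin_sq_add_cos_sq (2 * t₁)
  have hB : B = -A * cos (2 * t₁) := by
    linear_combination cos (2 * t₁) * z1 - sin (2 * t₁) * d3 - B * e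
  have hC : C = -A * sin (2 * t₁) := by
    linear_combination sin (2 * t₁) * z1 + cos (2 * t₁) * d3 - C * e
  have hA : A ≠ 0 := by
    rintro rfl
    rw [hB, hC] at p
    simp at p
  have h2 : A * (1 - cos (2 * (t₁ - t₀))) = 0 := by
    rw [mul_sub 2, cos_sub]
    rw [hB, hC] at z0
    linear_combination z0
  have h3 := (mul_eq_zero.1 h2).resolve_left hA
  rw [cos_two_mul, cos_sq'] at h3
  by_contra hc
  have := sin_pos_of_pos_of_lt_pi (x := t₁ - t₀) (by linarith) (by linarith)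
  nlinarith

end TrigAux

open TrigAux

/-- Linear relations between the vectors `(1, cos 2s, sin 2s)` hold for the `f s`, since the Gram matrices
agree (`cos² (s - s') = (1 + cos 2s cos 2s' + sin 2s sin 2s') / 2`). -/
theorem trig_loc {f : ℝ → V} {t : ℝ} (h : ∀ᶠ z in 𝓝 (t, t), ⟪f z.1, f z.2⟫ = cos (z.1 - z.2) ^ 2) :
    ∃ o a b : V, ∀ᶠ s in 𝓝 t, f s = o + cos (2 * s) • a + sin (2 * s) • b := by
  obtain ⟨ε, hε, h⟩ := Metric.eventually_nhds_iff.1 h
  have hk : ∀ s s', dist s t < ε → dist s' t < ε → ⟪f s, f s'⟫ = cos (s - s') ^ 2 :=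
    fun s s' h1 h2 => h (y := (s, s')) (by rw [Prod.dist_eq]; exact max_lt h1 h2)
  obtain ⟨δ, h0, h1, h2⟩ : ∃ δ : ℝ, 0 < δ ∧ δ < ε ∧ δ ≤ 1 :=
    ⟨min (ε / 2) 1, lt_min (by linarith) one_pos, (min_le_left _ _).trans_lt (by linarith),
      min_le_right _ _⟩
  have hS : sin (2 * δ) ≠ 0 :=
    (sin_pos_of_pos_of_lt_pi (by linarith) (by linarith [pi_gt_three])).ne'
  have hC : 1 - cos (2 * δ) ≠ 0 := by
    intro hc
    have e := sin_sq_add_cos_sq (2 * δ)
    rw [← sub_eq_zero.1 hc] at e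
    exact hS (pow_eq_zero_iff two_ne_zero |>.1 (by linarith))
  have key : ∀ s, dist s t < ε → f s =
      ((cos (2 * (s - t)) - cos (2 * δ)) / (1 - cos (2 * δ))) • f t +
      (((1 - cos (2 * (s - t))) / (1 - cos (2 * δ)) + sin (2 * (s - t)) / sin (2 * δ)) / 2) •
        f (t + δ) +
      (((1 - cos (2 * (s - t))) / (1 - cos (2 * δ)) - sin (2 * (s - t)) / sin (2 * δ)) / 2) •
        f (t - δ) := by
    intro s hs
    let p : Fin 4 → ℝ := ![s, t, t + δ, t - δ]
    have hp : ∀ i, dist (p i) t < ε := by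
      intro i
      fin_cases i
      · exact hs
      · simpa [p] using hε
      · simpa [p, abs_of_pos h0] using h1
      · simpa [p, abs_of_pos h0] using h1
    have e0 : t - t = 0 := sub_self t
    have e1 : t + δ - t = δ := by ring
    have e2 : 2 * (t - δ - t) = -(2 * δ) := by ring
    have := rel (fun i => f (p i)) (fun i => cos (2 * (p i - t))) (fun i => sin (2 * (p i - t)))
      ![-1, (cos (2 * (s - t)) - cos (2 * δ)) / (1 - cos (2 * δ)),
        ((1 - cos (2 * (s - t))) / (1 - cos (2 * δ)) + sin (2 * (s - t)) / sin (2 * δ)) / 2,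
        ((1 - cos (2 * (s - t))) / (1 - cos (2 * δ)) - sin (2 * (s - t)) / sin (2 * δ)) / 2]
      (fun i j => by rw [hk _ _ (hp i) (hp j), cos_sq_sub t]) ?_ ?_ ?_
    · simp only [Fin.sum_univ_four, p, Matrix.cons_val_zero, Matrix.cons_val_one,
        Matrix.cons_val] at this
      rw [neg_one_smul, add_assoc, add_assoc, neg_add_eq_zero] at this
      rw [this, add_assoc]
    · simp only [Fin.sum_univ_four, Matrix.cons_val_zero, Matrix.cons_val_one, Matrix.cons_val]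
      field_simp
      ring
    · simp only [Fin.sum_univ_four, p, Matrix.cons_val_zero, Matrix.cons_val_one,
        Matrix.cons_val, e0, e1, e2, mul_zero, cos_zero, cos_neg]
      field_simp
      ring
    · simp only [Fin.sum_univ_four, p, Matrix.cons_val_zero, Matrix.cons_val_one,
        Matrix.cons_val, e0, e1, e2, mul_zero, sin_zero, sin_neg]
      field_simp
      ring
  obtain ⟨o, a, b, k⟩ : ∃ o a b : V, ∀ s, dist s t < ε →
      f s = o + cos (2 * (s - t)) • a + sin (2 * (s - t)) • b := by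
    refine ⟨(1 - cos (2 * δ))⁻¹ • (-cos (2 * δ) • f t + (1 / 2 : ℝ) • (f (t + δ) + f (t - δ))),
      (1 - cos (2 * δ))⁻¹ • (f t - (1 / 2 : ℝ) • (f (t + δ) + f (t - δ))),
      (sin (2 * δ))⁻¹ • (1 / 2 : ℝ) • (f (t + δ) - f (t - δ)), fun s hs => ?_⟩
    rw [key s hs]
    simp only [div_eq_mul_inv]
    module
  refine ⟨o, cos (2 * t) • a - sin (2 * t) • b, sin (2 * t) • a + cos (2 * t) • b, ?_⟩
  filter_upwards [Metric.ball_mem_nhds t hε] with s hs
  rw [k s hs, mul_sub, cos_sub, sin_sub]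
  module

theorem trig_unique {o a b : V} {t : ℝ}
    (h : ∀ᶠ s in 𝓝 t, o + cos (2 * s) • a + sin (2 * s) • b = 0) : o = 0 ∧ a = 0 ∧ b = 0 := by
  have ha : AnalyticOnNhd ℝ (fun s : ℝ => o + cos (2 * s) • a + sin (2 * s) • b) univ := by
    intro s _
    fun_prop
  have k := congrFun (ha.eq_of_eventuallyEq (g := fun _ => 0) analyticOnNhd_const h)
  have k0 := k 0
  have k1 := k (π / 2)
  have k2 := k (π / 4)
  rw [mul_zero, cos_zero, sin_zero, one_smul, zero_smul, add_zero] at k0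
  rw [show 2 * (π / 2) = π by ring, cos_pi, sin_pi, neg_one_smul, zero_smul, add_zero] at k1
  rw [show 2 * (π / 4) = π / 2 by ring, cos_pi_div_two, sin_pi_div_two, one_smul, zero_smul,
    add_zero] at k2
  have ho : o = 0 := by
    have : o = (1 / 2 : ℝ) • ((o + a) + (o + -a)) := by module
    rw [this, k0, k1, add_zero, smul_zero]
  rw [ho, zero_add] at k0 k2
  exact ⟨ho, k0, k2⟩

theorem trig_Ioo {f : ℝ → V} {s t : ℝ}
    (h : ∀ r ∈ Ioo s t, ∀ᶠ z in 𝓝 (r, r), ⟪f z.1, f z.2⟫ = cos (z.1 - z.2) ^ 2) :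
    ∃ o a b : V, ∀ r ∈ Ioo s t, f r = o + cos (2 * r) • a + sin (2 * r) • b := by
  choose! o a b k using fun r hr => trig_loc (h r hr)
  rcases (Ioo s t).eq_empty_or_nonempty with he | ⟨r₀, hr₀⟩
  · exact ⟨0, 0, 0, by simp [he]⟩
  refine ⟨o r₀, a r₀, b r₀, fun r hr => ?_⟩
  have key : (o r₀, a r₀, b r₀) = (o r, a r, b r) := by
    refine isPreconnected_Ioo.induction₂' (fun x y => (o x, a x, b x) = (o y, a y, b y))
      (fun x hx => ?_) (fun _ _ _ _ _ _ => Eq.trans) hr₀ hr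
    filter_upwards [nhdsWithin_le_nhds (k x hx).eventually_nhds, self_mem_nhdsWithin] with y h1 hy
    have h2 : ∀ᶠ z in 𝓝 y,
        (o x - o y) + cos (2 * z) • (a x - a y) + sin (2 * z) • (b x - b y) = 0 := by
      filter_upwards [h1, k y hy] with z h3 h4
      have : (o x - o y) + cos (2 * z) • (a x - a y) + sin (2 * z) • (b x - b y) =
          (o x + cos (2 * z) • a x + sin (2 * z) • b x) -
            (o y + cos (2 * z) • a y + sin (2 * z) • b y) := by module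
      rw [this, ← h3, ← h4, sub_self]
    obtain ⟨e1, e2, e3⟩ := trig_unique h2
    rw [sub_eq_zero.1 e1, sub_eq_zero.1 e2, sub_eq_zero.1 e3]
    exact ⟨rfl, rfl⟩
  obtain ⟨e1, e2⟩ := Prod.mk.inj key
  obtain ⟨e2, e3⟩ := Prod.mk.inj e2
  rw [e1, e2, e3]
  exact (k r hr).self_of_nhds

/-- If `ℓ ∘ f` has no zero use `trig_Ioo` on a large interval. Otherwise let `t₀ < 0 < t₁` be the zeros next to
`0` (periodicity, compactness). On `(t₀, t₁)` the function `ℓ ∘ f` is trigonometric with a double zero at `t₁`,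
so it is `A sin² (t - t₁)`, hence `t₀ = t₁ - π`; by periodicity and continuity `f` is trigonometric on `ℝ`.
Finally `⟪f 0, f t⟫ - cos² t` is trigonometric and vanishes near `0` (`trig_unique` in `ℝ`). -/
theorem trig_glob {f : ℝ → V} (hf : Continuous f) (hper : ∀ t, f (t + π) = f t) (ℓ : V →L[ℝ] ℝ)
    (h0 : ∀ t, 0 ≤ ℓ (f t)) (h1 : 0 < ℓ (f 0))
    (h2 : ∀ r, 0 < ℓ (f r) → ∀ᶠ z in 𝓝 (r, r), ⟪f z.1, f z.2⟫ = cos (z.1 - z.2) ^ 2)
    (h3 : ∀ r t, ℓ (f r) = 0 → ℓ (f t) ≤ (t - r) ^ 2) (t : ℝ) : ⟪f 0, f t⟫ = cos t ^ 2 := by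
  have hp : Function.Periodic f π := hper
  obtain ⟨o, a, b, k0, k1⟩ : ∃ o a b : V,
      (∀ᶠ s in 𝓝 0, f s = o + cos (2 * s) • a + sin (2 * s) • b) ∧
        f t = o + cos (2 * t) • a + sin (2 * t) • b := by
    by_cases hz : ∃ r, ℓ (f r) = 0
    · obtain ⟨r, hr⟩ := hz
      have hc : IsClosed {s | ℓ (f s) = 0} := isClosed_eq (ℓ.continuous.comp hf) continuous_const
      obtain ⟨r', hr', e⟩ := hp.exists_mem_Ico₀ pi_pos r
      rw [e] at hr
      obtain ⟨t₁, ⟨z1, p1⟩, m1⟩ : ∃ t₁, IsLeast ({s | ℓ (f s) = 0} ∩ Ici 0) t₁ :=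
        ⟨_, (hc.inter isClosed_Ici).isLeast_csInf ⟨r', hr, hr'.1⟩ ⟨0, fun s hs => hs.2⟩⟩
      obtain ⟨t₀, ⟨z0, p0⟩, m0⟩ : ∃ t₀, IsGreatest ({s | ℓ (f s) = 0} ∩ Iic 0) t₀ :=
        ⟨_, (hc.inter isClosed_Iic).isGreatest_csSup
          ⟨r' - π, by rw [mem_setOf, hp.sub_eq]; exact hr, sub_nonpos.2 hr'.2.le⟩
          ⟨0, fun s hs => hs.2⟩⟩
      have z0' : ℓ (f t₀) = 0 := z0
      have z1' : ℓ (f t₁) = 0 := z1
      have q1 : 0 < t₁ := lt_of_le_of_ne p1 (by rintro rfl; exact h1.ne' z1')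
      have q0 : t₀ < 0 := lt_of_le_of_ne p0 (by rintro rfl; exact h1.ne' z0')
      obtain ⟨o, a, b, k⟩ := trig_Ioo (f := f) (s := t₀) (t := t₁) fun s hs => h2 s <|
        lt_of_le_of_ne (h0 s) fun hs0 => by
          rcases le_total 0 s with h | h
          · exact absurd (m1 ⟨hs0.symm, h⟩) (not_le.2 hs.2)
          · exact absurd (m0 ⟨hs0.symm, h⟩) (not_le.2 hs.1)
      have k' : ∀ s ∈ Icc t₀ t₁, f s = o + cos (2 * s) • a + sin (2 * s) • b := by
        have := EqOn.closure (f := f) (g := fun s => o + cos (2 * s) • a + sin (2 * s) • b) k hf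
          (by fun_prop)
        rwa [closure_Ioo (q0.trans q1).ne] at this
      have kl : ∀ s ∈ Icc t₀ t₁, ℓ o + cos (2 * s) * ℓ a + sin (2 * s) * ℓ b = ℓ (f s) := by
        intro s hs
        rw [k' s hs, map_add, map_add, map_smul, map_smul, smul_eq_mul, smul_eq_mul]
      have hle := (q0.trans q1).le
      have hfar : t₀ + π ≤ t₁ := by
        refine far (A := ℓ o) (B := ℓ a) (C := ℓ b) q0 q1 ?_ ?_ ?_ fun s hs => ?_
        · rw [kl _ (left_mem_Icc.2 hle), z0']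
        · rw [kl _ (right_mem_Icc.2 hle), z1']
        · rw [kl _ ⟨q0.le, q1.le⟩]; exact h1
        · rw [kl _ (Ioo_subset_Icc_self hs)]
          exact ⟨h0 s, h3 t₁ s z1'⟩
      refine ⟨o, a, b, Filter.mem_of_superset (Ioo_mem_nhds q0 q1) k, ?_⟩
      have hp' : Function.Periodic (fun s => f s - (o + cos (2 * s) • a + sin (2 * s) • b)) π := by
        intro s
        show f (s + π) - _ = _
        rw [hper, mul_add, cos_add_two_pi, sin_add_two_pi]
      obtain ⟨y, hy, e⟩ := hp'.exists_mem_Ico pi_pos t t₀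
      rw [← sub_eq_zero]
      exact e.trans (sub_eq_zero.2 (k' y ⟨hy.1, hy.2.le.trans hfar⟩))
    · obtain ⟨o, a, b, k⟩ := trig_Ioo (f := f) (s := -(|t| + 1)) (t := |t| + 1) fun s _ =>
        h2 s (lt_of_le_of_ne (h0 s) fun hs0 => hz ⟨s, hs0.symm⟩)
      have := abs_nonneg t
      refine ⟨o, a, b, Filter.mem_of_superset (Ioo_mem_nhds (by linarith) (by linarith)) k, k t ?_⟩
      exact ⟨by linarith [neg_abs_le t], by linarith [le_abs_self t]⟩
  have hc : ContinuousAt (fun s : ℝ => ((0 : ℝ), s)) 0 := by fun_prop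
  have k2 : ∀ᶠ s in 𝓝 (0 : ℝ), (⟪f 0, o⟫ - 1 / 2) + cos (2 * s) • (⟪f 0, a⟫ - 1 / 2) +
      sin (2 * s) • ⟪f 0, b⟫ = 0 := by
    filter_upwards [k0, hc.tendsto.eventually (h2 0 h1)] with s e1 e2
    have e3 : ⟪f 0, f s⟫ = cos (0 - s) ^ 2 := e2
    rw [e1, inner_add_right, inner_add_right, real_inner_smul_right, real_inner_smul_right,
      zero_sub, cos_neg, cos_sq] at e3
    simp only [smul_eq_mul]
    linarith
  obtain ⟨e1, e2, e3⟩ := trig_unique k2
  rw [k1, inner_add_right, inner_add_right, real_inner_smul_right, real_inner_smul_right, cos_sq,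
    sub_eq_zero.1 e1, sub_eq_zero.1 e2, e3]
  ring

end Vale.Agent.P231
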