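import Vale.Agent.P231.LocLaw
import Vale.Agent.P231.Trig
import Vale.Agent.P231.Per

/-! The law of cosines. -/

open scoped Manifold ContDiff Topology ENNReal RealInnerProductSpace
open Set Filter Real Module

set_option linter.unusedSectionVars false

namespace Vale.Agent.P231

open Vale.Agent.P255 Vale.Agent.P234

variable {E : Type} [NormedAddCommGroup E] [NormedSpace ℝ E] [FiniteDimensional ℝ E]
  {M : Type} [MetricSpace M] [CompactSpace M] [ChartedSpace E M] [IsManifold 𝓘(ℝ, E) ∞ M]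
  {g : M → E →L[ℝ] E →L[ℝ] ℝ} {κ : ℝ}
  {n a : ℕ} {P : Eu n →L[ℝ] Eu n →L[ℝ] Eu n →L[ℝ] Eu n} {x : M} {ι : Eu n ≃L[ℝ] E}

theorem Mo.nr_eq (h : Bl g κ) (hm : Mo g κ x ι P) (y : Eu n) : nr g x (ι y) = κ * ‖y‖ := by
  rw [nr, hm.iso, real_inner_self_eq_norm_sq, ← mul_pow,
    Real.sqrt_sq (mul_nonneg h.kpos.le (norm_nonneg _))]

theorem Mo.surj (h : Bl g κ) (hm : Mo g κ x ι P) (q : M) :
    ∃ y, ‖y‖ ≤ π / 2 ∧ ex g x (ι y) = q ∧ dist x q = κ * ‖y‖ := by
  obtain ⟨v, hv, hq⟩ := h.exists_dir x q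
  have hk := h.kpos
  have h1 : ‖ι.symm v‖ = 1 := by
    have := hm.nr_eq h (ι.symm v)
    rw [ι.apply_symm_apply, hv] at this
    exact (mul_eq_left₀ hk.ne').1 this.symm
  have h2 : ‖(dist x q / κ) • ι.symm v‖ = dist x q / κ := by
    rw [norm_smul, h1, mul_one, Real.norm_of_nonneg (by positivity)]
  refine ⟨(dist x q / κ) • ι.symm v, ?_, ?_, ?_⟩
  · rw [h2, div_le_iff₀ hk]
    exact h.diam x q
  · rw [map_smul, ι.apply_symm_apply, ← h.toRM.geo_eq, hq]
  · rw [h2, mul_div_cancel₀ _ hk.ne']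

namespace LawAux

theorem polar (hn : 1 ≤ n) (y : Eu n) : ∃ θ : Eu n, ‖θ‖ = 1 ∧ y = ‖y‖ • θ := by
  by_cases hy : y = 0
  · exact ⟨EuclideanSpace.single ⟨0, hn⟩ 1, by simp, by simp [hy]⟩
  · have := norm_ne_zero_iff.2 hy
    exact ⟨‖y‖⁻¹ • y, by simp [norm_smul, this], by simp [smul_smul, this]⟩

theorem dim (h : Bl g κ) (ι : Eu n ≃L[ℝ] E) : 1 ≤ n := by
  have := ι.toLinearEquiv.finrank_eq
  rw [finrank_euclideanSpace, Fintype.card_fin] at this
  exact this ▸ h.dimpos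

theorem unit (h : Bl g κ) (hm : Mo g κ x ι P) {θ : Eu n} (hθ : ‖θ‖ = 1) : nr g x (ι θ) = κ := by
  rw [hm.nr_eq h, hθ, mul_one]

theorem dist_ex (h : Bl g κ) (hm : Mo g κ x ι P) {y : Eu n} (hy : ‖y‖ ≤ π / 2) :
    dist x (ex g x (ι y)) = κ * ‖y‖ := by
  obtain ⟨θ, hθ, hy'⟩ := polar (dim h ι) y
  have h1 := h.dist_geo (unit h hm hθ) (s := 0) (t := ‖y‖) (by simpa using hy)
  rw [h.toRM.geo_zero, h.toRM.geo_eq, ← map_smul, ← hy'] at h1
  rw [h1, sub_zero, abs_norm, mul_comm]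

theorem inj (h : Bl g κ) (hm : Mo g κ x ι P) {y z : Eu n} (hy : ‖y‖ < π / 2) (hz : ‖z‖ ≤ π / 2)
    (he : ex g x (ι z) = ex g x (ι y)) : z = y := by
  obtain ⟨θ, hθ, hy'⟩ := polar (dim h ι) y
  have h1 := h.inj (unit h hm hθ) (t := ‖y‖) (by simpa using hy)
  rw [← map_smul, ← hy'] at h1
  exact ι.injective (h.toRM.mn_unique h1 (by rw [Mn, dist_ex h hm hz, hm.nr_eq h]) he)

theorem cc_one (h : Bl g κ) (hP : Fib P a) (hm : Mo g κ x ι P) {y z : Eu n} (hy : ‖y‖ ≤ π / 2)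
    (hz : ‖z‖ ≤ π / 2) (he : ex g x (ι z) = ex g x (ι y)) : cc P (hp y) (hp z) = 1 := by
  rcases hy.lt_or_eq with h1 | h1
  · rw [inj h hm h1 hz he]
    exact hP.cc_self (hp_mem hy)
  · have h2 : ‖z‖ = π / 2 := by
      have := dist_ex h hm hz
      rw [he, dist_ex h hm hy, h1] at this
      exact (mul_left_cancel₀ h.kpos.ne' this).symm
    obtain ⟨θ, hθ, hy'⟩ := polar (dim h ι) y
    obtain ⟨θ', hθ', hz'⟩ := polar (dim h ι) z
    rw [h1] at hy'
    rw [h2] at hz'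
    rw [hy', hz', map_smul, map_smul] at he
    have h3 := (hm.cut θ θ' hθ hθ').1 he.symm
    rw [hy', hz', hp_smul hθ, hp_smul hθ', cc]
    simp [h3, hθ']

/-- A section of the normal coordinates. -/
noncomputable def sec (h : Bl g κ) (hm : Mo g κ x ι P) (q : M) : Eu n := (hm.surj h q).choose

theorem sec_spec (h : Bl g κ) (hm : Mo g κ x ι P) (q : M) : ‖sec h hm q‖ ≤ π / 2 ∧
    ex g x (ι (sec h hm q)) = q ∧ dist x q = κ * ‖sec h hm q‖ := (hm.surj h q).choose_spec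

theorem cont (h : Bl g κ) (x : M) (ι : Eu n ≃L[ℝ] E) : Continuous fun y => ex g x (ι y) :=
  (h.toRM.continuous_ex x).comp ι.continuous

theorem tend (h : Bl g κ) (hm : Mo g κ x ι P) {Z : Type} [TopologicalSpace Z] {Θ : Eu n → Z}
    (hΘ : Continuous Θ) {q₀ : M} {z₀ : Z} (h0 : ∀ y, ‖y‖ ≤ π / 2 → ex g x (ι y) = q₀ → Θ y = z₀) :
    Tendsto (fun q => Θ (sec h hm q)) (𝓝 q₀) (𝓝 z₀) := by
  intro W hW
  have h1 := (isCompact_closedBall (0 : Eu n) (π / 2)).eventually_forall_of_forall_eventually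
    (x₀ := q₀) (P := fun q y => ex g x (ι y) = q → Θ y ∈ W) fun y hy => by
      by_cases he : ex g x (ι y) = q₀
      · have h2 : ∀ᶠ z : M × Eu n in 𝓝 (q₀, y), Θ z.2 ∈ W :=
          (hΘ.comp continuous_snd).continuousAt.eventually
            (by simpa [h0 y (by simpa using hy) he] using hW)
        exact h2.mono fun z hz _ => hz
      · have h2 : ∀ᶠ z : M × Eu n in 𝓝 (q₀, y), ex g x (ι z.2) ≠ z.1 :=
          (isOpen_ne_fun ((cont h x ι).comp continuous_snd) continuous_fst).mem_nhds he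
        exact h2.mono fun z hz hz' => absurd hz' hz
  exact mem_map.2 (h1.mono fun q hq =>
    hq _ (by simpa using (sec_spec h hm q).1) (sec_spec h hm q).2.1)

theorem cc_rad (hP : Fib P a) {θ : Eu n} (hθ : ‖θ‖ = 1) (s t : ℝ) :
    cc P (hp (s • θ)) (hp (t • θ)) = cos (s - t) ^ 2 := by
  rw [hp_smul hθ, hp_smul hθ, cc, cos_sub]
  have := hP.self θ
  simp only [map_smul, smul_apply, this, hθ, inner_smul_left, inner_smul_right,
    real_inner_self_eq_norm_sq, conj_trivial]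
  ring

theorem law_lt (h : Bl g κ) (hP : Fib P a) (hm : Mo g κ x ι P) {y z : Eu n} (hy : ‖y‖ < π / 2)
    (hz : ‖z‖ ≤ π / 2) :
    cos (dist (ex g x (ι y)) (ex g x (ι z)) / κ) ^ 2 = cc P (hp y) (hp z) := by
  have hk := h.kpos
  obtain ⟨Φ, hΦ, hΦ1, hΦ2⟩ := hP.exists_emb (dim h ι)
  have hdesc : ∀ y z : Eu n, ‖y‖ ≤ π / 2 → ‖z‖ ≤ π / 2 → ex g x (ι z) = ex g x (ι y) →
      Φ (hp z) = Φ (hp y) := by
    intro y z hy hz he
    have h1 := norm_sub_sq_real (Φ (hp y)) (Φ (hp z))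
    rw [← real_inner_self_eq_norm_sq (Φ (hp y)), ← real_inner_self_eq_norm_sq (Φ (hp z)), hΦ1, hΦ1,
      hΦ1, hP.cc_self (hp_mem hy), hP.cc_self (hp_mem hz), cc_one h hP hm hy hz he] at h1
    have h2 : ‖Φ (hp y) - Φ (hp z)‖ = 0 := pow_eq_zero_iff two_ne_zero |>.1 (by linarith)
    exact (sub_eq_zero.1 (norm_eq_zero.1 h2)).symm
  set Φ' : M → EuclideanSpace ℝ (Option (Fin n) × Option (Fin n)) :=
    fun q => Φ (hp (sec h hm q)) with hΦ'
  have hΦ3 : ∀ y : Eu n, ‖y‖ ≤ π / 2 → Φ' (ex g x (ι y)) = Φ (hp y) := fun y hy =>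
    hdesc _ _ hy (sec_spec h hm _).1 (sec_spec h hm _).2.1
  have hc : Continuous Φ' := continuous_iff_continuousAt.2 fun q =>
    tend h hm (Θ := fun y => Φ (hp y)) (hΦ.comp continuous_hp) fun y hy he =>
      hdesc _ _ (sec_spec h hm q).1 hy (he.trans (sec_spec h hm q).2.1.symm)
  have hl : ∀ q, EuclideanSpace.proj (𝕜 := ℝ) (none, none) (Φ' q) = cos (dist x q / κ) ^ 2 := by
    intro q
    rw [(sec_spec h hm q).2.2, mul_div_cancel_left₀ _ hk.ne']
    exact hΦ2 _
  obtain ⟨v, hv, hq⟩ := h.exists_dir (ex g x (ι y)) (ex g x (ι z))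
  set p := ex g x (ι y) with hp'
  have hσ := continuous_geo h.toRM p v
  have hd : ∀ r : ℝ, ∀ᶠ w : ℝ × ℝ in 𝓝 (r, r), |w.1 - r| ≤ π / 2 ∧ |w.2 - r| ≤ π / 2 ∧
      |w.2 - w.1| ≤ π / 2 := by
    intro r
    have := pi_div_two_pos
    refine Eventually.and ?_ (Eventually.and ?_ ?_) <;>
    exact (ContinuousAt.eventually_lt (by fun_prop) continuousAt_const (by simpa)).mono
      fun w hw => hw.le
  have key := trig_glob (f := fun t => Φ' (geo g p v t)) (hc.comp hσ)
    (fun t => by rw [h.geo_per hv]) (EuclideanSpace.proj (𝕜 := ℝ) (none, none))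
    (fun t => by rw [hl]; positivity)
    (by
      rw [hl, h.toRM.geo_zero, hp', dist_ex h hm hy.le, mul_div_cancel_left₀ _ hk.ne']
      exact pow_pos (cos_pos_of_mem_Ioo ⟨by linarith [norm_nonneg y, pi_pos], hy⟩) 2)
    (fun r hr => by
      rw [hl] at hr
      obtain ⟨a1, a2, a3⟩ := sec_spec h hm (geo g p v r)
      set y₀ := sec h hm (geo g p v r) with hy₀
      have a4 : ‖y₀‖ < π / 2 := by
        refine lt_of_le_of_ne a1 fun he => ?_
        rw [a3, mul_div_cancel_left₀ _ hk.ne', he] at hr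
        simp at hr
      rcases (norm_nonneg y₀).eq_or_lt with a5 | a5
      · have a6 : geo g p v r = x := by
          rw [← a5, mul_zero] at a3
          exact (dist_eq_zero.1 a3).symm
        have a7 : ‖ι.symm (vl g p v r)‖ = 1 := by
          have b1 := hm.nr_eq h (ι.symm (vl g p v r))
          have b2 := nr_vl' h.toRM p v r
          rw [a6, hv] at b2
          rw [ι.apply_symm_apply, b2] at b1
          exact (mul_eq_left₀ hk.ne').1 b1.symm
        have a8 : ∀ s, |s - r| ≤ π / 2 →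
            Φ' (geo g p v s) = Φ (hp ((s - r) • ι.symm (vl g p v r))) := by
          intro s hs
          rw [← hΦ3 _ (by rwa [norm_smul, a7, mul_one]), map_smul, ι.apply_symm_apply,
            ← h.toRM.geo_eq]
          conv_rhs => rw [← a6]
          rw [geo_flow h.toRM, add_sub_cancel]
        filter_upwards [hd r] with w hw
        rw [a8 _ hw.1, a8 _ hw.2.1, hΦ1, cc_rad hP a7, sub_sub_sub_cancel_right]
      · have a6 : Tendsto (fun s => sec h hm (geo g p v s)) (𝓝 r) (𝓝 y₀) :=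
          (tend h hm continuous_id fun y hy he => inj h hm a4 hy (he.trans a2.symm)).comp
            (hσ.tendsto r)
        have a7 : Tendsto (fun w : ℝ × ℝ => (sec h hm (geo g p v w.1), sec h hm (geo g p v w.2)))
            (𝓝 (r, r)) (𝓝 (y₀, y₀)) :=
          (a6.comp (continuous_fst.tendsto (r, r))).prodMk_nhds
            (a6.comp (continuous_snd.tendsto (r, r)))
        filter_upwards [hd r, a7.eventually (hm.loc h hP ⟨a5, a4⟩)] with w hw hw'
        rw [(sec_spec h hm _).2.1, (sec_spec h hm _).2.1, h.dist_geo hv hw.2.2,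
          mul_div_cancel_right₀ _ hk.ne', cos_abs, ← cos_neg, neg_sub] at hw'
        rw [hw']
        exact hΦ1 _ _)
    (fun r t hr => by
      rw [hl] at hr ⊢
      have a1 := abs_cos_sub_cos_le (dist x (geo g p v t) / κ) (dist x (geo g p v r) / κ)
      rw [pow_eq_zero_iff two_ne_zero |>.1 hr, sub_zero, ← sub_div, abs_div, abs_of_pos hk] at a1
      have a2 := abs_dist_sub_le (geo g p v t) (geo g p v r) x
      rw [dist_comm _ x, dist_comm _ x] at a2
      have a3 := h.toRM.dist_ex_ex p v t r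
      rw [← h.toRM.geo_eq, ← h.toRM.geo_eq, hv] at a3
      exact sq_le_sq.2 (a1.trans ((div_le_iff₀ hk).2 (a2.trans a3))))
    (dist p (ex g x (ι z)) / κ)
  rw [← key, hq, h.toRM.geo_zero, hp', hΦ3 _ hy.le, hΦ3 _ hz, hΦ1]

end LawAux

/-- `Φ` from `exists_emb` descends to a continuous map `Φ' : M → _` with `Φ' (ex g x (ι y)) = Φ (hp y)` on the
closed ball (`cut`, `fib`, injectivity inside; a continuous surjection from a compact space is a quotient
map), with first entry `cos² (dist x q / κ)`. For `y` in `Bo n` let `σ` be the geodesic from `ex g x (ι y)` to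
the other point (`exists_dir`). If `σ` passes through `x` it is radial and the formula is explicit (`hp_smul`,
`dist_geo`). Otherwise `trig_glob` for `Φ' ∘ σ` (`loc`; the inverse of `ex g x ∘ ι` is continuous off the cut
locus by compactness). Extend to all `y` by continuity (`Bo n` is dense in the closed ball). -/
theorem Mo.law (h : Bl g κ) (hP : Fib P a) (hm : Mo g κ x ι P) {y z : Eu n} (hy : ‖y‖ ≤ π / 2)
    (hz : ‖z‖ ≤ π / 2) :
    cos (dist (ex g x (ι y)) (ex g x (ι z)) / κ) ^ 2 = cc P (hp y) (hp z) := by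
  have h1 := LawAux.cont h x ι
  have h2 : Continuous fun p : ℝ × Eu n => cc P p (hp z) := by
    unfold cc
    fun_prop
  have h3 : IsClosed {y : Eu n |
      cos (dist (ex g x (ι y)) (ex g x (ι z)) / κ) ^ 2 = cc P (hp y) (hp z)} :=
    isClosed_eq (by fun_prop) (h2.comp continuous_hp)
  have h4 : closure (Metric.ball (0 : Eu n) (π / 2)) ⊆ _ :=
    h3.closure_subset_iff.2 fun y hy => LawAux.law_lt h hP hm (by simpa using hy) hz
  rw [closure_ball _ pi_div_two_pos.ne'] at h4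
  exact h4 (by simpa using hy)

theorem Mo.homothetic (h : Bl g κ) (hP : Fib P a) (hm : Mo g κ x ι P) {X : Type} {d : X → X → ℝ}
    (hX : Par P X d) : Homothetic M X d := by
  obtain ⟨σ, hσ, f, h1, h2, h3⟩ := hX
  have hk := h.kpos
  have h4 : ∀ y z : Eu n, ‖y‖ ≤ π / 2 → ‖z‖ ≤ π / 2 →
      d (f (hp y)) (f (hp z)) = σ / κ * dist (ex g x (ι y)) (ex g x (ι z)) := by
    intro y z hy hz
    have a1 : 0 ≤ dist (ex g x (ι y)) (ex g x (ι z)) / κ := by positivity
    have a2 : dist (ex g x (ι y)) (ex g x (ι z)) / κ ≤ π / 2 := (div_le_iff₀ hk).2 (h.diam _ _)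
    rw [h1 _ (hp_mem hy) _ (hp_mem hz), ← hm.law h hP hy hz,
      Real.sqrt_sq (cos_nonneg_of_mem_Icc ⟨by linarith, a2⟩), arccos_cos a1 (by linarith)]
    ring
  have h5 : ∀ q q', d (f (hp (LawAux.sec h hm q))) (f (hp (LawAux.sec h hm q'))) =
      σ / κ * dist q q' := fun q q' => by
    rw [h4 _ _ (LawAux.sec_spec h hm q).1 (LawAux.sec_spec h hm q').1,
      (LawAux.sec_spec h hm q).2.1, (LawAux.sec_spec h hm q').2.1]
  have h6 : 0 < σ / κ := by positivity
  refine ⟨σ / κ, h6, Equiv.ofBijective (fun q => f (hp (LawAux.sec h hm q))) ⟨?_, ?_⟩, h5⟩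
  · intro q q' he
    have := (h3 _ _).2 he
    rw [h5] at this
    exact dist_eq_zero.1 ((mul_eq_zero.1 this).resolve_left h6.ne')
  · intro z
    obtain ⟨p, hp1, rfl⟩ := h2 z
    obtain ⟨y, hy, rfl⟩ := hp_surj hp1
    refine ⟨ex g x (ι y), (h3 _ _).1 ?_⟩
    rw [h4 _ _ (LawAux.sec_spec h hm _).1 hy, (LawAux.sec_spec h hm _).2.1, dist_self, mul_zero]

end Vale.Agent.P231
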