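import Vale.Agent.P231.Eik
import Vale.Agent.P231.Bl
import Vale.Agent.P234.LocInv

/-! The law of cosines for small triangles. -/

open scoped Manifold ContDiff Topology ENNReal RealInnerProductSpace
open Set Filter Real Module

set_option linter.unusedSectionVars false

namespace Vale.Agent.P231

open Vale.Agent.P255 Vale.Agent.P234

variable {E : Type} [NormedAddCommGroup E] [NormedSpace ℝ E] [FiniteDimensional ℝ E]
  {M : Type} [MetricSpace M] [CompactSpace M] [ChartedSpace E M] [IsManifold 𝓘(ℝ, E) ∞ M]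
  {g : M → E →L[ℝ] E →L[ℝ] ℝ} {κ : ℝ}
  {n a : ℕ} {P : Eu n →L[ℝ] Eu n →L[ℝ] Eu n →L[ℝ] Eu n} {x : M} {ι : Eu n ≃L[ℝ] E}

namespace LocLawAux

theorem lim {G : ℝ → ℝ} {b : ℝ} (hG : Continuous G) (h : ∀ θ ∈ Ioo (0 : ℝ) 1, G θ ≤ b) :
    G 1 ≤ b :=
  le_of_tendsto ((hG.tendsto 1).mono_left (nhdsWithin_le_nhds (s := Iio 1)))
    (mem_of_superset (Ioo_mem_nhdsLT one_pos) h)

theorem line (u w : Eu n) (s : ℝ) : HasDerivAt (fun s : ℝ => u + s • w) w s := by
  simpa using ((hasDerivAt_id s).smul_const w).const_add u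

theorem isOpen_Bo : IsOpen (Bo n) := isOpen_Ioo.preimage continuous_norm

theorem nr_eq (h : Bl g κ) (hm : Mo g κ x ι P) {u : Eu n} (hu : u ∈ Bo n) (w : Eu n) :
    nr g (ex g x (ι u)) (dM E (ex g x) (ι u) (ι w)) = κ * √(gm P u w w) := by
  rw [nr, hm.met u hu, sqrt_mul (sq_nonneg _), sqrt_sq h.kpos.le]

theorem gm_cs (h : Bl g κ) (hm : Mo g κ x ι P) {u : Eu n} (hu : u ∈ Bo n) (w w' : Eu n) :
    |gm P u w w'| ≤ √(gm P u w w) * √(gm P u w' w') := by
  have := h.toRM.cs (ex g x (ι u)) (dM E (ex g x) (ι u) (ι w)) (dM E (ex g x) (ι u) (ι w'))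
  rw [nr_eq h hm hu, nr_eq h hm hu, hm.met u hu, abs_mul, abs_sq] at this
  exact le_of_mul_le_mul_left (this.trans_eq (by ring)) (pow_pos h.kpos 2)

theorem cal (h : Bl g κ) (hm : Mo g κ x ι P) {y₀ : Eu n} (hy : y₀ ∈ Bo n) :
    ∀ᶠ z in 𝓝 (y₀, y₀), ∀ F : Eu n → ℝ, (∀ u ∈ Bo n, ContDiffAt ℝ 1 F u ∧
      ∀ w, fderiv ℝ F u w ≤ κ * √(gm P u w w)) →
      F z.2 - F z.1 ≤ dist (ex g x (ι z.1)) (ex g x (ι z.2)) := by
  have hv : nr g x (ι (‖y₀‖⁻¹ • y₀)) = κ := by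
    rw [nr, hm.iso, real_inner_self_eq_norm_sq, norm_smul, norm_inv, norm_norm,
      inv_mul_cancel₀ hy.1.ne', one_pow, mul_one, sqrt_sq h.kpos.le]
  have hnc := h.nc hv (t := ‖y₀‖) (by rw [abs_norm]; exact hy.2)
  rw [← map_smul, smul_inv_smul₀ hy.1.ne'] at hnc
  obtain ⟨e, he, hz⟩ : ∃ e ∈ atlas E M, ex g x (ι y₀) ∈ e.source :=
    ⟨_, chart_mem_atlas E _, mem_chart_source E _⟩
  have h1 : ∀ v, SmP E (ex g x) v := fun v => h.toRM.smP_ex x contDiffAt_id
  have h2 : ∀ᶠ v in 𝓝 (ι y₀), ex g x v ∈ e.source :=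
    (h1 _).continuousAt.eventually (e.open_source.mem_nhds hz)
  obtain ⟨G, g1, g2⟩ := LocInvAux.inv (F := fun v => e (ex g x v)) (a := ι y₀)
    (h2.mono fun v hv => (h1 v).chart he hv) fun u hu =>
      hnc _ (dC_injective he hz ((((h1 _).dC_dM he hz u).trans hu).trans (map_zero _).symm))
  have g3 : Tendsto G (𝓝 (e (ex g x (ι y₀)))) (𝓝 (ι y₀)) := by
    simpa only [ContinuousAt, g1.self_of_nhds] using g2.self_of_nhds.2.continuousAt
  have g4 : ∀ᶠ v in 𝓝 (ι y₀), ι.symm v ∈ Bo n :=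
    ι.symm.continuousAt.eventually (isOpen_Bo.mem_nhds (by simpa using hy))
  obtain ⟨r, hr, g5⟩ := Metric.eventually_nhds_iff.1 (((e.continuousAt hz).eventually
    (g2.eventually_nhds.and (g3.eventually (h2.and g4)))).and (e.open_source.mem_nhds hz))
  have g6 : ∀ᶠ y in 𝓝 y₀,
      G (e (ex g x (ι y))) = ι y ∧ dist (ex g x (ι y)) (ex g x (ι y₀)) < r / 2 / 2 :=
    ι.continuousAt.eventually (g1.and ((h1 _).continuousAt.eventually
      (Metric.ball_mem_nhds _ (by positivity))))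
  filter_upwards [continuousAt_fst.eventually g6, continuousAt_snd.eventually g6] with z a1 a2 F hF
  have a3 := h.cal e he (fun b => F (ι.symm (G b))) (ex g x (ι z.1)) (ex g x (ι z.2)) (r / 2)
    (by linarith [dist_triangle_right (ex g x (ι z.1)) (ex g x (ι z.2)) (ex g x (ι y₀))])
    fun m hm' => by
      obtain ⟨⟨b1, b2, b3⟩, b4⟩ := g5 (y := m) (by
        linarith [dist_triangle m (ex g x (ι z.1)) (ex g x (ι y₀)), Metric.mem_ball.1 hm'])
      have b5 := b1.self_of_nhds.2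
      have b6 := (b5.differentiableAt (by simp)).hasFDerivAt
      refine ⟨b4, (hF _ b3).1.comp (e m) (ι.symm.contDiff.contDiffAt.comp _
        (b5.of_le (by simp))), fun w => ?_⟩
      have b7 := ((h1 _).comp b5).dC_dM he b2 w
      rw [EventuallyEq.fderiv_eq (f := id) (b1.mono fun q hq => hq.1), fderiv_id,
        dM_comp (h1 _) b6.differentiableAt, ContinuousLinearMap.id_apply] at b7
      have b8 := nr_eq h hm b3 (ι.symm (fderiv ℝ G (e m) w))
      rw [ι.apply_symm_apply, ι.apply_symm_apply, nr, ← gc_dC g he b2, b7,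
        b1.self_of_nhds.1] at b8
      exact (congrArg (fun T : E →L[ℝ] ℝ => T w) (HasFDerivAt.comp (f := fun b => ι.symm (G b))
        (e m) ((hF _ b3).1.differentiableAt one_ne_zero).hasFDerivAt
        (ι.symm.hasFDerivAt.comp _ b6)).fderiv).trans_le (((hF _ b3).2 _).trans_eq b8.symm)
  simpa only [a1.1, a2.1, ι.symm_apply_apply] using a3

theorem len (h : Bl g κ) (hm : Mo g κ x ι P) {u : Eu n} (hu : u ∈ Bo n) (w : Eu n) {L : ℝ}
    (hL : κ * √(gm P u w w) < L) :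
    ∀ᶠ t in 𝓝[>] (0 : ℝ), dist (ex g x (ι u)) (ex g x (ι (u + t • w))) ≤ L * t := by
  have h0 : ‖u‖ ≠ 0 := hu.1.ne'
  have h1 : ContinuousAt (fun y => κ * √(gm P y w w)) u := by
    unfold gm
    fun_prop (disch := positivity)
  have h2 : Tendsto (fun t : ℝ => u + t • w) (𝓝 0) (𝓝 u) :=
    (by fun_prop : Continuous fun t : ℝ => u + t • w).tendsto' _ _ (by simp)
  obtain ⟨ε, hε, h3⟩ := Metric.eventually_nhds_iff.1
    (h2.eventually ((h1.eventually_lt continuousAt_const hL).and (isOpen_Bo.mem_nhds hu)))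
  filter_upwards [Ioo_mem_nhdsGT hε] with t ht
  have h4 := h.len (fun s => ex g x (ι (u + s • w))) 0 t L ht.1.le fun s hs => by
    have b1 := h3 (y := s) (by
      rw [Real.dist_eq, sub_zero, abs_of_nonneg hs.1]; exact hs.2.trans_lt ht.2)
    have b2 : SmP E (fun s : ℝ => ex g x (ι (u + s • w))) s := h.toRM.smP_ex x (by fun_prop)
    refine ⟨ContMDiffAt.of_le b2 (by simp), ?_⟩
    have b3 : HasDerivAt (fun s : ℝ => ι (u + s • w)) (ι w) s :=
      ι.hasFDerivAt.comp_hasDerivAt s (line u w s)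
    have b4 := dM_comp (X := ex g x) (φ := fun s : ℝ => ι (u + s • w)) (b := s)
      (h.toRM.smP_ex x contDiffAt_id) b3.differentiableAt 1
    rw [fderiv_apply_one_eq_deriv, b3.deriv] at b4
    rw [vel, b4, nr_eq h hm b1.2]
    exact b1.1.le
  simpa using h4

/-- Smoothed model distance. -/
noncomputable def RR (κ θ c : ℝ) : ℝ := κ / 2 * arccos (θ * (2 * c - 1))

theorem dR {C : Eu n → ℝ} {u : Eu n} (hC : ContDiffAt ℝ 1 C u) {θ : ℝ}
    (ht : (θ * (2 * C u - 1)) ^ 2 < 1) : ContDiffAt ℝ 1 (fun u => RR κ θ (C u)) u ∧ ∀ w,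
      fderiv ℝ (fun u => RR κ θ (C u)) u w =
        -(κ * θ * fderiv ℝ C u w) / √(1 - (θ * (2 * C u - 1)) ^ 2) := by
  have h1 : θ * (2 * C u - 1) ≠ -1 := fun h => by simp [h] at ht
  have h2 : θ * (2 * C u - 1) ≠ 1 := fun h => by simp [h] at ht
  refine ⟨contDiffAt_const.mul (ContDiffAt.comp (f := fun u => θ * (2 * C u - 1)) u
    (contDiffAt_arccos h1 h2) (by fun_prop)), fun w => ?_⟩
  have h3 := (HasDerivAt.comp_hasFDerivAt (f := fun u => θ * (2 * C u - 1)) u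
    (hasDerivAt_arccos h1 h2) ((((hC.differentiableAt one_ne_zero).hasFDerivAt.const_mul
      2).sub_const 1).const_mul θ)).const_mul (κ / 2)
  refine (congrArg (fun T : Eu n →L[ℝ] ℝ => T w) h3.fderiv).trans ?_
  simp only [smul_apply, smul_eq_mul]
  ring

theorem lower (h : Bl g κ) (hP : Fib P a) (hm : Mo g κ x ι P) {p : ℝ × Eu n} (hp' : p ∈ Hs n)
    {θ : ℝ} (hθ : θ ∈ Ioo (0 : ℝ) 1) (u : Eu n) (hu : u ∈ Bo n) :
    ContDiffAt ℝ 1 (fun u => RR κ θ (cc P p (hp u))) u ∧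
      ∀ w, fderiv ℝ (fun u => RR κ θ (cc P p (hp u))) u w ≤ κ * √(gm P u w w) := by
  obtain ⟨c0, c1⟩ := (hP.cc_mem hp' (hp_mem hu.2.le)).1
  have h0 : θ ^ 2 < 1 := by nlinarith [hθ.1, hθ.2]
  have h1 : (θ * (2 * cc P p (hp u) - 1)) ^ 2 < 1 := by
    nlinarith [mul_nonneg (sq_nonneg θ) (mul_nonneg c0 (sub_nonneg.2 c1))]
  obtain ⟨h2, h3⟩ := dR (κ := κ) (contDiffAt_cc p (norm_pos_iff.1 hu.1)) h1
  obtain ⟨v, h4, h5⟩ := hP.eik hp' hu
  refine ⟨h2, fun w => ?_⟩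
  have h6 := (neg_le_abs _).trans (gm_cs h hm hu v w)
  have h7 : θ * √(gm P u v v) ≤ √(1 - (θ * (2 * cc P p (hp u) - 1)) ^ 2) :=
    le_sqrt_of_sq_le (by rw [mul_pow, h5, sq_sqrt (by nlinarith)]; nlinarith)
  rw [h3, h4, div_le_iff₀ (sqrt_pos.2 (sub_pos.2 h1))]
  nlinarith [mul_le_mul_of_nonneg_left h6 (mul_pos h.kpos hθ.1).le, mul_le_mul_of_nonneg_left h7
    (mul_nonneg h.kpos.le (sqrt_nonneg (gm P u w w)))]

theorem step (h : Bl g κ) (hP : Fib P a) (hm : Mo g κ x ι P) {p : ℝ × Eu n} (hp' : p ∈ Hs n)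
    {θ : ℝ} (hθ : θ ∈ Ioo (0 : ℝ) 1) {u : Eu n} (hu : u ∈ Bo n) (c0 : 0 < cc P p (hp u))
    (c1 : cc P p (hp u) < 1) : ∃ᶠ u' in 𝓝 u, RR κ 1 (cc P p (hp u')) +
      θ * dist (ex g x (ι u)) (ex g x (ι u')) < RR κ 1 (cc P p (hp u)) := by
  have h1 : (1 * (2 * cc P p (hp u) - 1)) ^ 2 < 1 := by nlinarith [mul_pos c0 (sub_pos.2 c1)]
  obtain ⟨h2, h3⟩ := dR (κ := κ) (contDiffAt_cc p (norm_pos_iff.1 hu.1)) h1
  obtain ⟨v, h4, h5⟩ := hP.eik hp' hu
  have h6 : 1 - (1 * (2 * cc P p (hp u) - 1)) ^ 2 = gm P u v v := by rw [h5]; ring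
  have h7 : 0 < κ * √(gm P u v v) := mul_pos h.kpos (sqrt_pos.2 (h6 ▸ sub_pos.2 h1))
  obtain ⟨L, h8, h9⟩ := exists_between ((lt_div_iff₀ hθ.1).2 (mul_lt_of_lt_one_right h7 hθ.2))
  have h10 := (HasFDerivAt.comp_hasDerivAt_of_eq (0 : ℝ)
    (h2.differentiableAt one_ne_zero).hasFDerivAt (line u v 0) (by simp)).tendsto_slope_zero_right
  rw [h3, h4, h6, mul_one, neg_div, mul_div_assoc, div_sqrt] at h10
  refine (((line u v 0).continuousAt.tendsto.mono_left
    (nhdsWithin_le_nhds (s := Ioi 0))).mono_right (by simp)).frequently (Eventually.frequently ?_)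
  filter_upwards [len h hm hu v h8, self_mem_nhdsWithin, h10.eventually_lt_const
    (neg_lt_neg ((lt_div_iff₀ hθ.1).1 h9))] with t b1 (b2 : 0 < t) b3
  simp only [Function.comp, zero_add, zero_smul, add_zero, smul_eq_mul] at b3
  rw [inv_mul_lt_iff₀ b2] at b3
  nlinarith [mul_le_mul_of_nonneg_left b1 hθ.1.le]

theorem cc_lt (hP : Fib P a) {y u : Eu n} (hy : y ∈ Bo n) (hu : u ∈ Bo n) (h : u ≠ y) :
    cc P (hp y) (hp u) < 1 := by
  have h1 := hP.cc_mem (hp_mem hy.2.le) (hp_mem hu.2.le)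
  exact h1.1.2.lt_of_ne fun h2 => h (hp_inj hu.2.le hy.2.le (h1.2
    (cos_pos_of_mem_Ioo ⟨by linarith [hy.1, pi_pos], hy.2⟩) h2).symm)

theorem cont {T : Type} [TopologicalSpace T] {f f' : T → Eu n} (hf : Continuous f)
    (hf' : Continuous f') : Continuous fun t => cc P (hp (f t)) (hp (f' t)) :=
  (show Continuous fun z : (ℝ × Eu n) × ℝ × Eu n => cc P z.1 z.2 by unfold cc; fun_prop).comp
    ((continuous_hp.comp hf).prodMk (continuous_hp.comp hf'))

theorem upper (h : Bl g κ) (hP : Fib P a) (hm : Mo g κ x ι P) {y₀ : Eu n} (hy : y₀ ∈ Bo n) :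
    ∀ᶠ z in 𝓝 (y₀, y₀), ∀ θ ∈ Ioo (0 : ℝ) 1,
      θ * dist (ex g x (ι z.2)) (ex g x (ι z.1)) ≤ RR κ 1 (cc P (hp z.1) (hp z.2)) := by
  have h1 := hP.cc_self (hp_mem hy.2.le)
  have h2 : ∀ᶠ z in 𝓝 (y₀, y₀), 0 < cc P (hp z.1) (hp z.2) ∧ z.2 ∈ Bo n :=
    (((cont continuous_fst continuous_snd).tendsto' (y₀, y₀) 1 (by exact h1)).eventually_const_lt
      one_pos).and (continuousAt_snd.eventually (isOpen_Bo.mem_nhds hy))
  obtain ⟨r, hr, h2⟩ := Metric.nhds_basis_closedBall.eventually_iff.1 h2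
  have h3 : ∀ y ∈ Metric.closedBall y₀ r, ∀ u ∈ Metric.closedBall y₀ r,
      0 < cc P (hp y) (hp u) ∧ u ∈ Bo n := fun y hy u hu =>
    h2 (x := (y, u)) ((max_le_iff (a := dist y y₀) (b := dist u y₀)).2 ⟨hy, hu⟩)
  have h0 := Metric.mem_closedBall_self (x := y₀) hr.le
  have h4 := (isCompact_sphere y₀ r).eventually_forall_of_forall_eventually (x₀ := (y₀, y₀))
    (P := fun z u => cc P (hp z.1) (hp u) < cc P (hp z.1) (hp z.2)) fun u hu =>
    ContinuousAt.eventually_lt (cont continuous_fst.fst continuous_snd).continuousAt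
      (cont continuous_fst.fst continuous_fst.snd).continuousAt ((cc_lt hP hy (h3 _ h0 _
        (Metric.sphere_subset_closedBall hu)).2 (Metric.ne_of_mem_sphere hu hr.ne')).trans_eq
          h1.symm)
  filter_upwards [h4, continuousAt_fst.eventually (Metric.closedBall_mem_nhds y₀ hr),
    continuousAt_snd.eventually (Metric.closedBall_mem_nhds y₀ hr)] with z a1 a2 a3 θ hθ
  have a4 : Continuous fun u => RR κ 1 (cc P (hp z.1) (hp u)) +
      θ * dist (ex g x (ι z.2)) (ex g x (ι u)) := by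
    refine (Continuous.comp (g := RR κ 1) (by unfold RR; fun_prop)
      (cont continuous_const continuous_id)).add (continuous_const.mul
        (continuous_const.dist ((h.toRM.continuous_ex x).comp ι.continuous)))
  obtain ⟨u, hu, a5⟩ := (isCompact_closedBall y₀ r).exists_isMinOn ⟨_, h0⟩ a4.continuousOn
  have a6 := isMinOn_iff.1 a5 _ a3
  simp only [dist_self, mul_zero, add_zero] at a6
  have a7 := (h3 _ a2 _ a2).2
  have a8 := mul_nonneg hθ.1.le (dist_nonneg (x := ex g x (ι z.2)) (y := ex g x (ι u)))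
  rcases eq_or_ne u z.1 with rfl | hne
  · refine le_trans (le_add_of_nonneg_left ?_) a6
    exact mul_nonneg (half_pos h.kpos).le (arccos_nonneg _)
  rcases (Metric.mem_closedBall.1 hu).eq_or_lt with b1 | b1
  · have b2 := arccos_lt_arccos (x := 1 * (2 * cc P (hp z.1) (hp u) - 1))
      (y := 1 * (2 * cc P (hp z.1) (hp z.2) - 1)) (by linarith [(h3 _ a2 _ hu).1])
      (by linarith [a1 u b1])
      (by linarith [(hP.cc_mem (hp_mem a7.2.le) (hp_mem (h3 _ a2 _ a3).2.2.le)).1.2])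
    have b3 := mul_lt_mul_of_pos_left b2 (half_pos h.kpos)
    exact absurd a6 (not_le.2 (b3.trans_le (le_add_of_nonneg_right a8)))
  · obtain ⟨u', b2, b3⟩ := ((step h hP hm (hp_mem a7.2.le) hθ (h3 _ a2 _ hu).2 (h3 _ a2 _ hu).1
      (cc_lt hP a7 (h3 _ a2 _ hu).2 hne)).and_eventually
      (Metric.closedBall_mem_nhds_of_mem b1)).exists
    have b4 := isMinOn_iff.1 a5 _ b3
    nlinarith [mul_le_mul_of_nonneg_left
      (dist_triangle (ex g x (ι z.2)) (ex g x (ι u)) (ex g x (ι u'))) hθ.1.le]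

end LocLawAux

/-- `Ψ = ex g x ∘ ι`, `ρ z = arccos √(cc P (hp y) (hp z))`. Lower bound `κ ρ z ≤ dist`: `h.cal` for
`F = κ/2 * arccos ((1 - δ) (2 cc - 1)) ∘ φ`, `φ` the local inverse of `e ∘ Ψ`, Cauchy-Schwarz (`cs`) and `eik`;
`δ → 0` (`arccos √c = arccos (2c - 1) / 2`). Upper bound: minimize `κ ρ z' + (1 - δ) dist (Ψ z) (Ψ z')` over a
small closed ball around `y₀`; the minimum point is interior; if it is not `y` then `0 < cc < 1` and moving in
the direction `w` of `eik` decreases the function (`h.len` along the segment); so it is `y` (`cc_mem`,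
`hp_inj`). To see that the minimum is interior use the lower bound and the continuity of `ρ`. -/
theorem Mo.loc (h : Bl g κ) (hP : Fib P a) (hm : Mo g κ x ι P) {y₀ : Eu n} (hy : y₀ ∈ Bo n) :
    ∀ᶠ z in 𝓝 (y₀, y₀), cos (dist (ex g x (ι z.1)) (ex g x (ι z.2)) / κ) ^ 2 =
      cc P (hp z.1) (hp z.2) := by
  filter_upwards [LocLawAux.cal h hm hy, LocLawAux.upper h hP hm hy,
    continuousAt_fst.eventually (LocLawAux.isOpen_Bo.mem_nhds hy),
    continuousAt_snd.eventually (LocLawAux.isOpen_Bo.mem_nhds hy)] with z h1 h2 h3 h4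
  have h5 := hp_mem h3.2.le
  have h6 := LocLawAux.lim (G := fun θ => θ * _) (by fun_prop) h2
  have h7 := LocLawAux.lim (G := fun θ => LocLawAux.RR κ θ (cc P (hp z.1) (hp z.2)) -
    LocLawAux.RR κ θ (cc P (hp z.1) (hp z.1))) (by unfold LocLawAux.RR; fun_prop)
    fun θ hθ => h1 _ (LocLawAux.lower h hP hm h5 hθ)
  obtain ⟨c0, c1⟩ := (hP.cc_mem h5 (hp_mem h4.2.le)).1
  simp only [LocLawAux.RR, one_mul, hP.cc_self h5, dist_comm (ex g x (ι z.2)),
    show (2 : ℝ) * 1 - 1 = 1 by norm_num, arccos_one, mul_zero, sub_zero] at h6 h7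
  rw [le_antisymm h6 h7, show κ / 2 * arccos (2 * cc P (hp z.1) (hp z.2) - 1) / κ =
    arccos (2 * cc P (hp z.1) (hp z.2) - 1) / 2 by field_simp [h.kpos.ne'], cos_sq,
    mul_div_cancel₀ _ two_ne_zero, cos_arccos (by linarith) (by linarith)]
  ring

end Vale.Agent.P231
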