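import Vale.Agent.P231.Coord
import Vale.Agent.P231.Hur

/-! The models. -/

open scoped Topology RealInnerProductSpace Quaternion LinearAlgebra.Projectivization
open Set Filter Real Module

set_option linter.unusedSectionVars false

namespace Vale.Agent.P231

variable {n a : ℕ} {P : Eu n →L[ℝ] Eu n →L[ℝ] Eu n →L[ℝ] Eu n}

namespace ModelsAux

/-- Prepend a coordinate. -/
noncomputable def cons (s : ℝ) (v : Eu n) : Eu (n + 1) := WithLp.toLp 2 (Fin.cons s v.ofLp)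

theorem inner_cons (s t : ℝ) (v w : Eu n) : ⟪cons s v, cons t w⟫ = s * t + ⟪v, w⟫ := by
  simp [cons, PiLp.inner_apply, Fin.sum_univ_succ, mul_comm]

theorem exists_cons (z : Eu (n + 1)) : ∃ s v, z = cons s v :=
  ⟨z 0, WithLp.toLp 2 (Fin.tail z.ofLp), by simp [cons]⟩

theorem norm_cons {s : ℝ} {v : Eu n} : ‖cons s v‖ = 1 ↔ s ^ 2 + ‖v‖ ^ 2 = 1 := by
  rw [← sq_eq_sq₀ (norm_nonneg _) zero_le_one, ← real_inner_self_eq_norm_sq, inner_cons,
    real_inner_self_eq_norm_sq, one_pow, sq s]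

theorem arccos_two {c : ℝ} (h0 : 0 ≤ c) (h1 : c ≤ 1) : arccos (2 * c - 1) = 2 * arccos √c := by
  have h2 : √c ≤ 1 := sqrt_le_one.2 h1
  have h3 := sqrt_nonneg c
  refine arccos_eq_of_eq_cos (by have := arccos_nonneg √c; positivity) ?_ ?_
  · have := arccos_le_pi_div_two.2 h3
    linarith
  · rw [cos_two_mul, cos_arccos (by linarith) h2, sq_sqrt h0]

variable {K : Type} [NormedDivisionRing K] [StarRing K] [NormedAlgebra ℝ K] {k : ℕ}

/-- The distance of two vectors. -/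
noncomputable def fs (v w : Fin (k + 1) → K) : ℝ :=
  arccos (‖∑ i, v i * star (w i)‖ / (√(∑ i, ‖v i‖ ^ 2) * √(∑ i, ‖w i‖ ^ 2)))

theorem sqrt_smul (c : K) (v : Fin (k + 1) → K) :
    √(∑ i, ‖(c • v) i‖ ^ 2) = ‖c‖ * √(∑ i, ‖v i‖ ^ 2) := by
  simp only [Pi.smul_apply, smul_eq_mul, norm_mul, mul_pow, ← Finset.mul_sum]
  rw [sqrt_mul (sq_nonneg _), sqrt_sq (norm_nonneg _)]

theorem fs_smul (hs : ∀ x : K, ‖star x‖ = ‖x‖) {c d : K} (hc : c ≠ 0) (hd : d ≠ 0)
    (v w : Fin (k + 1) → K) : fs (c • v) (d • w) = fs v w := by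
  have h1 : ∑ i, (c • v) i * star ((d • w) i) = c * (∑ i, v i * star (w i)) * star d := by
    simp only [Pi.smul_apply, smul_eq_mul, star_mul, Finset.mul_sum, Finset.sum_mul, mul_assoc]
  have h2 := norm_ne_zero_iff.2 hc
  have h3 := norm_ne_zero_iff.2 hd
  rw [fs, fs, h1, sqrt_smul, sqrt_smul, norm_mul, norm_mul, hs]
  congr 1
  rw [mul_mul_mul_comm, mul_right_comm, mul_div_mul_left _ _ (mul_ne_zero h2 h3)]

theorem fsDist_mk (hs : ∀ x : K, ‖star x‖ = ‖x‖) {v w : Fin (k + 1) → K} (hv : v ≠ 0)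
    (hw : w ≠ 0) : fsDist (Projectivization.mk K v hv) (Projectivization.mk K w hw) = fs v w := by
  obtain ⟨c, hc⟩ := Projectivization.exists_smul_eq_mk_rep K v hv
  obtain ⟨d, hd⟩ := Projectivization.exists_smul_eq_mk_rep K w hw
  change fs (Projectivization.mk K v hv).rep (Projectivization.mk K w hw).rep = _
  rw [← hc, ← hd]
  exact fs_smul hs c.ne_zero d.ne_zero v w

theorem sum_pos {v : Fin (k + 1) → K} (hv : v ≠ 0) : 0 < ∑ i, ‖v i‖ ^ 2 := by
  obtain ⟨i, hi⟩ := Function.ne_iff.1 hv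
  exact Finset.sum_pos' (fun _ _ => sq_nonneg _)
    ⟨i, Finset.mem_univ _, pow_pos (norm_pos_iff.2 hi) 2⟩

end ModelsAux

open ModelsAux in
/-- `f (l, ζ) = (l² - ‖ζ‖², 2 l ζ)`, inner product `2 cc - 1`, `arccos (2c - 1) = 2 arccos √c`. -/
theorem par_sphere (hn : 1 ≤ n) (h : ∀ x z, P x x z = ‖x‖ ^ 2 • z) :
    Par P (Metric.sphere (0 : EuclideanSpace ℝ (Fin (n + 1))) 1)
      fun x y => InnerProductGeometry.angle x.1 y.1 := by
  classical
  have hm : ∀ p ∈ Hs n, cons (p.1 ^ 2 - ‖p.2‖ ^ 2) ((2 * p.1) • p.2) ∈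
      Metric.sphere (0 : Eu (n + 1)) 1 := by
    intro p hp
    rw [mem_sphere_zero_iff_norm, norm_cons, norm_smul, mul_pow, Real.norm_eq_abs, sq_abs]
    linear_combination (p.1 ^ 2 + ‖p.2‖ ^ 2 + 1) * hp.2
  have h0 : ((1 : ℝ), (0 : Eu n)) ∈ Hs n := ⟨zero_le_one, by simp⟩
  have hang : ∀ x y : Metric.sphere (0 : Eu (n + 1)) 1,
      InnerProductGeometry.angle x.1 y.1 = arccos ⟪x.1, y.1⟫ := by
    intro x y
    rw [InnerProductGeometry.angle, norm_eq_of_mem_sphere, norm_eq_of_mem_sphere, mul_one, div_one]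
  refine ⟨2, two_pos, fun p => if hp : p ∈ Hs n then ⟨_, hm p hp⟩ else ⟨_, hm _ h0⟩,
    fun p hp q hq => ?_, fun z => ?_, fun z z' => ?_⟩
  · have h1 : ⟪cons (p.1 ^ 2 - ‖p.2‖ ^ 2) ((2 * p.1) • p.2),
        cons (q.1 ^ 2 - ‖q.2‖ ^ 2) ((2 * q.1) • q.2)⟫ = 2 * cc P p q - 1 := by
      rw [inner_cons, cc, h, real_inner_smul_left, real_inner_smul_right, real_inner_smul_left,
        real_inner_self_eq_norm_sq]
      linear_combination (-1) * hp.2 - (p.1 ^ 2 + ‖p.2‖ ^ 2) * hq.2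
    have h2 := abs_real_inner_le_norm (cons (p.1 ^ 2 - ‖p.2‖ ^ 2) ((2 * p.1) • p.2))
      (cons (q.1 ^ 2 - ‖q.2‖ ^ 2) ((2 * q.1) • q.2))
    rw [mem_sphere_zero_iff_norm.1 (hm p hp), mem_sphere_zero_iff_norm.1 (hm q hq), h1,
      abs_le] at h2
    simp only [dif_pos hp, dif_pos hq]
    rw [hang ⟨_, hm p hp⟩ ⟨_, hm q hq⟩, h1, arccos_two (by linarith) (by linarith)]
  · obtain ⟨z, hz⟩ := z
    obtain ⟨s, v, rfl⟩ := exists_cons z
    have h1 := norm_cons.1 (mem_sphere_zero_iff_norm.1 hz)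
    have h2 : -1 ≤ s := by nlinarith [sq_nonneg ‖v‖]
    have key : ∃ p ∈ Hs n, p.1 ^ 2 - ‖p.2‖ ^ 2 = s ∧ (2 * p.1) • p.2 = v := by
      rcases h2.eq_or_lt with rfl | h3
      · have h4 : v = 0 := by
          rw [← norm_eq_zero, ← sq_eq_zero_iff]
          linarith
        refine ⟨(0, EuclideanSpace.single ⟨0, hn⟩ 1), ⟨le_rfl, by simp⟩, by simp, by simp [h4]⟩
      · have h4 : 0 < (1 + s) / 2 := by linarith
        have h5 := sqrt_pos.2 h4
        have h6 := sq_sqrt h4.le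
        generalize √((1 + s) / 2) = l at h5 h6
        have h7 : ‖(2 * l)⁻¹ • v‖ ^ 2 = (1 - s) / 2 := by
          rw [norm_smul, mul_pow, Real.norm_eq_abs, sq_abs, inv_pow, mul_pow, h6,
            inv_mul_eq_div, div_eq_iff (by positivity)]
          linear_combination h1
        refine ⟨(l, (2 * l)⁻¹ • v), ⟨h5.le, ?_⟩, ?_, smul_inv_smul₀ (by positivity) v⟩
        · simp only [h6, h7]; ring
        · simp only [h6, h7]; ring
    obtain ⟨p, hp, e1, e2⟩ := key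
    refine ⟨p, hp, ?_⟩
    simp only [dif_pos hp]
    exact Subtype.ext (by simp only [e1, e2])
  · beta_reduce
    rw [hang, arccos_eq_zero]
    constructor
    · intro h1
      have h2 := norm_sub_sq_real z.1 z'.1
      rw [norm_eq_of_mem_sphere, norm_eq_of_mem_sphere] at h2
      refine Subtype.ext (sub_eq_zero.1 (norm_eq_zero.1 (sq_eq_zero_iff.1 ?_)))
      nlinarith [sq_nonneg ‖z.1 - z'.1‖]
    · rintro rfl
      rw [real_inner_self_eq_norm_sq, norm_eq_of_mem_sphere, one_pow]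

open ModelsAux in
/-- `f (l, ζ) = [l : star u₁ : ... : star u_k]`, `u i = φ⁻¹ (Ψ ζ i)`; `cc = ‖l l' + ∑ star (u i) * u' i‖²`;
`fsDist` does not depend on the representatives; equality in Cauchy-Schwarz. -/
theorem par_proj {K : Type} [NormedDivisionRing K] [StarRing K] [NormedAlgebra ℝ K] {k : ℕ}
    {m : Eu a →ₗ[ℝ] Eu a →ₗ[ℝ] Eu a} {e : Eu a} (hm : Comp m e) (hK : IsoTo K m e)
    (Ψ : Eu n ≃ₗ[ℝ] (Fin k → Eu a)) (h1 : ∀ x y, ⟪x, y⟫ = ∑ i, ⟪Ψ x i, Ψ y i⟫)
    (h2 : ∀ x y j, Ψ (P x x y) j = ∑ i, m (m (Ψ x j) (cj e (Ψ x i))) (Ψ y i)) :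
    Par P (ℙ K (Fin (k + 1) → K)) fsDist := by
  classical
  obtain ⟨φ, φ1, φn, φm, φs⟩ := hK
  have hs : ∀ x : K, ‖star x‖ = ‖x‖ := fun x => by rw [← φn, φs, hm.norm_cj, φn]
  have hee : ⟪e, e⟫ = 1 := by rw [real_inner_self_eq_norm_sq, hm.norm_e, one_pow]
  have hr : ∀ l : ℝ, star (l • (1 : K)) = l • (1 : K) := fun l => φ.injective (by
    rw [φs, map_smul, φ1, cj, real_inner_smul_left, hee, ← sub_smul]
    congr 1
    ring)
  have hass : ∀ x y z, m (m x y) z = m x (m y z) := by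
    intro x y z
    obtain ⟨x, rfl⟩ := φ.surjective x
    obtain ⟨y, rfl⟩ := φ.surjective y
    obtain ⟨z, rfl⟩ := φ.surjective z
    simp only [← φm, mul_assoc]
  let V : ℝ × Eu n → Fin (k + 1) → K := fun p =>
    Fin.cons (p.1 • (1 : K)) fun i => star (φ.symm (Ψ p.2 i))
  have hV : ∀ p, ∑ i, ‖V p i‖ ^ 2 = p.1 ^ 2 + ‖p.2‖ ^ 2 := by
    intro p
    rw [Fin.sum_univ_succ, ← real_inner_self_eq_norm_sq p.2, h1]
    simp only [V, Fin.cons_zero, Fin.cons_succ, hs, ← φn, map_smul, φ1, norm_smul, hm.norm_e,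
      mul_one, Real.norm_eq_abs, sq_abs, LinearEquiv.apply_symm_apply, real_inner_self_eq_norm_sq]
  have hV0 : ∀ p ∈ Hs n, V p ≠ 0 := by
    intro p hp h0
    have := hV p
    rw [hp.2, h0] at this
    simp at this
  have h0 : ((1 : ℝ), (0 : Eu n)) ∈ Hs n := ⟨zero_le_one, by simp⟩
  refine ⟨1, one_pos, fun p => if hp : p ∈ Hs n then Projectivization.mk K _ (hV0 p hp)
    else Projectivization.mk K _ (hV0 _ h0), fun p hp q hq => ?_, fun z => ?_, fun z z' => ?_⟩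
  · simp only [dif_pos hp, dif_pos hq]
    rw [fsDist_mk hs, fs, hV, hV, hp.2, hq.2, sqrt_one, mul_one, div_one, one_mul]
    congr 1
    set W : Eu a := ∑ i, m (cj e (Ψ p.2 i)) (Ψ q.2 i) with hW
    have e1 : φ (∑ i, V p i * star (V q i)) = (p.1 * q.1) • e + W := by
      rw [Fin.sum_univ_succ]
      simp only [V, Fin.cons_zero, Fin.cons_succ, hr, star_star, map_add, map_sum, φm, φs,
        LinearEquiv.apply_symm_apply, map_smul, φ1, LinearMap.smul_apply, hm.one_mul, smul_smul,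
        hW, mul_comm]
    have e2 : ⟪e, W⟫ = ⟪p.2, q.2⟫ := by
      rw [hW, inner_sum, h1]
      refine Finset.sum_congr rfl fun i _ => ?_
      rw [← hm.adj_left, hm.mul_one]
    have e3 : ‖W‖ ^ 2 = ⟪P p.2 p.2 q.2, q.2⟫ := by
      rw [h1, ← real_inner_self_eq_norm_sq]
      conv_lhs => rw [hW, inner_sum]
      refine Finset.sum_congr rfl fun j _ => ?_
      rw [← hm.adj_left, h2, map_sum]
      simp only [hass]
    rw [← φn, e1, eq_comm, sqrt_eq_iff_eq_sq _ (norm_nonneg _), norm_add_sq_real,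
      real_inner_smul_left, e2, e3, norm_smul, hm.norm_e, mul_one, Real.norm_eq_abs, sq_abs, cc]
    · ring
    · have := sq_nonneg ‖(p.1 * q.1) • e + W‖
      rw [norm_add_sq_real, real_inner_smul_left, e2, e3, norm_smul, hm.norm_e, mul_one,
        Real.norm_eq_abs, sq_abs] at this
      rw [cc]
      linarith
  · induction z using Projectivization.ind with
    | h v hv =>
    have hN := sqrt_pos.2 (sum_pos hv)
    obtain ⟨c, hc, hc0⟩ : ∃ c : K, ‖c‖ = 1 ∧ c * v 0 = ‖v 0‖ • (1 : K) := by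
      rcases eq_or_ne (v 0) 0 with h3 | h3
      · exact ⟨1, norm_one, by simp [h3]⟩
      · refine ⟨‖v 0‖ • (v 0)⁻¹, ?_, by rw [smul_mul_assoc, inv_mul_cancel₀ h3]⟩
        rw [norm_smul, norm_norm, norm_inv, mul_inv_cancel₀ (norm_ne_zero_iff.2 h3)]
    set N := √(∑ i, ‖v i‖ ^ 2) with hN'
    let p : ℝ × Eu n :=
      (N⁻¹ * ‖v 0‖, Ψ.symm fun i => φ (star ((N⁻¹ • c) * v i.succ)))
    have hp : V p = (N⁻¹ • c) • v := by
      funext i
      refine Fin.cases ?_ (fun i => ?_) i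
      · simp only [V, p, Fin.cons_zero, Pi.smul_apply, smul_eq_mul, smul_mul_assoc, hc0, smul_smul]
      · simp only [V, p, Fin.cons_succ, LinearEquiv.apply_symm_apply, LinearEquiv.symm_apply_apply,
          star_star, Pi.smul_apply, smul_eq_mul]
    have hp' : p ∈ Hs n := by
      refine ⟨by positivity, ?_⟩
      rw [← hV, hp, ← sq_sqrt (Finset.sum_nonneg fun _ _ => sq_nonneg _), sqrt_smul, ← hN',
        norm_smul, hc, mul_one, Real.norm_eq_abs, abs_of_pos (inv_pos.2 hN),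
        inv_mul_cancel₀ hN.ne', one_pow]
    refine ⟨p, hp', ?_⟩
    simp only [dif_pos hp']
    exact (Projectivization.mk_eq_mk_iff' K _ _ _ _).2 ⟨_, hp.symm⟩
  · induction z using Projectivization.ind with
    | h v hv =>
    induction z' using Projectivization.ind with
    | h w hw =>
    have hv' := sum_pos hv
    have hw' := sum_pos hw
    constructor
    · intro h3
      rw [fsDist_mk hs, fs, arccos_eq_zero, one_le_div (by positivity), ← sqrt_mul hv'.le,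
        sqrt_le_left (norm_nonneg _)] at h3
      set S := ∑ i, v i * star (w i) with hS
      set B := ∑ i, ‖w i‖ ^ 2 with hB
      have h4 : ∀ i, ‖v i - (B⁻¹ • S) * w i‖ ^ 2 = ‖v i‖ ^ 2 -
          2 * B⁻¹ * ⟪φ S, φ (v i * star (w i))⟫ + B⁻¹ ^ 2 * ‖S‖ ^ 2 * ‖w i‖ ^ 2 := by
        intro i
        rw [← φn, map_sub, norm_sub_sq_real, φn, φn, norm_mul, norm_smul, Real.norm_eq_abs,
          abs_of_pos (inv_pos.2 hw'), φm, real_inner_comm, hm.adj_right, map_smul,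
          real_inner_smul_left, φm, φs]
        ring
      have h5 : ∑ i, ‖v i - (B⁻¹ • S) * w i‖ ^ 2 = ∑ i, ‖v i‖ ^ 2 - B⁻¹ * ‖S‖ ^ 2 := by
        simp only [h4, Finset.sum_add_distrib, Finset.sum_sub_distrib, ← Finset.mul_sum,
          ← inner_sum, ← map_sum, ← hS, ← hB, real_inner_self_eq_norm_sq, φn]
        field_simp
        ring
      have h6 : ∑ i, ‖v i - (B⁻¹ • S) * w i‖ ^ 2 = 0 := by
        refine le_antisymm ?_ (Finset.sum_nonneg fun _ _ => sq_nonneg _)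
        rw [h5, sub_nonpos, le_inv_mul_iff₀ hw', mul_comm]
        exact h3
      rw [Finset.sum_eq_zero_iff_of_nonneg fun _ _ => sq_nonneg _] at h6
      refine (Projectivization.mk_eq_mk_iff' K _ _ _ _).2 ⟨B⁻¹ • S, funext fun i => ?_⟩
      exact (sub_eq_zero.1 (norm_eq_zero.1 (sq_eq_zero_iff.1 (h6 i (Finset.mem_univ _))))).symm
    · intro h3
      rw [← h3, fsDist_mk hs, fs, arccos_eq_zero, mul_self_sqrt hv'.le, ← φn, map_sum]
      simp only [φm, φs, hm.mul_cj, φn, ← Finset.sum_smul]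
      rw [norm_smul, hm.norm_e, mul_one, Real.norm_eq_abs, abs_of_pos hv', div_self hv'.ne']

end Vale.Agent.P231
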