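import Vale.Agent.P231.Per
import Vale.Agent.P231.SympA

/-! The fibration of the model is quadratic. -/

open scoped Manifold ContDiff Topology ENNReal RealInnerProductSpace
open Set Filter Real Module

set_option linter.unusedSectionVars false
set_option maxSynthPendingDepth 3

namespace Vale.Agent.P231

open Vale.Agent.P255 Vale.Agent.P234

variable {E : Type} [NormedAddCommGroup E] [NormedSpace ℝ E] [FiniteDimensional ℝ E]
  {M : Type} [MetricSpace M] [CompactSpace M] [ChartedSpace E M] [IsManifold 𝓘(ℝ, E) ∞ M]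
  {g : M → E →L[ℝ] E →L[ℝ] ℝ} {κ : ℝ}

namespace QuadAux

theorem lim1 : Tendsto (fun t : ℝ => ((sin t / t) ^ 2 - 1) / t ^ 2) (𝓝[>] 0) (𝓝 (-1 / 3)) := by
  have h0 : Tendsto (fun t : ℝ => t) (𝓝[>] 0) (𝓝 0) := tendsto_id.mono_left nhdsWithin_le_nhds
  have h1 : Tendsto (fun t : ℝ => (sin t - (t - t ^ 3 / 6)) / t ^ 3) (𝓝[>] 0) (𝓝 0) := by
    refine squeeze_zero_norm' (a := fun t => t ^ 2 / 100) ?_ (by simpa using (h0.pow 2).div_const 100)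
    filter_upwards [Ioo_mem_nhdsGT one_pos] with t ht
    have := Real.sin_bound (x := t) (by rw [abs_of_pos ht.1]; exact ht.2.le)
    rw [abs_of_pos ht.1] at this
    rw [Real.norm_eq_abs, abs_div, abs_of_pos (pow_pos ht.1 3), div_le_iff₀ (pow_pos ht.1 3)]
    linarith
  have h2 := (h1.sub_const (1 / 6)).mul (((h0.pow 2).mul (h1.sub_const (1 / 6))).const_add 2)
  refine Tendsto.congr' ?_ (by convert h2 using 2; norm_num)
  filter_upwards [self_mem_nhdsWithin] with t ht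
  have : t ≠ 0 := ne_of_gt ht
  field_simp
  ring

theorem lim2 : Tendsto (fun t : ℝ => ((sin t * cos t / t) ^ 2 - 1) / t ^ 2) (𝓝[>] 0)
    (𝓝 (-4 / 3)) := by
  have h0 : Tendsto (fun t : ℝ => 2 * t) (𝓝[>] 0) (𝓝[>] 0) := by
    refine tendsto_nhdsWithin_iff.2 ⟨?_, ?_⟩
    · simpa using ((tendsto_id (x := 𝓝 (0 : ℝ))).const_mul 2).mono_left nhdsWithin_le_nhds
    · filter_upwards [self_mem_nhdsWithin] with t ht
      exact mul_pos two_pos (mem_Ioi.1 ht)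
  refine Tendsto.congr' ?_ (by convert (lim1.comp h0).const_mul 4 using 2; norm_num)
  filter_upwards [self_mem_nhdsWithin] with t ht
  have : t ≠ 0 := ne_of_gt ht
  simp only [Function.comp, sin_two_mul]
  field_simp
  ring

theorem second {V W : Type} [NormedAddCommGroup V] [NormedSpace ℝ V] [NormedAddCommGroup W]
    [NormedSpace ℝ W] {F : V → W} (hF : ContDiffAt ℝ 2 F 0) (Λ : W →L[ℝ] ℝ) (θ : V) {L : ℝ}
    (hL : Tendsto (fun t : ℝ => (Λ (F (t • θ)) - Λ (F 0)) / t ^ 2) (𝓝[>] 0) (𝓝 L)) :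
    Λ (fderiv ℝ (fderiv ℝ F) 0 θ θ) = 2 * L := by
  have hl : ∀ t : ℝ, HasDerivAt (fun r : ℝ => r • θ) θ t := fun t => by
    simpa using (hasDerivAt_id t).smul_const θ
  have h0 : Tendsto (fun r : ℝ => r • θ) (𝓝 0) (𝓝 0) := by simpa using (hl 0).continuousAt.tendsto
  have h1 : ∀ᶠ t in 𝓝 (0 : ℝ), HasDerivAt (fun r : ℝ => Λ (F (r • θ)) - Λ (F 0))
      (Λ (fderiv ℝ F (t • θ) θ)) t := by
    filter_upwards [h0.eventually (hF.eventually (by simp))] with t ht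
    exact (Λ.hasFDerivAt.comp_hasDerivAt t
      ((ht.differentiableAt (by simp)).hasFDerivAt.comp_hasDerivAt t (hl t))).sub_const _
  have h2 : HasDerivAt (fun t : ℝ => Λ (fderiv ℝ F (t • θ) θ))
      (Λ (fderiv ℝ (fderiv ℝ F) 0 θ θ)) 0 := by
    have a1 : HasFDerivAt (fderiv ℝ F) (fderiv ℝ (fderiv ℝ F) 0) ((0 : ℝ) • θ) := by
      rw [zero_smul]
      exact ((hF.fderiv_right (m := 1) (by norm_num)).differentiableAt (by simp)).hasFDerivAt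
    have a3 : HasDerivAt (fun t : ℝ => fderiv ℝ F (t • θ)) (fderiv ℝ (fderiv ℝ F) 0 θ) 0 :=
      HasFDerivAt.comp_hasDerivAt (f := fun r : ℝ => r • θ) (0 : ℝ) a1 (hl 0)
    have a2 := a3.clm_apply (hasDerivAt_const (0 : ℝ) θ)
    simp only [map_zero, add_zero] at a2
    exact Λ.hasFDerivAt.comp_hasDerivAt (0 : ℝ) a2
  have hi : Tendsto (fun t : ℝ => t) (𝓝[>] 0) (𝓝 0) := tendsto_id.mono_left nhdsWithin_le_nhds
  have h3 : Λ (fderiv ℝ F ((0 : ℝ) • θ) θ) = 0 := by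
    have a1 := (hasDerivAt_iff_tendsto_slope.1 h1.self_of_nhds).mono_left (nhdsGT_le_nhdsNE 0)
    have a2 := hi.mul hL
    rw [zero_mul] at a2
    refine tendsto_nhds_unique_of_eventuallyEq a1 a2 ?_
    filter_upwards [self_mem_nhdsWithin] with t ht
    have : t ≠ 0 := ne_of_gt ht
    rw [slope_def_field, zero_smul, sub_self, sub_zero, sub_zero]
    field_simp
  have h4 : Tendsto (fun t : ℝ => (Λ (F (t • θ)) - Λ (F 0)) / t ^ 2) (𝓝[>] 0)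
      (𝓝 (Λ (fderiv ℝ (fderiv ℝ F) 0 θ θ) / 2)) := by
    refine HasDerivAt.lhopital_zero_nhdsGT (f' := fun t => Λ (fderiv ℝ F (t • θ) θ))
      (g' := fun x => 2 * x) (mem_nhdsWithin_of_mem_nhds h1)
      (Eventually.of_forall fun x => by simpa using hasDerivAt_pow 2 x)
      (eventually_mem_nhdsWithin.mono fun x hx => mul_ne_zero two_ne_zero (ne_of_gt hx)) ?_ ?_ ?_
    · have := h1.self_of_nhds.continuousAt.tendsto.mono_left (nhdsWithin_le_nhds (s := Ioi 0))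
      simpa using this
    · simpa using hi.pow 2
    · have := ((hasDerivAt_iff_tendsto_slope.1 h2).mono_left (nhdsGT_le_nhdsNE 0)).div_const 2
      refine this.congr fun x => ?_
      rw [slope_def_field, h3, sub_zero, sub_zero, div_div, mul_comm]
  have := tendsto_nhds_unique h4 hL
  linarith

variable {n : ℕ}

theorem polar {y : Eu n} (hy : y ≠ 0) : ∃ θ : Eu n, ‖θ‖ = 1 ∧ y = ‖y‖ • θ := by
  have := norm_ne_zero_iff.2 hy
  exact ⟨‖y‖⁻¹ • y, by simp [norm_smul, this], by simp [smul_smul, this]⟩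

theorem fib_of {P : Eu n →L[ℝ] Eu n →L[ℝ] Eu n →L[ℝ] Eu n} {F : Eu n → Submodule ℝ (Eu n)} {a : ℕ}
    (hs : ∀ x y, P x y = P y x) (hP : ∀ θ, ‖θ‖ = 1 → P θ θ = (F θ).starProjection)
    (h1 : ∀ θ, ‖θ‖ = 1 → θ ∈ F θ) (h2 : ∀ θ θ', ‖θ‖ = 1 → ‖θ'‖ = 1 → θ' ∈ F θ → F θ' = F θ)
    (h3 : ∀ θ, ‖θ‖ = 1 → finrank ℝ (F θ) = a) : Fib P a := by
  have key : ∀ x, x ≠ 0 → ∃ θ : Eu n, ‖θ‖ = 1 ∧ x = ‖x‖ • θ ∧
      P x x = ‖x‖ ^ 2 • (F θ).starProjection := by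
    intro x hx
    obtain ⟨θ, a1, a2⟩ := polar hx
    refine ⟨θ, a1, a2, ?_⟩
    conv_lhs => rw [a2]
    rw [map_smul, map_smul, smul_apply, smul_smul, hP θ a1, sq]
  have adj : ∀ x z w, ⟪P x x z, w⟫ = ⟪z, P x x w⟫ := by
    intro x z w
    by_cases hx : x = 0
    · simp [hx]
    obtain ⟨θ, -, -, a3⟩ := key x hx
    rw [a3, smul_apply, smul_apply, real_inner_smul_left, real_inner_smul_right,
      Submodule.inner_starProjection_left_eq_right]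
  refine ⟨hs, fun x y z w => ?_, fun x z => ?_, fun x => ?_, fun x y hxy => ?_, fun x hx => ?_⟩
  · have a1 := adj (x + y) z w
    have a2 := adj x z w
    have a3 := adj y z w
    simp only [map_add, add_apply, inner_add_left, inner_add_right, hs y x] at a1
    linarith
  · by_cases hx : x = 0
    · simp [hx]
    obtain ⟨θ, -, -, a3⟩ := key x hx
    rw [a3, smul_apply, smul_apply, map_smul,
      Submodule.starProjection_eq_self_iff.2 ((F θ).starProjection_apply_mem z)]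
  · by_cases hx : x = 0
    · simp [hx]
    obtain ⟨θ, a1, a2, a3⟩ := key x hx
    rw [a3, smul_apply, Submodule.starProjection_eq_self_iff.2]
    rw [a2]
    exact (F θ).smul_mem _ (h1 θ a1)
  · by_cases hx : x = 0
    · simp [hx]
    by_cases hy : y = 0
    · simp [hy]
    obtain ⟨θ, a1, -, a3⟩ := key x hx
    obtain ⟨θ', b1, b2, b3⟩ := key y hy
    rw [a3, smul_apply] at hxy
    have c1 := Submodule.starProjection_eq_self_iff.1
      (smul_right_injective _ (pow_ne_zero 2 (norm_ne_zero_iff.2 hx)) hxy)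
    rw [b2, (F θ).smul_mem_iff (norm_ne_zero_iff.2 hy)] at c1
    rw [a3, b3, smul_comm]
    simp only [h2 θ θ' a1 b1 c1]
  · rw [hP x hx, ← h3 x hx]
    exact congrArg (fun U : Submodule ℝ (Eu n) => finrank ℝ U) (F x).range_starProjection

/-- Operator of a family of coefficients. -/
noncomputable def op (c : Fin n → Fin n → ℝ) : Eu n →L[ℝ] Eu n :=
  ∑ i, ∑ j, c i j • (innerSL ℝ (EuclideanSpace.basisFun (Fin n) ℝ i)).smulRight
    (EuclideanSpace.basisFun (Fin n) ℝ j)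

theorem op_inner (T : E →L[ℝ] E →L[ℝ] ℝ) (D : Eu n →L[ℝ] E) (w w' : Eu n) :
    ⟪op (fun i j => T (D (EuclideanSpace.basisFun (Fin n) ℝ i))
      (D (EuclideanSpace.basisFun (Fin n) ℝ j))) w, w'⟫ = T (D w) (D w') := by
  conv_rhs => rw [← (EuclideanSpace.basisFun (Fin n) ℝ).sum_repr' w,
    ← (EuclideanSpace.basisFun (Fin n) ℝ).sum_repr' w']
  simp only [op, sum_apply, smul_apply, ContinuousLinearMap.smulRight_apply, innerSL_apply_apply,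
    sum_inner, real_inner_smul_left, map_sum, map_smul, smul_eq_mul, Finset.mul_sum]
  rw [Finset.sum_comm]
  refine Finset.sum_congr rfl fun i _ => Finset.sum_congr rfl fun j _ => ?_
  ring

/-- The fibre through `θ`. -/
noncomputable def fb (g : M → E →L[ℝ] E →L[ℝ] ℝ) (x : M) (ι : Eu n ≃L[ℝ] E) (θ : Eu n) :
    Submodule ℝ (Eu n) :=
  (KK g x (ι θ) ⊔ Submodule.span ℝ {ι θ}).comap (ι.toLinearEquiv : Eu n →ₗ[ℝ] E)

variable {x : M} {ι : Eu n ≃L[ℝ] E} {a : ℕ}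

theorem mem_fb {θ w : Eu n} :
    w ∈ fb g x ι θ ↔ ι w ∈ KK g x (ι θ) ⊔ Submodule.span ℝ {ι θ} := Iff.rfl

theorem unit (h : Bl g κ) (hι : ∀ a b, g x (ι a) (ι b) = κ ^ 2 * ⟪a, b⟫) {θ : Eu n}
    (hθ : ‖θ‖ = 1) : nr g x (ι θ) = κ := by
  rw [nr, hι, real_inner_self_eq_norm_sq, hθ, one_pow, mul_one, Real.sqrt_sq h.kpos.le]

theorem self_mem (θ : Eu n) : θ ∈ fb g x ι θ :=
  mem_fb.2 (Submodule.mem_sup_right (Submodule.mem_span_singleton_self _))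

theorem cut (h : Bl g κ) (hι : ∀ a b, g x (ι a) (ι b) = κ ^ 2 * ⟪a, b⟫) {θ θ' : Eu n}
    (hθ : ‖θ‖ = 1) (hθ' : ‖θ'‖ = 1) :
    ex g x ((π / 2) • ι θ') = ex g x ((π / 2) • ι θ) ↔ θ' ∈ fb g x ι θ :=
  h.fiber (unit h hι hθ) (unit h hι hθ')

theorem fb_eq (h : Bl g κ) (hι : ∀ a b, g x (ι a) (ι b) = κ ^ 2 * ⟪a, b⟫) {θ θ' : Eu n}
    (hθ : ‖θ‖ = 1) (hθ' : ‖θ'‖ = 1) (hm : θ' ∈ fb g x ι θ) : fb g x ι θ' = fb g x ι θ := by
  ext w
  by_cases hw : w = 0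
  · simp [hw]
  obtain ⟨u, a1, a2⟩ := polar hw
  rw [a2, Submodule.smul_mem_iff _ (norm_ne_zero_iff.2 hw),
    Submodule.smul_mem_iff _ (norm_ne_zero_iff.2 hw), ← cut h hι hθ a1, ← cut h hι hθ' a1,
    (cut h hι hθ hθ').2 hm]

theorem fb_rank (h : Bl g κ) (hι : ∀ a b, g x (ι a) (ι b) = κ ^ 2 * ⟪a, b⟫) (hx : Rig g κ x a)
    {θ : Eu n} (hθ : ‖θ‖ = 1) : finrank ℝ (fb g x ι θ) = a := by
  rw [fb, Submodule.comap_equiv_eq_map_symm, LinearEquiv.finrank_map_eq,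
    Submodule.finrank_sup_span_singleton, (hx _ (unit h hι hθ)).1]
  intro hm
  have := h.KK_perp hm
  rw [h.sq (unit h hι hθ)] at this
  exact pow_ne_zero 2 h.kpos.ne' this

theorem met (h : Bl g κ) (hι : ∀ a b, g x (ι a) (ι b) = κ ^ 2 * ⟪a, b⟫) (hx : Rig g κ x a)
    {θ : Eu n} (hθ : ‖θ‖ = 1) {t : ℝ} (ht : t ∈ Ioo 0 (π / 2)) (w w' : Eu n) :
    g (ex g x (ι (t • θ))) (dM E (ex g x) (ι (t • θ)) (ι w)) (dM E (ex g x) (ι (t • θ)) (ι w')) =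
      κ ^ 2 * (⟪θ, w⟫ * ⟪θ, w'⟫ + (sin t * cos t / t) ^ 2 *
        (⟪(fb g x ι θ).starProjection w, w'⟫ - ⟪θ, w⟫ * ⟪θ, w'⟫) +
        (sin t / t) ^ 2 * (⟪w, w'⟫ - ⟪(fb g x ι θ).starProjection w, w'⟫)) := by
  have hk := pow_ne_zero 2 h.kpos.ne'
  have ht0 := ht.1.ne'
  have hR := (hx _ (unit h hι hθ)).2 t ht
  set p := (fb g x ι θ).starProjection w with hp'
  have hperp : ∀ u ∈ fb g x ι θ, ⟪u, w - p⟫ = 0 := fun u hu => by
    rw [real_inner_comm]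
    exact (fb g x ι θ).starProjection_inner_eq_zero w u hu
  have hK : ι (p - ⟪θ, w⟫ • θ) ∈ KK g x (ι θ) := by
    obtain ⟨k, hk', z, hz, he⟩ :=
      Submodule.mem_sup.1 (mem_fb.1 ((fb g x ι θ).starProjection_apply_mem w))
    obtain ⟨c, rfl⟩ := Submodule.mem_span_singleton.1 hz
    have a1 := congrArg (g x (ι θ)) he
    have a2 := hperp θ (self_mem θ)
    rw [inner_sub_right, sub_eq_zero] at a2
    rw [map_add, h.KK_perp hk', map_smul, hι, hι, ← hp', ← a2, real_inner_self_eq_norm_sq, hθ,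
      smul_eq_mul] at a1
    have a3 : c = ⟪θ, w⟫ := mul_left_cancel₀ hk (by linarith)
    rw [map_sub, map_smul, hp', ← he, a3, add_sub_cancel_right]
    exact hk'
  have e1 := (hR _ (ι w')).1 hK
  have e2 := (hR (ι (w - p)) (ι w')).2 (by rw [hι, hperp θ (self_mem θ), mul_zero]) fun k hk' => by
    rw [← ι.apply_symm_apply k, hι, hperp, mul_zero]
    rw [mem_fb, ι.apply_symm_apply]
    exact Submodule.mem_sup_left hk'
  have e3 := h.toRM.gauss x (t • ι θ) (ι w')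
  rw [h.toRM.vl_smul, mul_one, ← h.toRM.dM_ex_self] at e3
  rw [h.toRM.geo_eq] at e1 e2
  rw [hι] at e1 e2
  simp only [JF, map_sub, map_smul, smul_apply, sub_apply, smul_eq_mul, inner_sub_left,
    real_inner_smul_left, hι] at e1 e2 e3 ⊢
  have e4 := mul_left_cancel₀ ht0 e3
  rw [e4] at e1
  field_simp
  linear_combination e1 + e2

theorem exists_gam (h : Bl g κ) (x : M) (ι : Eu n ≃L[ℝ] E) :
    ∃ Γ : Eu n → Eu n →L[ℝ] Eu n, ContDiffAt ℝ 2 Γ 0 ∧ ∀ y w w', ⟪Γ y w, w'⟫ =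
      g (ex g x (ι y)) (dM E (ex g x) (ι y) (ι w)) (dM E (ex g x) (ι y) (ι w')) := by
  have hS : ∀ u : E, SmV (fun y => ex g x (ι y)) (fun y => dM E (ex g x) (ι y) u) (0 : Eu n) :=
    fun u => SmV.comp (X := ex g x) (V := fun c => dM E (ex g x) c u) (φ := fun y => ι y)
      (SmP.eventually (Eventually.of_forall fun c => h.toRM.smP_ex x contDiffAt_id) u).self_of_nhds
      ι.contDiff.contDiffAt
  refine ⟨fun y => op fun i j => g (ex g x (ι y))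
    (dM E (ex g x) (ι y) (ι (EuclideanSpace.basisFun (Fin n) ℝ i)))
    (dM E (ex g x) (ι y) (ι (EuclideanSpace.basisFun (Fin n) ℝ j))), ?_, fun y w w' =>
    op_inner (g (ex g x (ι y))) ((dM E (ex g x) (ι y)).comp (ι : Eu n →L[ℝ] E)) w w'⟩
  unfold op
  exact ContDiffAt.sum fun i _ => ContDiffAt.sum fun j _ =>
    (((hS _).inner h.toRM (hS _)).of_le SympAAux.two_le).smul contDiffAt_const

theorem exists_P (Q : Eu n →L[ℝ] Eu n →L[ℝ] Eu n →L[ℝ] Eu n) (c : ℝ) :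
    ∃ P : Eu n →L[ℝ] Eu n →L[ℝ] Eu n →L[ℝ] Eu n, (∀ u w, P u w = P w u) ∧ ∀ θ w w',
      ⟪P θ θ w, w'⟫ = c * ⟪Q θ θ w, w'⟫ + 4 / 3 * (⟪θ, w⟫ * ⟪θ, w'⟫) -
        1 / 3 * (⟪θ, θ⟫ * ⟪w, w'⟫) := by
  obtain ⟨B, hB⟩ : ∃ B : Eu n →L[ℝ] Eu n →L[ℝ] ℝ, ∀ u w, B u w = ⟪u, w⟫ :=
    ⟨innerSL ℝ, fun _ _ => rfl⟩
  obtain ⟨R, hR⟩ : ∃ R : Eu n →L[ℝ] Eu n →L[ℝ] Eu n →L[ℝ] Eu n, ∀ u v w, R u v w = ⟪u, w⟫ • v :=
    ⟨(ContinuousLinearMap.smulRightL ℝ (Eu n) (Eu n)).comp B, fun u v w => by simp [hB]⟩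
  obtain ⟨S, hS⟩ : ∃ S : Eu n →L[ℝ] Eu n →L[ℝ] Eu n →L[ℝ] Eu n, ∀ u v w, S u v w = ⟪u, v⟫ • w :=
    ⟨((ContinuousLinearMap.smulRightL ℝ (Eu n) (Eu n →L[ℝ] Eu n)).flip
      (ContinuousLinearMap.id ℝ (Eu n))).comp B, fun u v w => by simp [hB]⟩
  obtain ⟨P₀, hP₀⟩ : ∃ P₀ : Eu n →L[ℝ] Eu n →L[ℝ] Eu n →L[ℝ] Eu n, ∀ u v w,
      P₀ u v w = c • Q u v w + (4 / 3 : ℝ) • R u v w - (1 / 3 : ℝ) • S u v w :=
    ⟨c • Q + (4 / 3 : ℝ) • R - (1 / 3 : ℝ) • S, fun _ _ _ => rfl⟩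
  refine ⟨(1 / 2 : ℝ) • (P₀ + P₀.flip), fun u w => ?_, fun θ w w' => ?_⟩
  · simp only [smul_apply, add_apply, ContinuousLinearMap.flip_apply, add_comm]
  · simp only [smul_apply, add_apply, ContinuousLinearMap.flip_apply, hP₀, hR, hS, inner_add_left,
      inner_sub_left, real_inner_smul_left]
    ring

theorem exists_proj (h : Bl g κ) (hι : ∀ a b, g x (ι a) (ι b) = κ ^ 2 * ⟪a, b⟫)
    (hx : Rig g κ x a) : ∃ P : Eu n →L[ℝ] Eu n →L[ℝ] Eu n →L[ℝ] Eu n, (∀ u w, P u w = P w u) ∧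
      ∀ θ, ‖θ‖ = 1 → P θ θ = (fb g x ι θ).starProjection := by
  have hk := h.kpos.ne'
  obtain ⟨Γ, hΓ2, hΓ1⟩ := exists_gam h x ι
  obtain ⟨P, hs, hP⟩ := exists_P (fderiv ℝ (fderiv ℝ Γ) 0) (-(2 * κ ^ 2)⁻¹)
  refine ⟨P, hs, fun θ hθ => ?_⟩
  ext1 w
  refine ext_inner_right ℝ fun w' => ?_
  have a0 : ⟪Γ 0 w, w'⟫ = κ ^ 2 * ⟪w, w'⟫ := by
    rw [hΓ1, map_zero, h.toRM.ex_zero, h.toRM.dM_ex_zero, h.toRM.dM_ex_zero, hι]
  obtain ⟨Λ, hΛ⟩ : ∃ Λ : (Eu n →L[ℝ] Eu n) →L[ℝ] ℝ, ∀ T, Λ T = ⟪T w, w'⟫ :=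
    ⟨(innerSL ℝ w').comp (ContinuousLinearMap.apply ℝ (Eu n) w), fun T => real_inner_comm (T w) w'⟩
  have a1 := second hΓ2 Λ θ
    (L := κ ^ 2 * (-4 / 3 * (⟪(fb g x ι θ).starProjection w, w'⟫ - ⟪θ, w⟫ * ⟪θ, w'⟫) +
      -1 / 3 * (⟪w, w'⟫ - ⟪(fb g x ι θ).starProjection w, w'⟫))) (by
    refine Tendsto.congr' ?_ (((lim2.mul_const _).add (lim1.mul_const _)).const_mul _)
    filter_upwards [Ioo_mem_nhdsGT pi_div_two_pos] with t ht
    rw [hΛ, hΛ, a0, hΓ1, met h hι hx hθ ht]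
    ring)
  rw [hΛ] at a1
  rw [hP, a1, real_inner_self_eq_norm_sq, hθ]
  field_simp
  ring

end QuadAux

open QuadAux in
/-- `Γ y w w' = g (dM ex (ι y) (ι w)) (dM ex (ι y) (ι w')) / κ²` is smooth in `y`. For a unit vector `θ` let `Π θ`
be the orthogonal projection onto `ι⁻¹ (KK ⊔ span {ι θ})` (the same for `-θ` by `fiber`). For `0 < |t| < π/2`,
`Γ (t θ) w w'` is given by `Rig` and the Gauss lemma; the second difference quotient at `t = 0` gives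
`D²Γ(0)(θ, θ)(w, w') / 2 = -⟪Π w, w'⟫ + 4/3 ⟪θ, w⟫ ⟪θ, w'⟫ - 1/3 ⟪w, w'⟫` (`Real.sin_bound`). Solve for `Π`,
which defines the bilinear map `P` (`LinearMap.mk₂`, Riesz, or coordinates). -/
theorem Bl.quad (h : Bl g κ) {x : M} {a : ℕ} (hx : Rig g κ x a) :
    ∃ (ι : Eu (finrank ℝ E) ≃L[ℝ] E) (P : _), Fib P a ∧ Mo g κ x ι P := by
  obtain ⟨ι, hι⟩ := exists_iso h.toRM x h.kpos
  obtain ⟨P, hs, hP⟩ := exists_proj h hι hx
  refine ⟨ι, P, fib_of (F := fb g x ι) hs hP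
    (fun θ _ => self_mem θ) (fun θ θ' a1 a2 => fb_eq h hι a1 a2) fun θ => fb_rank h hι hx,
    hι, fun y hy w w' => ?_, fun θ θ' a1 a2 => ?_⟩
  · obtain ⟨θ, a1, a2⟩ := polar (norm_pos_iff.1 hy.1)
    obtain ⟨t, ht⟩ : ∃ t, t = ‖y‖ := ⟨_, rfl⟩
    have a3 : t ∈ Ioo 0 (π / 2) := ht ▸ hy
    have a4 := a3.1.ne'
    rw [gm, ← ht]
    rw [← ht] at a2
    rw [a2, met h hι hx a1 a3]
    simp only [map_smul, smul_apply, real_inner_smul_left, hP θ a1]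
    field_simp
  · rw [hP θ a1, Submodule.starProjection_eq_self_iff, ← cut h hι a1 a2, eq_comm]

end Vale.Agent.P231
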