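import Vale.Agent.P231.Vol
import Vale.Agent.P231.Quad
import Vale.Agent.P231.Law
import Vale.Agent.P231.Models
import Vale.Agent.P231.Cay
import Vale.Agent.P234.Bridge

/-! Volume rigidity of Blaschke manifolds. -/

open scoped Manifold ContDiff Topology ENNReal RealInnerProductSpace
open Set Filter Real Module

set_option linter.unusedSectionVars false

namespace Vale.Agent.P231

open Vale.Agent.P255 Vale.Agent.P234

variable {E : Type} [NormedAddCommGroup E] [NormedSpace ℝ E] [FiniteDimensional ℝ E]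
  {M : Type} [MetricSpace M] [CompactSpace M] [ChartedSpace E M] [IsManifold 𝓘(ℝ, E) ∞ M]
  {g : M → E →L[ℝ] E →L[ℝ] ℝ} {κ : ℝ}

theorem geo_iff (h : RM g) (x : M) (v : E) (γ : ℝ → M) : IsGeoFrom g x v γ ↔ γ = geo g x v := by
  refine ⟨fun h1 => ?_, fun h1 => h1 ▸ h.geo_spec x v⟩
  have h2 := h.geo_spec x v
  have h3 := h.toIsRM.geo_unique isOpen_univ isPreconnected_univ h1.1 h2.1 (Set.mem_univ 0)
    (h1.2.1.trans h2.2.1.symm) (h1.2.2.trans h2.2.2.symm)
  exact funext fun s => h3 (Set.mem_univ s)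

theorem Bl.cross (h : Bl g κ) {x : M} {a : ℕ} (hx : Rig g κ x a) : IsCross M := by
  obtain ⟨ι, P, hP, hm⟩ := h.quad hx
  rcases hP.coord h.dimpos with h1 | ⟨k, m, e, Ψ, hk, hc, ha, h1, h2⟩
  · exact Or.inl ⟨_, h.dimpos, hm.homothetic h hP (par_sphere h.dimpos h1)⟩
  · rcases hc.hurwitz with h3 | h3 | h3 | h3
    · exact Or.inr (Or.inl ⟨k, by omega, hm.homothetic h hP (par_proj hc h3 Ψ h1 h2)⟩)
    · exact Or.inr (Or.inr (Or.inl ⟨k, by omega, hm.homothetic h hP (par_proj hc h3 Ψ h1 h2)⟩))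
    · exact Or.inr (Or.inr (Or.inr (Or.inl
        ⟨k, by omega, hm.homothetic h hP (par_proj hc h3 Ψ h1 h2)⟩)))
    · obtain rfl : k = 2 := by
        by_contra h4
        obtain ⟨φ, -, -, h5, -⟩ := h3
        obtain ⟨x, y, z, h6⟩ := omul_not_assoc
        exact h6 (φ.injective (by simp only [h5, ha (by omega)]))
      exact Or.inr (Or.inr (Or.inr (Or.inr (hm.homothetic h hP (par_cayley hc h3 Ψ h1 h2)))))

open MeasureTheory in
theorem main [MeasurableSpace M] [BorelSpace M] (h : RM g) (hb : IsBlaschke g) (a : ℕ)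
    (ha : ∀ x v, √(g x v v) = Metric.diam (univ : Set M) →
      finrank ℝ (LinearMap.ker (dexp g x v : E →ₗ[ℝ] E)) < a) :
    ENNReal.ofReal (modelVol (finrank ℝ E) a (Metric.diam (univ : Set M))) ≤
      (μHE[finrank ℝ E] : Measure M) univ ∧
    ((μHE[finrank ℝ E] : Measure M) univ ≤
      ENNReal.ofReal (modelVol (finrank ℝ E) a (Metric.diam (univ : Set M))) → IsCross M) := by
  have h1 := bl_of h hb
  have h2 : π / 2 * (2 * Metric.diam (univ : Set M) / π) = Metric.diam (univ : Set M) := by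
    field_simp
  have h3 := h1.vol (a := a) fun x v hv => ha x _ (by
    have h4 := nr_smul (g := g) x (π / 2) v
    rw [hv, abs_of_pos (by positivity), h2] at h4
    exact h4)
  rw [h2] at h3
  exact ⟨h3.1, fun h4 => (h3.2 h4).elim fun x hx => h1.cross hx⟩

end Vale.Agent.P231
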