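import Vale.Agent.P231.Base

/-! Determinant inequalities for positive definite matrices. -/

open scoped Topology Matrix
open Set Filter Real Module

set_option linter.unusedSectionVars false

namespace Vale.Agent.P231

variable {d K H : Type} [Fintype d] [DecidableEq d] [Fintype K] [Fintype H] [DecidableEq K]
  [DecidableEq H]

namespace MatAux

open scoped MatrixOrder in
theorem exists_root {A : Matrix d d ℝ} (hA : A.PosSemidef) : ∃ C : Matrix d d ℝ, A = Cᴴ * C := by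
  obtain ⟨C, hC⟩ := CStarAlgebra.nonneg_iff_eq_star_mul_self.mp hA.nonneg
  exact ⟨C, hC⟩

theorem one {N : Matrix d d ℝ} (hN : N.PosDef) :
    log N.det ≤ N.trace - Fintype.card d ∧ (log N.det = N.trace - Fintype.card d → N = 1) := by
  have hd : log N.det = ∑ i, log (hN.1.eigenvalues i) := by
    rw [hN.1.det_eq_prod_eigenvalues]
    exact Real.log_prod fun i _ => (hN.eigenvalues_pos i).ne'
  have ht : N.trace - Fintype.card d = ∑ i, (hN.1.eigenvalues i - 1) := by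
    rw [hN.1.trace_eq_sum_eigenvalues, Finset.sum_sub_distrib]
    simp
  have hle : ∀ i ∈ Finset.univ, log (hN.1.eigenvalues i) ≤ hN.1.eigenvalues i - 1 :=
    fun i _ => Real.log_le_sub_one_of_pos (hN.eigenvalues_pos i)
  rw [hd, ht]
  refine ⟨Finset.sum_le_sum hle, fun h => ?_⟩
  have h1 : ∀ i, hN.1.eigenvalues i = 1 := by
    intro i
    by_contra hne
    exact (Real.log_lt_sub_one_of_pos (hN.eigenvalues_pos i) hne).ne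
      ((Finset.sum_eq_sum_iff_of_le hle).1 h i (Finset.mem_univ i))
  have h2 : Matrix.diagonal (RCLike.ofReal ∘ hN.1.eigenvalues) = (1 : Matrix d d ℝ) := by
    rw [← Matrix.diagonal_one]
    refine congrArg Matrix.diagonal (funext fun i => ?_)
    simp [h1]
  rw [hN.1.spectral_theorem, h2, map_one]

theorem trace_mul_nonneg {P Q : Matrix d d ℝ} (hP : P.PosSemidef) (hQ : Q.PosSemidef) :
    0 ≤ (P * Q).trace := by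
  obtain ⟨C, rfl⟩ := exists_root hP
  rw [Matrix.mul_assoc, Matrix.trace_mul_comm]
  exact (hQ.mul_mul_conjTranspose_same C).trace_nonneg

theorem herm {S : Matrix d d ℝ} (hS : S.IsSymm) : S.IsHermitian := by
  rw [Matrix.IsHermitian, Matrix.conjTranspose_eq_transpose_of_trivial]
  exact hS

theorem symm {S : Matrix d d ℝ} (hS : S.IsHermitian) : S.IsSymm := by
  rw [Matrix.IsHermitian, Matrix.conjTranspose_eq_transpose_of_trivial] at hS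
  exact hS

theorem pos {T : Matrix d d ℝ} (hT : T.PosDef) {ξ : d → ℝ} (hξ : ξ ≠ 0) : 0 < ξ ⬝ᵥ T *ᵥ ξ := by
  simpa using hT.dotProduct_mulVec_pos hξ

theorem nonneg {T : Matrix d d ℝ} (hT : T.PosDef) (ξ : d → ℝ) : 0 ≤ ξ ⬝ᵥ T *ᵥ ξ := by
  simpa using hT.posSemidef.dotProduct_mulVec_nonneg ξ

theorem swap {T : Matrix d d ℝ} (hT : T.IsSymm) (ξ η : d → ℝ) : ξ ⬝ᵥ T *ᵥ η = η ⬝ᵥ T *ᵥ ξ := by
  rw [Matrix.dotProduct_mulVec, ← Matrix.mulVec_transpose, hT.eq, dotProduct_comm]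

/-- Schur complement. -/
noncomputable def sc (Δ : Matrix (K ⊕ H) (K ⊕ H) ℝ) : Matrix K K ℝ :=
  Δ.toBlocks₁₁ - Δ.toBlocks₁₂ * Δ.toBlocks₂₂⁻¹ * Δ.toBlocks₂₁

theorem blocks_symm {Δ : Matrix (K ⊕ H) (K ⊕ H) ℝ} (hΔ : Δ.IsSymm) :
    Δ.toBlocks₁₁.IsSymm ∧ Δ.toBlocks₁₂ᵀ = Δ.toBlocks₂₁ ∧ Δ.toBlocks₂₁ᵀ = Δ.toBlocks₁₂ := by
  refine ⟨?_, ?_, ?_⟩
  · ext i j
    exact hΔ.apply _ _
  · ext i j
    exact hΔ.apply _ _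
  · ext i j
    exact hΔ.apply _ _

theorem sc_symm {Δ : Matrix (K ⊕ H) (K ⊕ H) ℝ} (hΔ : Δ.IsSymm) (h2 : Δ.toBlocks₂₂.PosDef) :
    (sc Δ).IsSymm := by
  obtain ⟨h11, h12, h21⟩ := blocks_symm hΔ
  refine h11.sub ?_
  rw [Matrix.IsSymm, Matrix.transpose_mul, Matrix.transpose_mul, h12, h21, (symm h2.inv.1).eq,
    Matrix.mul_assoc]

theorem sc_det {Δ : Matrix (K ⊕ H) (K ⊕ H) ℝ} (h2 : Δ.toBlocks₂₂.PosDef) :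
    Δ.det = Δ.toBlocks₂₂.det * (sc Δ).det := by
  have := h2.isUnit.invertible
  conv_lhs => rw [← Matrix.fromBlocks_toBlocks Δ]
  rw [Matrix.det_fromBlocks₂₂, Matrix.invOf_eq_nonsing_inv, sc]

theorem sc_quad {Δ : Matrix (K ⊕ H) (K ⊕ H) ℝ} (hΔ : Δ.IsSymm) (h2 : Δ.toBlocks₂₂.PosDef)
    (ξ : K → ℝ) (η : H → ℝ) :
    Sum.elim ξ η ⬝ᵥ Δ *ᵥ Sum.elim ξ η =
      ((Δ.toBlocks₂₂⁻¹ * Δ.toBlocks₂₁) *ᵥ ξ + η) ⬝ᵥ Δ.toBlocks₂₂ *ᵥ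
        ((Δ.toBlocks₂₂⁻¹ * Δ.toBlocks₂₁) *ᵥ ξ + η) + ξ ⬝ᵥ sc Δ *ᵥ ξ := by
  have := h2.isUnit.invertible
  have h := Matrix.schur_complement_eq₂₂ Δ.toBlocks₁₁ Δ.toBlocks₁₂ ξ η h2.1
  rw [Matrix.conjTranspose_eq_transpose_of_trivial, (blocks_symm hΔ).2.1,
    Matrix.fromBlocks_toBlocks] at h
  simpa only [star_trivial, ← Matrix.dotProduct_mulVec, sc] using h

theorem sc_min {Δ : Matrix (K ⊕ H) (K ⊕ H) ℝ} (hΔ : Δ.IsSymm) (h2 : Δ.toBlocks₂₂.PosDef)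
    (ξ : K → ℝ) : ∃ ζ : K ⊕ H → ℝ, ζ ∘ Sum.inl = ξ ∧ ζ ⬝ᵥ Δ *ᵥ ζ = ξ ⬝ᵥ sc Δ *ᵥ ξ := by
  refine ⟨Sum.elim ξ (-((Δ.toBlocks₂₂⁻¹ * Δ.toBlocks₂₁) *ᵥ ξ)), rfl, ?_⟩
  rw [sc_quad hΔ h2, add_neg_cancel, zero_dotProduct, zero_add]

theorem sc_le {Δ : Matrix (K ⊕ H) (K ⊕ H) ℝ} (hΔ : Δ.IsSymm) (h2 : Δ.toBlocks₂₂.PosDef)
    (ζ : K ⊕ H → ℝ) : (ζ ∘ Sum.inl) ⬝ᵥ sc Δ *ᵥ (ζ ∘ Sum.inl) ≤ ζ ⬝ᵥ Δ *ᵥ ζ := by
  have h := sc_quad hΔ h2 (ζ ∘ Sum.inl) (ζ ∘ Sum.inr)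
  rw [Sum.elim_comp_inl_inr] at h
  rw [h]
  exact le_add_of_nonneg_left (nonneg h2 _)

end MatAux

open MatAux

/-- Write `A = C * Cᵀ` (square root), `N = C⁻¹ * B * C⁻¹ᵀ` is positive definite with eigenvalues `λ i`,
`log λ ≤ λ - 1` with equality only for `λ = 1` (`Real.log_le_sub_one_of_pos`, `Real.log_lt_sub_one_of_pos`,
`Matrix.IsHermitian.det_eq_prod_eigenvalues`, `trace_eq_sum_eigenvalues`, `spectral_theorem`). -/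
theorem tangent {A B : Matrix d d ℝ} (hA : A.PosDef) (hB : B.PosDef) :
    log B.det - log A.det ≤ (A⁻¹ * B).trace - Fintype.card d ∧
      (log B.det - log A.det = (A⁻¹ * B).trace - Fintype.card d → B = A) := by
  obtain ⟨C, hC⟩ := exists_root hA.posSemidef
  have hdA : A.det = Cᴴ.det * C.det := by rw [hC, Matrix.det_mul]
  have hA0 := hA.det_pos
  have hC0 : IsUnit C.det := (right_ne_zero_of_mul (hdA ▸ hA0.ne')).isUnit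
  have hC1 : IsUnit Cᴴ.det := (left_ne_zero_of_mul (hdA ▸ hA0.ne')).isUnit
  have hN : (C⁻¹ᴴ * B * C⁻¹).PosDef := hB.conjTranspose_mul_mul_same
    (Matrix.mulVec_injective_iff_isUnit.2
      ((Matrix.isUnit_iff_isUnit_det _).2 (Matrix.isUnit_nonsing_inv_det C hC0)))
  rw [Matrix.conjTranspose_nonsing_inv] at hN
  have hB' : B = Cᴴ * (Cᴴ⁻¹ * B * C⁻¹) * C := by
    rw [Matrix.mul_assoc, Matrix.mul_assoc, Matrix.nonsing_inv_mul C hC0, Matrix.mul_one,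
      ← Matrix.mul_assoc, Matrix.mul_nonsing_inv _ hC1, Matrix.one_mul]
  have hd : log B.det - log A.det = log (Cᴴ⁻¹ * B * C⁻¹).det := by
    have : B.det = A.det * (Cᴴ⁻¹ * B * C⁻¹).det := by
      conv_lhs => rw [hB']
      rw [Matrix.det_mul, Matrix.det_mul, hdA]
      ring
    rw [this, Real.log_mul hA0.ne' hN.det_pos.ne']
    ring
  have ht : (A⁻¹ * B).trace = (Cᴴ⁻¹ * B * C⁻¹).trace := by
    rw [Matrix.trace_mul_comm _ C⁻¹, hC, Matrix.mul_inv_rev, Matrix.mul_assoc]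
  rw [hd, ht]
  refine ⟨(one hN).1, fun h => ?_⟩
  rw [hB', (one hN).2 h, Matrix.mul_one, hC]

/-- `tangent` with `A = S`, `B = T`; `trace (S⁻¹ * (S - T)) ≥ 0`. -/
theorem det_mono {T S : Matrix d d ℝ} (hT : T.PosDef) (hS : S.IsSymm)
    (h : ∀ ξ, ξ ⬝ᵥ T *ᵥ ξ ≤ ξ ⬝ᵥ S *ᵥ ξ) : T.det ≤ S.det ∧ (T.det = S.det → T = S) := by
  have hS' : S.PosDef := Matrix.PosDef.of_dotProduct_mulVec_pos (herm hS) fun ξ hξ => by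
    rw [star_trivial]
    exact (pos hT hξ).trans_le (h ξ)
  have hD : (S - T).PosSemidef :=
    Matrix.PosSemidef.of_dotProduct_mulVec_nonneg ((herm hS).sub hT.1) fun ξ => by
      rw [star_trivial, Matrix.sub_mulVec, dotProduct_sub]
      exact sub_nonneg.2 (h ξ)
  have h1 := trace_mul_nonneg hS'.inv.posSemidef hD
  rw [Matrix.mul_sub, Matrix.nonsing_inv_mul S hS'.det_pos.ne'.isUnit, Matrix.trace_sub,
    Matrix.trace_one] at h1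
  obtain ⟨h2, h3⟩ := tangent hS' hT
  refine ⟨(Real.log_le_log_iff hT.det_pos hS'.det_pos).1 (by linarith), fun he => h3 ?_⟩
  rw [he, sub_self] at h2 ⊢
  linarith

/-- Schur complement `Σ = Δ₁₁ - Δ₁₂ Δ₂₂⁻¹ Δ₂₁`, `det Δ = det Δ₂₂ * det Σ` (`Matrix.det_fromBlocks₂₂`),
`ξ Σ ξ` is the minimum of `ζ Δ ζ` over `ζ ∘ inl = ξ`, attained at `ζ ∘ inr = -Δ₂₂⁻¹ Δ₂₁ ξ`; `det_mono`. -/
theorem schur_pos {Δ : Matrix (K ⊕ H) (K ⊕ H) ℝ} {T : Matrix K K ℝ} (hΔ : Δ.IsSymm)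
    (h2 : Δ.toBlocks₂₂.PosDef) (hT : T.PosDef)
    (h : ∀ ζ, (ζ ∘ Sum.inl) ⬝ᵥ T *ᵥ (ζ ∘ Sum.inl) ≤ ζ ⬝ᵥ Δ *ᵥ ζ) :
    Δ.toBlocks₂₂.det * T.det ≤ |Δ.det| ∧ (Δ.toBlocks₂₂.det * T.det = |Δ.det| →
      ∀ ξ, ∃ ζ, ζ ∘ Sum.inl = ξ ∧ ζ ⬝ᵥ Δ *ᵥ ζ = ξ ⬝ᵥ T *ᵥ ξ) := by
  obtain ⟨h3, h4⟩ := det_mono hT (sc_symm hΔ h2) fun ξ => by
    obtain ⟨ζ, rfl, hζ⟩ := sc_min hΔ h2 ξ
    rw [← hζ]
    exact h ζ
  rw [sc_det h2, abs_of_pos (mul_pos h2.det_pos (hT.det_pos.trans_le h3))]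
  refine ⟨mul_le_mul_of_nonneg_left h3 h2.det_pos.le, fun he ξ => ?_⟩
  rw [h4 (mul_left_cancel₀ h2.det_pos.ne' he)]
  exact sc_min hΔ h2 ξ

/-- The same with `-Σ`. -/
theorem schur_neg {Δ : Matrix (K ⊕ H) (K ⊕ H) ℝ} {T : Matrix K K ℝ} (hΔ : Δ.IsSymm)
    (h2 : Δ.toBlocks₂₂.PosDef) (hT : T.PosDef)
    (h : ∀ ξ, ∃ ζ, ζ ∘ Sum.inl = ξ ∧ ζ ⬝ᵥ Δ *ᵥ ζ ≤ -(ξ ⬝ᵥ T *ᵥ ξ)) :
    Δ.toBlocks₂₂.det * T.det ≤ |Δ.det| := by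
  obtain ⟨h3, -⟩ := det_mono hT (sc_symm hΔ h2).neg fun ξ => by
    obtain ⟨ζ, rfl, hζ⟩ := h ξ
    have := sc_le hΔ h2 ζ
    rw [Matrix.neg_mulVec, dotProduct_neg]
    linarith
  rw [sc_det h2, abs_mul, abs_of_pos h2.det_pos]
  refine mul_le_mul_of_nonneg_left (h3.trans ((le_abs_self _).trans (le_of_eq ?_))) h2.det_pos.le
  rw [Matrix.det_neg, abs_mul, abs_pow, abs_neg, abs_one, one_pow, one_mul]

theorem det_blocks {G : Matrix (K ⊕ H) (K ⊕ H) ℝ} (hG : G.PosDef) :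
    G.toBlocks₁₁.PosDef ∧ G⁻¹.toBlocks₂₂.PosDef ∧
      G.det * G⁻¹.toBlocks₂₂.det = G.toBlocks₁₁.det := by
  refine ⟨hG.submatrix Sum.inl_injective, hG.inv.submatrix Sum.inr_injective, ?_⟩
  have h1 := Matrix.mul_nonsing_inv G hG.det_pos.ne'.isUnit
  generalize G⁻¹ = G' at h1
  rw [← Matrix.fromBlocks_toBlocks G, ← Matrix.fromBlocks_toBlocks G', Matrix.fromBlocks_multiply,
    ← Matrix.fromBlocks_one, Matrix.fromBlocks_inj] at h1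
  obtain ⟨-, h2, -, h3⟩ := h1
  have h4 : G * Matrix.fromBlocks 1 G'.toBlocks₁₂ 0 G'.toBlocks₂₂ =
      Matrix.fromBlocks G.toBlocks₁₁ 0 G.toBlocks₂₁ 1 := by
    conv_lhs => rw [← Matrix.fromBlocks_toBlocks G]
    rw [Matrix.fromBlocks_multiply, h2, h3]
    simp
  have h5 := congrArg Matrix.det h4
  rwa [Matrix.det_mul, Matrix.det_fromBlocks_zero₂₁, Matrix.det_fromBlocks_zero₁₂, Matrix.det_one,
    Matrix.det_one, one_mul, mul_one] at h5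

/-- With `k = Sum.elim (G₁₁⁻¹ ξ) 0`: `0 ≤ (ζ - G k) G⁻¹ (ζ - G k) = ζ G⁻¹ ζ - ξ G₁₁⁻¹ ξ`. -/
theorem inv_quad {G : Matrix (K ⊕ H) (K ⊕ H) ℝ} (hG : G.PosDef) (ζ : K ⊕ H → ℝ) :
    (ζ ∘ Sum.inl) ⬝ᵥ G.toBlocks₁₁⁻¹ *ᵥ (ζ ∘ Sum.inl) ≤ ζ ⬝ᵥ G⁻¹ *ᵥ ζ ∧
      ((ζ ∘ Sum.inl) ⬝ᵥ G.toBlocks₁₁⁻¹ *ᵥ (ζ ∘ Sum.inl) = ζ ⬝ᵥ G⁻¹ *ᵥ ζ →
        ζ ∘ Sum.inr = (G.toBlocks₂₁ * G.toBlocks₁₁⁻¹) *ᵥ (ζ ∘ Sum.inl)) := by
  have h11 := (det_blocks hG).1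
  obtain ⟨k, hk⟩ : ∃ k : K ⊕ H → ℝ, k = Sum.elim (G.toBlocks₁₁⁻¹ *ᵥ (ζ ∘ Sum.inl)) 0 := ⟨_, rfl⟩
  have hGk : G *ᵥ k = Sum.elim (ζ ∘ Sum.inl)
      ((G.toBlocks₂₁ * G.toBlocks₁₁⁻¹) *ᵥ (ζ ∘ Sum.inl)) := by
    conv_lhs => rw [← Matrix.fromBlocks_toBlocks G]
    rw [hk, Matrix.fromBlocks_mulVec, Sum.elim_comp_inl, Sum.elim_comp_inr, Matrix.mulVec_zero,
      Matrix.mulVec_zero, add_zero, add_zero, Matrix.mulVec_mulVec, Matrix.mulVec_mulVec,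
      Matrix.mul_nonsing_inv _ h11.det_pos.ne'.isUnit, Matrix.one_mulVec]
  have h1 : G⁻¹ *ᵥ (G *ᵥ k) = k := by
    rw [Matrix.mulVec_mulVec, Matrix.nonsing_inv_mul _ hG.det_pos.ne'.isUnit, Matrix.one_mulVec]
  have h2 : ζ ⬝ᵥ k = (ζ ∘ Sum.inl) ⬝ᵥ G.toBlocks₁₁⁻¹ *ᵥ (ζ ∘ Sum.inl) := by
    conv_lhs => rw [← Sum.elim_comp_inl_inr ζ, hk]
    rw [sumElim_dotProduct_sumElim, dotProduct_zero, add_zero]
  have h3 : (G *ᵥ k) ⬝ᵥ k = (ζ ∘ Sum.inl) ⬝ᵥ G.toBlocks₁₁⁻¹ *ᵥ (ζ ∘ Sum.inl) := by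
    rw [hGk, hk, sumElim_dotProduct_sumElim, dotProduct_zero, add_zero]
  have h4 : (ζ - G *ᵥ k) ⬝ᵥ G⁻¹ *ᵥ (ζ - G *ᵥ k) =
      ζ ⬝ᵥ G⁻¹ *ᵥ ζ - (ζ ∘ Sum.inl) ⬝ᵥ G.toBlocks₁₁⁻¹ *ᵥ (ζ ∘ Sum.inl) := by
    rw [Matrix.mulVec_sub, sub_dotProduct, dotProduct_sub, dotProduct_sub,
      swap (MatAux.symm hG.inv.1) (G *ᵥ k) ζ, h1, h2, h3]
    ring
  refine ⟨sub_nonneg.1 (h4 ▸ nonneg hG.inv _), fun he => ?_⟩
  have h5 : ζ - G *ᵥ k = 0 := by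
    by_contra h0
    have := pos hG.inv h0
    rw [h4, he, sub_self] at this
    exact lt_irrefl _ this
  have h6 := congrArg (fun f => f ∘ Sum.inr) (sub_eq_zero.1 h5)
  rw [hGk] at h6
  exact h6

/-- The map `ζ ↦ ζ ∘ inl` is injective on the kernel, hence onto by dimension. -/
theorem ker_compl {T : Matrix (K ⊕ H) (K ⊕ H) ℝ} (hT : T.IsSymm) (h2 : T.toBlocks₂₂.PosDef)
    (hk : Fintype.card K ≤ finrank ℝ (LinearMap.ker (Matrix.toLin' T))) :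
    (∀ ξ, ∃ ζ, ζ ∘ Sum.inl = ξ ∧ T *ᵥ ζ = 0) ∧ ∀ ζ, 0 ≤ ζ ⬝ᵥ T *ᵥ ζ := by
  have hq : ∀ ζ : K ⊕ H → ℝ, ζ ∘ Sum.inl = 0 →
      ζ ⬝ᵥ T *ᵥ ζ = (ζ ∘ Sum.inr) ⬝ᵥ T.toBlocks₂₂ *ᵥ (ζ ∘ Sum.inr) := by
    intro ζ hζ
    have h := sc_quad hT h2 (ζ ∘ Sum.inl) (ζ ∘ Sum.inr)
    rw [Sum.elim_comp_inl_inr, hζ, Matrix.mulVec_zero, zero_add, zero_dotProduct, add_zero] at h
    exact h
  let φ : LinearMap.ker (Matrix.toLin' T) →ₗ[ℝ] (K → ℝ) :=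
    (LinearMap.funLeft ℝ ℝ Sum.inl).comp (Submodule.subtype _)
  have hinj : Function.Injective φ := by
    rw [injective_iff_map_eq_zero]
    rintro ⟨ζ, hζ⟩ h0
    have h1 : ζ ∘ Sum.inl = 0 := h0
    have h3 : T *ᵥ ζ = 0 := hζ
    have h4 := hq ζ h1
    rw [h3, dotProduct_zero] at h4
    have h5 : ζ ∘ Sum.inr = 0 := by
      by_contra h6
      exact (pos h2 h6).ne h4
    apply Subtype.ext
    show ζ = 0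
    rw [← Sum.elim_comp_inl_inr ζ, h1, h5, Sum.elim_zero_zero]
  have hsurj : Function.Surjective φ := by
    refine (LinearMap.injective_iff_surjective_of_finrank_eq_finrank (le_antisymm
      (LinearMap.finrank_le_finrank_of_injective hinj) ?_)).1 hinj
    simpa using hk
  have hex : ∀ ξ, ∃ ζ, ζ ∘ Sum.inl = ξ ∧ T *ᵥ ζ = 0 := by
    intro ξ
    obtain ⟨⟨ζ, hζ⟩, h⟩ := hsurj ξ
    exact ⟨ζ, h, hζ⟩
  refine ⟨hex, fun ζ => ?_⟩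
  obtain ⟨ζ₀, h3, h4⟩ := hex (ζ ∘ Sum.inl)
  have h5 : (ζ - ζ₀) ⬝ᵥ T *ᵥ (ζ - ζ₀) = ζ ⬝ᵥ T *ᵥ ζ := by
    rw [Matrix.mulVec_sub, h4, sub_zero, sub_dotProduct, swap hT ζ₀ ζ, h4, dotProduct_zero,
      sub_zero]
  rw [← h5, hq _ (by rw [Pi.sub_comp, h3, sub_self])]
  exact nonneg h2 _

end Vale.Agent.P231
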