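import Vale.Agent.P231.Reach

/-! The directions to a cut point form a convex cone containing a line. -/

open scoped Manifold ContDiff Topology ENNReal RealInnerProductSpace
open Set Filter Real Module

set_option linter.unusedSectionVars false

namespace Vale.Agent.P231

open Vale.Agent.P255 Vale.Agent.P234

variable {E : Type} [NormedAddCommGroup E] [NormedSpace ℝ E] [FiniteDimensional ℝ E]
  {M : Type} [MetricSpace M] [CompactSpace M] [ChartedSpace E M] [IsManifold 𝓘(ℝ, E) ∞ M]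
  {g : M → E →L[ℝ] E →L[ℝ] ℝ} {κ : ℝ}

namespace MoreauAux

theorem lim_le {F : Filter ℝ} [F.NeBot] (hF : F ≤ 𝓝[>] 0) {G : ℝ → E →L[ℝ] E →L[ℝ] ℝ}
    {G₀ : E →L[ℝ] E →L[ℝ] ℝ} {a w : ℝ → E} {a₀ τ : E} {C : ℝ} (hG : Tendsto G F (𝓝 G₀))
    (ha : Tendsto a F (𝓝 a₀)) (hw : Tendsto (fun ε => ε⁻¹ • w ε) F (𝓝 τ))
    (hle : ∀ᶠ ε in F, G ε (a ε) (w ε) ≤ C * ‖w ε‖ ^ 2) : G₀ a₀ τ ≤ 0 := by
  have h0 : Tendsto (fun ε : ℝ => ε) F (𝓝 0) := hF.trans nhdsWithin_le_nhds
  have c : Continuous fun z : (E →L[ℝ] E →L[ℝ] ℝ) × E × E => z.1 z.2.1 z.2.2 := by fun_prop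
  have h1 : Tendsto (fun ε => G ε (a ε) (ε⁻¹ • w ε)) F (𝓝 (G₀ a₀ τ)) :=
    (c.tendsto (G₀, a₀, τ)).comp (hG.prodMk_nhds (ha.prodMk_nhds hw))
  have h2 : Tendsto (fun ε => C * ε * ‖ε⁻¹ • w ε‖ ^ 2) F (𝓝 (C * 0 * ‖τ‖ ^ 2)) :=
    (h0.const_mul C).mul (hw.norm.pow 2)
  rw [mul_zero, zero_mul] at h2
  refine le_of_tendsto_of_tendsto h1 h2 ?_
  filter_upwards [hle, hF self_mem_nhdsWithin] with ε h hε
  have hε : 0 < ε := hε
  rw [map_smul, smul_eq_mul, norm_smul, norm_inv, Real.norm_of_nonneg hε.le]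
  refine (mul_le_mul_of_nonneg_left h (inv_pos.2 hε).le).trans (le_of_eq ?_)
  field_simp

theorem smv (h : RM g) (x : M) (a : E × ℝ) :
    SmV (fun b : E × ℝ => geo g x b.1 b.2) (fun b => vl g x b.1 b.2) a :=
  SmV.flow h (smV_const x contDiffAt_fst) contDiffAt_snd

theorem hasDeriv (h : RM g) {e : OpenPartialHomeomorph M E} (he : e ∈ atlas E M) {x : M} {v : E}
    {t : ℝ} (ht : geo g x v t ∈ e.source) :
    HasDerivAt (fun s => e (geo g x v s)) (dC e (geo g x v t) (vl g x v t)) t := by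
  have h1 : SmP E (fun s => geo g x v s) t :=
    (SmV.flow h (smV_const x (contDiffAt_const (c := v))) contDiffAt_id).1
  have h2 := (h1.chart he ht).differentiableAt (by simp)
  have h3 := dC_vel he ht h1.continuousAt h2
  unfold vl
  rw [h3]
  exact h2.hasDerivAt

theorem strict {F : Filter ℝ} (hF : F ≤ 𝓝[>] 0) {Φ : E × ℝ → E} {L : E × ℝ →L[ℝ] E} {v₀ : E}
    {s₀ δ : ℝ} (hΦ : HasStrictFDerivAt Φ L (v₀, s₀)) {v : ℝ → E} {d : ℝ → ℝ}
    (hv : Tendsto v F (𝓝 v₀)) (hd : Tendsto (fun ε => d ε / ε) F (𝓝 δ))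
    (hd0 : Tendsto d F (𝓝 0)) :
    Tendsto (fun ε => ε⁻¹ • (Φ (v ε, s₀) - Φ (v ε, s₀ - d ε))) F (𝓝 (δ • L (0, 1))) := by
  have h1 : Tendsto (fun ε => ((v ε, s₀), (v ε, s₀ - d ε))) F (𝓝 ((v₀, s₀), (v₀, s₀))) := by
    refine (hv.prodMk_nhds tendsto_const_nhds).prodMk_nhds (hv.prodMk_nhds ?_)
    simpa using hd0.const_sub s₀
  have h2 := hΦ.isLittleO.comp_tendsto h1
  have h3 : (fun ε => ((v ε, s₀) : E × ℝ) - (v ε, s₀ - d ε)) =O[F] fun ε : ℝ => ε := by
    refine Asymptotics.IsBigO.of_bound (|δ| + 1) ?_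
    filter_upwards [hd.abs.eventually (gt_mem_nhds (lt_add_one |δ|)), hF self_mem_nhdsWithin]
      with ε h hε
    have hε : 0 < ε := hε
    rw [abs_div, div_lt_iff₀ (abs_pos.2 hε.ne')] at h
    simpa using h.le
  have h4 := (h2.trans_isBigO h3).tendsto_inv_smul_nhds_zero
  have h5 := h4.add (hd.smul_const (L (0, 1)))
  rw [zero_add] at h5
  refine h5.congr fun ε => ?_
  have e : ((v ε, s₀) : E × ℝ) - (v ε, s₀ - d ε) = d ε • ((0 : E), (1 : ℝ)) := by simp
  simp only [Function.comp, e, map_smul, smul_sub, smul_smul, div_eq_inv_mul]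
  abel

end MoreauAux

open MoreauAux in
/-- `x k = ex g q (ε k • ζ)`, `ε k → 0`; `exists_dir p (x k)` gives `v k`, `δ k = π/2 - dist p (x k) / κ` lies in
`[0, ε k * nr ζ / κ]`, `q k = geo g p (v k) (π/2)`. Pass to a subsequence with `v k → v₀`, `δ k / ε k → δ`;
`u₀ = -vl g p v₀ (π/2)`. In the chart `e = chartAt E q`, by strict differentiability of
`(v, s) ↦ e (geo g p v s)`, `(e (q k) - e q) / ε k → ζ - δ • u₀`. `reach` at `(q, q k)` and at `(q k, q)`. -/
theorem Bl.moreau (h : Bl g κ) {q p : M} (hd : dist q p = π / 2 * κ) (ζ : E) :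
    ∃ u₀ ∈ Lam g κ q p, ∃ δ : ℝ, 0 ≤ δ ∧ (∀ u ∈ Lam g κ q p, g q u (ζ - δ • u₀) ≤ 0) ∧
      g q u₀ (ζ - δ • u₀) = 0 := by
  have hr := h.toRM
  have hκ := h.kpos
  have he := chart_mem_atlas E q
  have hq := mem_chart_source E q
  set e := chartAt E q with hedef
  have hC : ∀ w, dC e q w = w := dC_chartAt q
  choose v hv1 hv2 using fun ε : ℝ => h.exists_dir p (geo g q ζ ε)
  set d : ℝ → ℝ := fun ε => π / 2 - dist p (geo g q ζ ε) / κ with hddef
  have hd0 : ∀ ε, 0 ≤ d ε := fun ε => sub_nonneg.2 ((div_le_iff₀ hκ).2 (h.diam _ _))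
  have hd1 : ∀ ε, 0 < ε → d ε / ε ≤ nr g q ζ / κ := fun ε hε => by
    have a1 := hr.dist_ex q (ε • ζ)
    rw [← hr.geo_eq, nr_smul, abs_of_pos hε] at a1
    have a2 := dist_triangle q (geo g q ζ ε) p
    rw [dist_comm (geo g q ζ ε) p] at a2
    rw [div_le_div_iff₀ hε hκ, hddef, sub_mul, div_mul_cancel₀ _ hκ.ne']
    linarith
  obtain ⟨U, hU⟩ := Ultrafilter.exists_le (𝓝[>] (0 : ℝ))
  have hU0 : Tendsto (fun ε : ℝ => ε) U (𝓝 0) := hU.trans nhdsWithin_le_nhds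
  obtain ⟨v₀, hv₀, hv⟩ := (isCompact_sph hr p κ).ultrafilter_le_nhds (U.map v)
    (le_principal_iff.2 (mem_map.2 (Eventually.of_forall hv1)))
  obtain ⟨δ, hδ, hdl⟩ := (isCompact_Icc (a := (0 : ℝ)) (b := nr g q ζ / κ)).ultrafilter_le_nhds
    (U.map fun ε => d ε / ε) (le_principal_iff.2 (mem_map.2 (by
      filter_upwards [hU self_mem_nhdsWithin] with ε hε
      exact ⟨div_nonneg (hd0 ε) (le_of_lt hε), hd1 ε hε⟩)))
  replace hv : Tendsto v U (𝓝 v₀) := hv
  replace hdl : Tendsto (fun ε => d ε / ε) U (𝓝 δ) := hdl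
  have hdz : Tendsto d U (𝓝 0) := by
    have := hdl.mul hU0
    rw [mul_zero] at this
    refine this.congr' ?_
    filter_upwards [hU self_mem_nhdsWithin] with ε hε
    exact div_mul_cancel₀ _ (ne_of_gt hε)
  have hx : ∀ ε, geo g p (v ε) (π / 2 - d ε) = geo g q ζ ε := fun ε => by
    rw [hddef, sub_sub_cancel, hv2]
  have hs := smv hr p (v₀, π / 2)
  have hq0 : geo g p v₀ (π / 2) = q := by
    have a1 : Tendsto (fun ε => (v ε, π / 2 - d ε)) U (𝓝 (v₀, π / 2)) :=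
      hv.prodMk_nhds (by simpa using hdz.const_sub (π / 2))
    have a2 := hs.1.continuousAt.tendsto.comp a1
    have a3 := ((continuous_geo hr q ζ).tendsto 0).comp hU0
    rw [hr.geo_zero] at a3
    exact tendsto_nhds_unique (a2.congr hx) a3
  have hq1 : geo g p v₀ (π / 2) ∈ e.source := by rwa [hq0]
  have hΦ := (hs.1.chart he hq1).hasStrictFDerivAt (by simp)
  have hL : fderiv ℝ (fun b : E × ℝ => e (geo g p b.1 b.2)) (v₀, π / 2) (0, 1) =
      vl g p v₀ (π / 2) := by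
    have a1 := hΦ.hasFDerivAt.comp_hasDerivAt (π / 2)
      ((hasDerivAt_const (π / 2) v₀).prodMk (hasDerivAt_id (π / 2)))
    have a2 := hasDeriv hr he hq1
    rw [hq0, hC] at a2
    exact a1.unique a2
  have w1 := strict hU hΦ hv hdl hdz
  rw [hL] at w1
  have w2 : Tendsto (fun ε => ε⁻¹ • (e (geo g q ζ ε) - e q)) U (𝓝 ζ) := by
    have a2 := hasDeriv hr he (x := q) (v := ζ) (t := 0) (by rwa [hr.geo_zero])
    rw [hr.geo_zero, hr.vl_zero, hC] at a2
    have a3 := a2.tendsto_slope_zero_right.mono_left hU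
    simpa only [zero_add, hr.geo_zero] using a3
  have w3 : Tendsto (fun ε => ε⁻¹ • (e (geo g p (v ε) (π / 2)) - e q)) U
      (𝓝 (ζ - δ • -vl g p v₀ (π / 2))) := by
    have := w2.add w1
    rw [smul_neg, sub_neg_eq_add]
    refine this.congr fun ε => ?_
    simp only [hx]
    rw [← smul_add]
    congr 1
    abel
  have a1 : Tendsto (fun ε => (v ε, π / 2)) U (𝓝 (v₀, π / 2)) := hv.prodMk_nhds tendsto_const_nhds
  have tq : Tendsto (fun ε => geo g p (v ε) (π / 2)) U (𝓝 q) := by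
    have := hs.1.continuousAt.tendsto.comp a1
    rwa [hq0] at this
  have hg : ∀ a b, gc g e (e q) a b = g q a b := fun a b => by
    rw [← gc_dC g he hq, hC, hC]
  obtain ⟨C, hCr⟩ := h.reach he hq p
  have hu₀ : -vl g p v₀ (π / 2) ∈ Lam g κ q p := by
    have := h.back hv₀
    rwa [hq0] at this
  have k1 : ∀ u ∈ Lam g κ q p, g q u (ζ - δ • -vl g p v₀ (π / 2)) ≤ 0 := fun u hu => by
    refine lim_le hU (G := fun _ => g q) (a := fun _ => u) (C := C) tendsto_const_nhds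
      tendsto_const_nhds w3 ?_
    filter_upwards [(tendsto_const_nhds.prodMk_nhds tq).eventually hCr] with ε hε
    have := hε u hu (h.lam_dist (h.back (hv1 ε)))
    rwa [hC, hg] at this
  refine ⟨_, hu₀, δ, hδ.1, k1, le_antisymm (k1 _ hu₀) ?_⟩
  have te : Tendsto (fun ε => e (geo g p (v ε) (π / 2))) U (𝓝 (e q)) :=
    (e.continuousAt hq).tendsto.comp tq
  have tg : Tendsto (fun ε => gc g e (e (geo g p (v ε) (π / 2)))) U (𝓝 (gc g e (e q))) :=
    ((hr.smooth e he).continuousOn.continuousAt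
      (e.open_target.mem_nhds (e.map_source hq))).tendsto.comp te
  have ta : Tendsto (fun ε => dC e (geo g p (v ε) (π / 2)) (-vl g p (v ε) (π / 2))) U
      (𝓝 (-vl g p v₀ (π / 2))) := by
    have := ((hs.2 e he hq1).continuousAt.tendsto.comp a1).neg
    simp only [hq0, hC] at this
    simpa only [map_neg, Function.comp] using this
  have k2 := lim_le hU (w := fun ε => e q - e (geo g p (v ε) (π / 2))) (C := C) tg ta
    (w3.neg.congr fun ε => by rw [← smul_neg, neg_sub]) (by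
      filter_upwards [(tq.prodMk_nhds tendsto_const_nhds).eventually hCr] with ε hε
      exact hε _ (h.back (hv1 ε)) hd)
  rw [hg, map_neg] at k2
  linarith

/-- A vector that has nonpositive product with the polar cone lies in the cone. -/
theorem Bl.mem_cn (h : Bl g κ) {q p : M} (hd : dist q p = π / 2 * κ) {ζ : E}
    (hζ : ∀ τ, (∀ u ∈ Lam g κ q p, g q u τ ≤ 0) → g q ζ τ ≤ 0) : ζ ∈ Cn g κ q p := by
  obtain ⟨u₀, hu, δ, h0, h1, h2⟩ := h.moreau hd ζ
  refine ⟨δ, h0, u₀, hu, ?_⟩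
  by_contra hne
  have h3 := h.pos q _ (sub_ne_zero.2 hne)
  have h4 := hζ _ h1
  have h5 : g q (ζ - δ • u₀) (ζ - δ • u₀) = g q ζ (ζ - δ • u₀) - δ * g q u₀ (ζ - δ • u₀) := by
    rw [map_sub (g q), map_smul, sub_apply, smul_apply,
      smul_eq_mul]
  rw [h5, h2] at h3
  linarith

theorem Bl.cn_add (h : Bl g κ) {q p : M} {w w' : E} (hw : w ∈ Cn g κ q p) (hw' : w' ∈ Cn g κ q p) :
    w + w' ∈ Cn g κ q p := by
  obtain ⟨t, ht, u, hu, rfl⟩ := hw
  obtain ⟨t', ht', u', hu', rfl⟩ := hw'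
  refine h.mem_cn (h.lam_dist hu) fun τ hτ => ?_
  simp only [map_add, map_smul, add_apply, smul_apply,
    smul_eq_mul]
  exact add_nonpos (mul_nonpos_of_nonneg_of_nonpos ht (hτ u hu))
    (mul_nonpos_of_nonneg_of_nonpos ht' (hτ u' hu'))

/-- The polar cone `T` is convex with empty interior (for an interior point `τ` all `g q u τ < 0`, but
`g q u₀ τ = δ κ² ≥ 0`), so it lies in a hyperplane (`Convex.interior_nonempty_iff_affineSpan_eq_top`);
`riesz`, `mem_cn` for both normals. -/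
theorem Bl.pair (h : Bl g κ) {q p : M} (hd : dist q p = π / 2 * κ) :
    ∃ u ∈ Lam g κ q p, -u ∈ Lam g κ q p := by
  have hκ := h.kpos
  set T : Set E := {τ | ∀ u ∈ Lam g κ q p, g q u τ ≤ 0} with hT
  have hconv : Convex ℝ T := fun a ha b hb s t hs ht _ u hu => by
    rw [map_add, map_smul, map_smul, smul_eq_mul, smul_eq_mul]
    exact add_nonpos (mul_nonpos_of_nonneg_of_nonpos hs (ha u hu))
      (mul_nonpos_of_nonneg_of_nonpos ht (hb u hu))
  have h0 : (0 : E) ∈ T := fun u _ => by simp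
  have hint : ¬ (interior T).Nonempty := by
    rintro ⟨τ, hτ⟩
    obtain ⟨u₀, hu, δ, a0, -, a2⟩ := h.moreau hd τ
    have c : Tendsto (fun s : ℝ => τ + s • u₀) (𝓝[>] 0) (𝓝 τ) := by
      have : Continuous fun s : ℝ => τ + s • u₀ := by fun_prop
      simpa using (this.tendsto 0).mono_left (nhdsWithin_le_nhds (s := Ioi 0))
    obtain ⟨s, s1, s2⟩ := ((c.eventually (mem_interior_iff_mem_nhds.1 hτ)).and
      self_mem_nhdsWithin).exists
    have s2 : 0 < s := s2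
    have a3 := s1 u₀ hu
    rw [map_add, map_smul, smul_eq_mul, h.sq hu.1] at a3
    rw [map_sub, map_smul, smul_eq_mul, h.sq hu.1] at a2
    have : 0 < s * κ ^ 2 := by positivity
    have : 0 ≤ δ * κ ^ 2 := by positivity
    linarith
  rw [hconv.interior_nonempty_iff_affineSpan_eq_top,
    AffineSubspace.affineSpan_eq_top_iff_vectorSpan_eq_top_of_nonempty ℝ E E ⟨0, h0⟩,
    vectorSpan_eq_span_vsub_set_right ℝ h0] at hint
  obtain ⟨f, f0, hf⟩ := Submodule.exists_le_ker_of_lt_top _ (lt_top_iff_ne_top.2 hint)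
  obtain ⟨ξ, hξ⟩ := h.toRM.riesz q (LinearMap.toContinuousLinearMap f)
  have hz : ∀ τ ∈ T, g q ξ τ = 0 := fun τ hτ => by
    rw [hξ]
    exact hf (Submodule.subset_span ⟨τ, hτ, by simp⟩)
  have hne : ξ ≠ 0 := by
    rintro rfl
    exact f0 (LinearMap.ext fun w => by simpa using (hξ w).symm)
  obtain ⟨t, ht, u, hu, e1⟩ := h.mem_cn hd (ζ := ξ) fun τ hτ => (hz τ hτ).le
  obtain ⟨t', ht', u', hu', e2⟩ := h.mem_cn hd (ζ := -ξ) fun τ hτ => by
    rw [map_neg, neg_apply, hz τ hτ, neg_zero]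
  have n1 : nr g q ξ = t * κ := by rw [e1, nr_smul, abs_of_nonneg ht, hu.1]
  have n2 : nr g q ξ = t' * κ := by rw [← nr_neg, e2, nr_smul, abs_of_nonneg ht', hu'.1]
  have e3 : t' = t := mul_right_cancel₀ hκ.ne' (n2.symm.trans n1)
  have t0 : t ≠ 0 := by
    rintro rfl
    exact hne (by rw [e1, zero_smul])
  have e4 : -u = u' := smul_right_injective E t0 (by
    simp only
    rw [smul_neg, ← e1, e2, e3])
  exact ⟨u, hu, e4 ▸ hu'⟩

end Vale.Agent.P231
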