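import Vale.Agent.P231.DataC
import Vale.Agent.P231.BK
import Vale.Agent.P231.Cont

/-! The inequality along one closed geodesic. -/

open scoped Manifold ContDiff Topology ENNReal RealInnerProductSpace
open Set Filter Real Module

set_option linter.unusedSectionVars false

namespace Vale.Agent.P231

open Vale.Agent.P255 Vale.Agent.P234

variable {E : Type} [NormedAddCommGroup E] [NormedSpace ℝ E] [FiniteDimensional ℝ E]
  {M : Type} [MetricSpace M] [CompactSpace M] [ChartedSpace E M] [IsManifold 𝓘(ℝ, E) ∞ M]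
  {g : M → E →L[ℝ] E →L[ℝ] ℝ} {κ : ℝ}

open MeasureTheory

theorem continuous_FF_orbit (h : RM g) (x : M) (v : E) (r : ℝ) :
    Continuous fun s => FF g (geo g x v s) (vl g x v s) r :=
  continuous_iff_continuousAt.2 fun _ =>
    continuousAt_FF h (CtV.flow h (ctV_const x continuousAt_const) continuousAt_id)
      continuousAt_const

namespace OrbitAux

theorem F0_pos (m b : ℕ) {r : ℝ} (hr : r ∈ Ioo 0 (π / 2)) : 0 < F0 m b r :=
  mul_pos (pow_pos (sin_pos_of_pos_of_lt_pi hr.1 (by linarith [hr.2, pi_pos])) _)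
    (pow_pos (cos_pos_of_mem_Ioo ⟨by linarith [hr.1, pi_pos], hr.2⟩) _)

theorem pos (h : Bl g κ) {x : M} {v : E} (hv : nr g x v = κ) {r : ℝ} (hr : r ∈ Ioo 0 (π / 2))
    (s : ℝ) : 0 < FF g (geo g x v s) (vl g x v s) r :=
  h.FF_pos ((nr_vl' h.toRM x v s).trans hv) hr

theorem per (h : Bl g κ) {x : M} {v : E} (hv : nr g x v = κ) (r : ℝ) :
    Function.Periodic (fun s => FF g (geo g x v s) (vl g x v s) r) π := fun s => by
  show FF g (geo g x v (s + π)) (vl g x v (s + π)) r = _
  rw [h.geo_per hv, h.vl_per hv]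

theorem cont_log (h : Bl g κ) {x : M} {v : E} (hv : nr g x v = κ) {r : ℝ}
    (hr : r ∈ Ioo 0 (π / 2)) : Continuous fun s => log (FF g (geo g x v s) (vl g x v s) r) :=
  (continuous_FF_orbit h.toRM x v r).log fun s => (pos h hv hr s).ne'

/-- the inequality when the kernel is minimal at the start -/
theorem start (h : Bl g κ) {x : M} {v : E} (hv : nr g x v = κ)
    (hm : ∀ s, finrank ℝ (KK g x v) ≤ finrank ℝ (KK g (geo g x v s) (vl g x v s))) {r : ℝ}
    (hr : r ∈ Ioo 0 (π / 2)) :
    π * log (F0 (finrank ℝ E - 1) (finrank ℝ (KK g x v)) r) ≤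
      ∫ s in (0 : ℝ)..π, log (FF g (geo g x v s) (vl g x v s) r) := by
  obtain ⟨b, c, e, he⟩ := h.exists_Fr hv
  obtain ⟨J, D, B, ε, hJ⟩ := exists_JS h.toRM x v
  have := (h.bkd hv hJ he).bk (fun s hs => he.cardK.trans_le ((hm s).trans (h.ker_le hv hJ he hs)))
    hr (h.isL hv hJ he hr) ((cont_log h hv hr).intervalIntegrable _ _)
  rwa [Nat.eq_sub_of_add_eq he.card, he.cardK] at this

/-- the inequality with the minimal dimension of the kernel along the geodesic -/
theorem low (h : Bl g κ) {x : M} {v : E} (hv : nr g x v = κ) : ∃ s₀,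
    (∀ s, finrank ℝ (KK g (geo g x v s₀) (vl g x v s₀)) ≤
      finrank ℝ (KK g (geo g x v s) (vl g x v s))) ∧ ∀ r ∈ Ioo 0 (π / 2),
    π * log (F0 (finrank ℝ E - 1) (finrank ℝ (KK g (geo g x v s₀) (vl g x v s₀))) r) ≤
      ∫ s in (0 : ℝ)..π, log (FF g (geo g x v s) (vl g x v s) r) := by
  let N : ℝ → ℕ := fun s => finrank ℝ (KK g (geo g x v s) (vl g x v s))
  have hN : ∀ s, N (Function.argmin N) ≤ N s := fun s => Function.argmin_le N s
  refine ⟨Function.argmin N, hN, fun r hr => ?_⟩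
  generalize Function.argmin N = s₀ at hN
  refine (start h ((nr_vl' h.toRM x v s₀).trans hv) (fun s => ?_) hr).trans (le_of_eq ?_)
  · rw [geo_flow h.toRM, vl_flow' h.toRM]
    exact hN _
  · simp only [geo_flow h.toRM, vl_flow' h.toRM]
    have := ((per h hv r).comp log).intervalIntegral_add_eq s₀ 0
    rw [intervalIntegral.integral_comp_add_left
      (fun s => log (FF g (geo g x v s) (vl g x v s) r)) s₀, add_zero]
    rw [zero_add] at this
    exact this

theorem jen {F : ℝ → ℝ} {c : ℝ} (hc : 0 < c) (hF : Continuous F) (hp : ∀ s, 0 < F s)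
    (hper : Function.Periodic F π) (h1 : π * log c ≤ ∫ s in (0 : ℝ)..π, log (F s)) :
    π * c ≤ ∫ s in (0 : ℝ)..π, F s ∧ (∫ s in (0 : ℝ)..π, F s ≤ π * c → ∀ s, F s = c) := by
  have hL : Continuous fun s => log (F s) := hF.log fun s => (hp s).ne'
  have e : ∀ s, F s - c * (1 - log c) - c * log (F s) = c * (F s / c - 1 - log (F s / c)) := by
    intro s
    rw [log_div (hp s).ne' hc.ne']
    field_simp
    ring
  have h2 : ∀ s, 0 ≤ F s - c * (1 - log c) - c * log (F s) := fun s => by
    rw [e]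
    exact mul_nonneg hc.le (sub_nonneg.2 (log_le_sub_one_of_pos (div_pos (hp s) hc)))
  have h3 : ∫ s in (0 : ℝ)..π, (F s - c * (1 - log c) - c * log (F s)) =
      (∫ s in (0 : ℝ)..π, F s) - π * (c * (1 - log c)) - c * ∫ s in (0 : ℝ)..π, log (F s) := by
    rw [intervalIntegral.integral_sub ((hF.fun_sub continuous_const).intervalIntegrable _ _)
      ((continuous_const.fun_mul hL).intervalIntegrable _ _),
      intervalIntegral.integral_sub (hF.intervalIntegrable _ _) intervalIntegrable_const,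
      intervalIntegral.integral_const, intervalIntegral.integral_const_mul, sub_zero, smul_eq_mul]
  have h4 := mul_le_mul_of_nonneg_left h1 hc.le
  have h5 := intervalIntegral.integral_nonneg_of_forall (μ := volume) pi_pos.le h2
  refine ⟨by linarith, fun h6 s => ?_⟩
  obtain ⟨y, hy, e'⟩ := hper.exists_mem_Ico₀ pi_pos s
  rw [e']
  by_contra h7
  have h8 := intervalIntegral.integral_pos pi_pos
    ((hF.sub continuous_const).sub (continuous_const.mul hL)).continuousOn (fun s _ => h2 s)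
    ⟨y, Ico_subset_Icc_self hy, by
      show 0 < F y - c * (1 - log c) - c * log (F y)
      rw [e]
      exact mul_pos hc (sub_pos.2 (log_lt_sub_one_of_pos (div_pos (hp y) hc)
        fun h => h7 ((div_eq_one_iff_eq hc.ne').1 h)))⟩
  have h9 := h8.trans_eq h3
  linarith

theorem JF_add (x : M) (v : E) (t : ℝ) (w w' : E) :
    JF g x v t (w + w') = JF g x v t w + JF g x v t w' := by
  unfold JF
  rw [smul_add, map_add]

theorem JF_smul (x : M) (v : E) (t c : ℝ) (w : E) : JF g x v t (c • w) = c • JF g x v t w := by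
  unfold JF
  rw [smul_comm, map_smul]

theorem JF_sum {ι : Type} [Fintype ι] (x : M) (v : E) (t : ℝ) (c : ι → ℝ) (w : ι → E) :
    JF g x v t (∑ i, c i • w i) = ∑ i, c i • JF g x v t (w i) := by
  unfold JF
  rw [Finset.smul_sum, map_sum]
  exact Finset.sum_congr rfl fun i _ => by rw [smul_comm, map_smul]

theorem JF_perp (h : RM g) {x : M} {v w : E} (hw : g x v w = 0) (t : ℝ) :
    g (geo g x v t) (JF g x v t w) (JF g x v t v) = 0 := by
  have h1 : JF g x v t v = vl g x (t • v) 1 := by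
    have := h.dM_ex_self x (t • v) 1
    rwa [one_smul] at this
  rw [h1, h.symm, h.geo_eq]
  unfold JF
  rw [h.gauss, map_smul, map_smul, ContinuousLinearMap.smul_apply, hw, smul_zero, smul_zero]

theorem gram {K H : Type} [Fintype K] [Fintype H] [DecidableEq K] [DecidableEq H] (h : RM g)
    {x : M} {v : E} (hv : v ≠ 0) {e : K ⊕ H → E} (he : Fr g x v e) {t l : ℝ}
    (hG : ∀ i j, Gam g x v e t i j = dl t i * dl t j * (1 : Matrix (K ⊕ H) (K ⊕ H) ℝ) i j) {w : E}
    (hw : g x v w = 0) (hl : ∀ i, g x (e i) w ≠ 0 → dl t i = l) (w' : E) :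
    g (geo g x v t) (JF g x v t w) (JF g x v t w') = l ^ 2 * g x w w' := by
  have hp := (h.pos x v hv).ne'
  obtain ⟨u, c, hu, rfl⟩ : ∃ (u : E) (c : ℝ), g x v u = 0 ∧ w' = u + c • v := by
    refine ⟨w' - (g x v w' / g x v v) • v, _, ?_, (sub_add_cancel _ _).symm⟩
    rw [map_sub, map_smul, smul_eq_mul, div_mul_cancel₀ _ hp, sub_self]
  rw [JF_add, JF_smul, map_add, map_smul, JF_perp h hw, map_add, map_smul, h.symm x w v, hw,
    smul_zero, add_zero, add_zero]
  have e1 : g x w u = ∑ i, g x (e i) w * g x (e i) u := by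
    conv_lhs => rw [he.expand h hv hw]
    rw [map_sum, ContinuousLinearMap.sum_apply]
    exact Finset.sum_congr rfl fun i _ => by
      rw [map_smul, ContinuousLinearMap.smul_apply, smul_eq_mul]
  rw [e1, Finset.mul_sum]
  conv_lhs => rw [he.expand h hv hw, he.expand h hv hu]
  rw [JF_sum, JF_sum, map_sum (g (geo g x v t)), ContinuousLinearMap.sum_apply]
  refine Finset.sum_congr rfl fun i _ => ?_
  rw [map_smul, ContinuousLinearMap.smul_apply, smul_eq_mul, map_sum,
    Finset.sum_eq_single i _ fun h => absurd (Finset.mem_univ _) h]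
  · have := hG i i
    rw [Matrix.one_apply_eq, mul_one] at this
    rw [map_smul, smul_eq_mul]
    by_cases h0 : g x (e i) w = 0
    · rw [h0]; ring
    · rw [hl i h0] at this
      rw [show g (geo g x v t) (JF g x v t (e i)) (JF g x v t (e i)) = l * l from this]
      ring
  · intro j _ hj
    have := hG i j
    rw [Matrix.one_apply_ne hj.symm, mul_zero] at this
    rw [map_smul, smul_eq_mul,
      show g (geo g x v t) (JF g x v t (e i)) (JF g x v t (e j)) = 0 from this, mul_zero]

end OrbitAux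

open OrbitAux

/-- Start at a time `s₀` where `finrank KK` is minimal along the geodesic (the integral of a `π`-periodic
function does not depend on the starting point); `bk`, `ker_le`, `F0` decreases with `b`. -/
theorem Bl.orbit_log (h : Bl g κ) {a : ℕ}
    (ha : ∀ x v, nr g x v = κ → finrank ℝ (KK g x v) < a) {x : M} {v : E} (hv : nr g x v = κ)
    {r : ℝ} (hr : r ∈ Ioo 0 (π / 2)) :
    π * log (F0 (finrank ℝ E - 1) (a - 1) r) ≤
      ∫ s in (0 : ℝ)..π, log (FF g (geo g x v s) (vl g x v s) r) := by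
  obtain ⟨s₀, -, h1⟩ := low h hv
  refine le_trans (mul_le_mul_of_nonneg_left (log_le_log (F0_pos _ _ hr) ?_) pi_pos.le) (h1 r hr)
  have h2 := ha _ _ ((nr_vl' h.toRM x v s₀).trans hv)
  exact mul_le_mul_of_nonneg_left
    (pow_le_pow_of_le_one (cos_pos_of_mem_Ioo ⟨by linarith [hr.1, pi_pos], hr.2⟩).le (cos_le_one r)
      (by omega))
    (pow_pos (sin_pos_of_pos_of_lt_pi hr.1 (by linarith [hr.2, pi_pos])) _).le

/-- `F / F0 ≥ 1 + log (F / F0)` with equality only for `F = F0`. -/
theorem Bl.orbit_ge (h : Bl g κ) {a : ℕ}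
    (ha : ∀ x v, nr g x v = κ → finrank ℝ (KK g x v) < a) {x : M} {v : E} (hv : nr g x v = κ)
    {r : ℝ} (hr : r ∈ Ioo 0 (π / 2)) :
    π * F0 (finrank ℝ E - 1) (a - 1) r ≤ ∫ s in (0 : ℝ)..π, FF g (geo g x v s) (vl g x v s) r ∧
    (∫ s in (0 : ℝ)..π, FF g (geo g x v s) (vl g x v s) r ≤ π * F0 (finrank ℝ E - 1) (a - 1) r →
      ∀ s, FF g (geo g x v s) (vl g x v s) r = F0 (finrank ℝ E - 1) (a - 1) r) := by
  exact jen (F0_pos _ _ hr) (continuous_FF_orbit h.toRM x v r) (pos h hv hr) (per h hv r)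
    (h.orbit_log ha hv hr)

/-- The minimal `finrank KK` along the geodesic is `a - 1` (otherwise `bk` is violated since `cos r < 1`), so
`BKK` holds at the start; `bk_eq`, `gam_eq`, `Fr.expand`, `Fr.expandK`, Gauss lemma for the radial part. -/
theorem Bl.rig (h : Bl g κ) {a : ℕ} (ha : ∀ x v, nr g x v = κ → finrank ℝ (KK g x v) < a) {x : M}
    (hx : ∀ v, nr g x v = κ → ∀ r ∈ Ioo 0 (π / 2), ∀ s,
      FF g (geo g x v s) (vl g x v s) r = F0 (finrank ℝ E - 1) (a - 1) r) : Rig g κ x a := by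
  intro v hv
  have hN : ∀ s, finrank ℝ (KK g (geo g x v s) (vl g x v s)) + 1 = a := by
    obtain ⟨s₀, h0, h1⟩ := low h hv
    have hr : π / 4 ∈ Ioo 0 (π / 2) := ⟨by linarith [pi_pos], by linarith [pi_pos]⟩
    have h2 := h1 _ hr
    simp only [hx v hv _ hr] at h2
    rw [intervalIntegral.integral_const, sub_zero, smul_eq_mul] at h2
    have h3 := (log_le_log_iff (F0_pos _ _ hr) (F0_pos _ _ hr)).1 (le_of_mul_le_mul_left h2 pi_pos)
    have h4 := le_of_mul_le_mul_left h3
      (pow_pos (sin_pos_of_pos_of_lt_pi hr.1 (by linarith [hr.2, pi_pos])) _)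
    have h5 : cos (π / 4) < 1 := by
      rw [← cos_zero]
      exact cos_lt_cos_of_nonneg_of_le_pi le_rfl (by linarith [pi_pos]) hr.1
    rw [pow_le_pow_iff_right_of_lt_one₀ (cos_pos_of_mem_Ioo ⟨by linarith [hr.1, pi_pos], hr.2⟩)
      h5] at h4
    intro s
    have h6 := ha _ _ ((nr_vl' h.toRM x v s).trans hv)
    have h7 := h0 s
    omega
  have h0 := hN 0
  rw [h.toRM.geo_zero, h.toRM.vl_zero] at h0
  refine ⟨h0, fun t ht w w' => ?_⟩
  obtain ⟨b, c, e, he⟩ := h.exists_Fr hv
  obtain ⟨J, D, B, ε, hJ⟩ := exists_JS h.toRM x v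
  have hG := (h.bkd hv hJ he).bk_eq
    (fun s hs => le_trans (by rw [he.cardK]; have := hN s; omega) (h.ker_le hv hJ he hs))
    (h.Gn_zero hv hJ he) (fun r hr => by
      have := h.isL hv hJ he hr
      rw [funext (hx v hv r hr)] at this
      rwa [Nat.eq_sub_of_add_eq he.card, he.cardK, Nat.eq_sub_of_add_eq h0]) t ht
  have hv0 : v ≠ 0 := by
    rintro rfl
    have := h.sq hv
    rw [map_zero] at this
    exact (pow_pos h.kpos 2).ne this
  have hg : ∀ i j, Gam g x v e t i j =
      dl t i * dl t j * (1 : Matrix (Fin b ⊕ Fin c) (Fin b ⊕ Fin c) ℝ) i j := fun i j => by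
    rw [h.gam_eq hv hJ he ⟨ht.1.le, by linarith [ht.2, pi_pos]⟩, hG]
  refine ⟨fun hw => gram h.toRM hv0 he hg (h.KK_perp hw) ?_ w',
    fun hw hk => gram h.toRM hv0 he hg hw ?_ w'⟩
  · rintro (i | i) hi
    · rfl
    · refine absurd ?_ hi
      rw [he.expandK h.toRM hw, map_sum]
      exact Finset.sum_eq_zero fun j _ => by
        rw [map_smul, he.on, if_neg (by simp), smul_zero]
  · rintro (i | i) hi
    · exact absurd (hk _ (he.memK i)) hi
    · rfl

end Vale.Agent.P231
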