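import Vale.Agent.P231.Area
import Vale.Agent.P231.Cont
import Vale.Agent.P234.Gap

/-! Integration in polar coordinates. -/

open scoped Manifold ContDiff Topology ENNReal RealInnerProductSpace
open Set Filter Real Module

set_option linter.unusedSectionVars false

namespace Vale.Agent.P231

open Vale.Agent.P255 Vale.Agent.P234

variable {E : Type} [NormedAddCommGroup E] [NormedSpace ℝ E] [FiniteDimensional ℝ E]
  {M : Type} [MetricSpace M] [CompactSpace M] [ChartedSpace E M] [IsManifold 𝓘(ℝ, E) ∞ M]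
  {g : M → E →L[ℝ] E →L[ℝ] ℝ} {κ : ℝ}
  [MeasurableSpace M] [BorelSpace M]

open MeasureTheory

namespace PolarAux

variable {n : ℕ} {x : M} {ι : Eu n ≃L[ℝ] E}

theorem nontriv (hn : 1 ≤ n) : Nontrivial (Eu n) :=
  Module.nontrivial_of_finrank_pos (R := ℝ) (by rwa [finrank_euclideanSpace_fin])

theorem isOpen_Bo : IsOpen (Bo n) :=
  (isOpen_lt continuous_const continuous_norm).inter (isOpen_lt continuous_norm continuous_const)

theorem euclid (hn : 1 ≤ n) {F : Eu n → ℝ≥0∞} (hF : Measurable F) :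
    ∫⁻ y in Bo n, F y = ∫⁻ θ : Metric.sphere (0 : Eu n) 1, ∫⁻ t in Ioo 0 (π / 2),
      ENNReal.ofReal (t ^ (n - 1)) * F (t • θ.1) ∂volume ∂(volume : Measure (Eu n)).toSphere := by
  have := nontriv hn
  have hG : Measurable ((Bo n).indicator F) := hF.indicator isOpen_Bo.measurableSet
  have h1 := (volume : Measure (Eu n)).measurePreserving_homeomorphUnitSphereProd
    |>.lintegral_comp_emb (Homeomorph.measurableEmbedding _)
      fun z => (Bo n).indicator F (z.2.1 • z.1.1)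
  have h2 : ∀ a : ({0}ᶜ : Set (Eu n)),
      (homeomorphUnitSphereProd _ a).2.1 • (homeomorphUnitSphereProd _ a).1.1 = a.1 := fun a => by
    rw [← homeomorphUnitSphereProd_symm_apply_coe, Homeomorph.symm_apply_apply]
  simp only [h2] at h1
  rw [lintegral_subtype_comap (measurableSet_singleton _).compl, restrict_compl_singleton,
    finrank_euclideanSpace_fin] at h1
  have hm : Measurable fun b : Metric.sphere (0 : Eu n) 1 × Ioi (0 : ℝ) =>
      (Bo n).indicator F (b.2.1 • b.1.1) := hG.comp (by fun_prop)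
  rw [← lintegral_indicator isOpen_Bo.measurableSet, h1, lintegral_prod _ hm.aemeasurable]
  refine lintegral_congr fun θ => ?_
  have hθ := norm_eq_of_mem_sphere θ
  have hr : Measurable fun r : Ioi (0 : ℝ) => (Bo n).indicator F (r.1 • θ.1) :=
    hG.comp (by fun_prop)
  rw [Measure.volumeIoiPow, lintegral_withDensity_eq_lintegral_mul _ (by fun_prop) hr]
  refine (lintegral_subtype_comap measurableSet_Ioi fun r : ℝ =>
    ENNReal.ofReal (r ^ (n - 1)) * (Bo n).indicator F (r • θ.1)).trans ?_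
  rw [← lintegral_indicator measurableSet_Ioi, ← lintegral_indicator measurableSet_Ioo]
  refine lintegral_congr fun t => ?_
  by_cases ht : 0 < t
  · have e : ‖t • θ.1‖ = t := by rw [norm_smul, hθ, mul_one, Real.norm_of_nonneg ht.le]
    rw [indicator_of_mem (mem_Ioi.2 ht)]
    by_cases ht' : t < π / 2
    · rw [indicator_of_mem (show t • θ.1 ∈ Bo n from ⟨by rwa [e], by rwa [e]⟩),
        indicator_of_mem (mem_Ioo.2 ⟨ht, ht'⟩)]
    · rw [indicator_of_notMem (fun h : t • θ.1 ∈ Bo n => ht' (e ▸ h.2)),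
        indicator_of_notMem (fun h : t ∈ Ioo 0 (π / 2) => ht' h.2), mul_zero]
  · rw [indicator_of_notMem (fun h : t ∈ Ioi 0 => ht h),
      indicator_of_notMem (fun h : t ∈ Ioo 0 (π / 2) => ht h.1)]

theorem nr_iota (hκ : 0 < κ) (hι : ∀ a b, g x (ι a) (ι b) = κ ^ 2 * ⟪a, b⟫) (y : Eu n) :
    nr g x (ι y) = κ * ‖y‖ := by
  rw [nr, hι, real_inner_self_eq_norm_sq, ← mul_pow, Real.sqrt_sq (by positivity)]

theorem img_le (h : Bl g κ) (hι : ∀ a b, g x (ι a) (ι b) = κ ^ 2 * ⟪a, b⟫) :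
    ∃ C ≠ (⊤ : ℝ≥0∞), ∀ A ⊆ Metric.closedBall (0 : Eu n) (π / 2),
      (μHE[n] : Measure M) ((fun y => ex g x (ι y)) '' A) ≤ C * volume A := by
  obtain ⟨Λ, -, hl⟩ := h.toRM.ex_lip (κ ^ 2 * (π / 2) ^ 2)
  have hb : ∀ y ∈ Metric.closedBall (0 : Eu n) (π / 2),
      g x (ι y) (ι y) ≤ κ ^ 2 * (π / 2) ^ 2 := fun y hy => by
    rw [hι, real_inner_self_eq_norm_sq]
    have := mem_closedBall_zero_iff.1 hy
    gcongr
  have hL : LipschitzOnWith (Λ * κ).toNNReal (fun y => ex g x (ι y))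
      (Metric.closedBall 0 (π / 2)) := LipschitzOnWith.of_dist_le' fun a ha b hb' => by
    have := hl x _ _ (hb a ha) (hb b hb')
    rwa [← map_sub, nr_iota h.kpos hι, ← dist_eq_norm, ← mul_assoc] at this
  refine ⟨((Λ * κ).toNNReal : ℝ≥0∞) ^ (n : ℝ),
    ENNReal.rpow_ne_top_of_nonneg (Nat.cast_nonneg n) ENNReal.coe_ne_top, fun A hA => ?_⟩
  have h1 := (hL.mono hA).hausdorffMeasure_image_le (d := n) (Nat.cast_nonneg n)
  have h2 : (μHE[n] : Measure (Eu n)) A = volume A := by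
    rw [EuclideanSpace.euclideanHausdorffMeasure_eq_volume]
  rw [← h2, Measure.euclideanHausdorffMeasure_def, Measure.euclideanHausdorffMeasure_def,
    Measure.smul_apply, Measure.smul_apply, ENNReal.smul_def, ENNReal.smul_def, smul_eq_mul,
    smul_eq_mul, mul_left_comm]
  gcongr

theorem surj (h : Bl g κ) (hι : ∀ a b, g x (ι a) (ι b) = κ ^ 2 * ⟪a, b⟫) (q : M) :
    ∃ y, ‖y‖ = dist x q / κ ∧ ex g x (ι y) = q := by
  obtain ⟨v, hv, he⟩ := h.exists_dir x q
  have hκ := h.kpos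
  have h1 := nr_iota hκ hι (ι.symm v)
  rw [ι.apply_symm_apply, hv] at h1
  have h2 : ‖ι.symm v‖ = 1 := mul_left_cancel₀ hκ.ne' (by rw [← h1, mul_one])
  refine ⟨(dist x q / κ) • ι.symm v, ?_, ?_⟩
  · rw [norm_smul, h2, mul_one, Real.norm_of_nonneg (by positivity)]
  · rw [map_smul, ι.apply_symm_apply, ← h.toRM.geo_eq, he]

theorem unit (h : Bl g κ) (hι : ∀ a b, g x (ι a) (ι b) = κ ^ 2 * ⟪a, b⟫) {y : Eu n}
    (hy : y ∈ Bo n) : ∃ v, nr g x v = κ ∧ ι y = ‖y‖ • v := by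
  refine ⟨‖y‖⁻¹ • ι y, ?_, (smul_inv_smul₀ hy.1.ne' _).symm⟩
  rw [nr_smul, nr_iota h.kpos hι, abs_of_pos (inv_pos.2 hy.1), mul_comm κ,
    inv_mul_cancel_left₀ hy.1.ne']

theorem injOn (h : Bl g κ) (hι : ∀ a b, g x (ι a) (ι b) = κ ^ 2 * ⟪a, b⟫) :
    InjOn (fun y => ex g x (ι y)) (Bo n) := by
  intro y hy y' hy' e
  obtain ⟨v, hv, ev⟩ := unit h hι hy
  obtain ⟨v', hv', ev'⟩ := unit h hι hy'
  obtain ⟨-, a1, a2⟩ := h.dir_geo hv hy
  obtain ⟨-, b1, b2⟩ := h.dir_geo hv' hy'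
  rw [h.toRM.geo_eq, ← ev] at a1 a2
  rw [h.toRM.geo_eq, ← ev'] at b1 b2
  simp only at e
  rw [e] at a1 a2
  apply ι.injective
  rw [ev, ev', ← a1, ← b1, a2.symm.trans b2]

theorem dM_psi (h : RM g) (y w : Eu n) :
    dM E (fun y => ex g x (ι y)) y w = dM E (ex g x) (ι y) (ι w) := by
  rw [dM_comp (X := ex g x) (φ := ι) (h.smP_ex x contDiffAt_id) ι.differentiableAt, ι.fderiv]
  rfl

theorem dens (h : Bl g κ) (hι : ∀ a b, g x (ι a) (ι b) = κ ^ 2 * ⟪a, b⟫) (y : Eu n) :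
    √(gd (g (ex g x (ι y))) fun i => dM E (fun y => ex g x (ι y)) y (EuclideanSpace.single i 1)) =
      κ ^ n * jac g x (ι y) := by
  have h1 := jac_sq h.toRM x (ι y) ((EuclideanSpace.basisFun (Fin n) ℝ).toBasis.map ι.toLinearEquiv)
  have h2 : ⇑((EuclideanSpace.basisFun (Fin n) ℝ).toBasis.map ι.toLinearEquiv) =
      fun i => ι (EuclideanSpace.single i 1) := by
    funext i
    simp
  have h3 : gd (g x) (fun i => ι (EuclideanSpace.single i 1)) = (κ ^ n) ^ 2 := by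
    have : (Matrix.of fun i j : Fin n => g x (ι (EuclideanSpace.single i 1))
        (ι (EuclideanSpace.single j 1))) = κ ^ 2 • (1 : Matrix (Fin n) (Fin n) ℝ) := by
      ext i j
      simp [hι, EuclideanSpace.inner_single_left, Matrix.one_apply]
    rw [gd, this, Matrix.det_smul, Matrix.det_one, mul_one, Fintype.card_fin, ← pow_mul, ← pow_mul,
      mul_comm]
  simp only [h2, h3] at h1
  have hκ := h.kpos
  have hj : 0 ≤ jac g x (ι y) := Real.sqrt_nonneg _
  simp only [dM_psi h.toRM]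
  rw [← h1, ← mul_pow, Real.sqrt_sq (by positivity), mul_comm]

end PolarAux

open PolarAux

/-- The cut locus and the point are Lipschitz images of null sets (`ex_lip`, `addHaar_sphere`). -/
theorem Bl.ae_om (h : Bl g κ) (x : M) :
    ∀ᵐ y ∂(μHE[finrank ℝ E] : Measure M), (x, y) ∈ Om M κ := by
  obtain ⟨ι, hι⟩ := exists_iso h.toRM x h.kpos
  obtain ⟨C, -, hC⟩ := img_le h hι
  have := nontriv h.dimpos
  have hκ := h.kpos
  have h1 := hC (Metric.sphere 0 0 ∪ Metric.sphere 0 (π / 2)) (union_subset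
    (Metric.sphere_subset_closedBall.trans (Metric.closedBall_subset_closedBall (by positivity)))
    Metric.sphere_subset_closedBall)
  rw [measure_union_null (Measure.addHaar_sphere _ _ _) (Measure.addHaar_sphere _ _ _), mul_zero,
    nonpos_iff_eq_zero] at h1
  refine measure_mono_null (fun q hq => ?_) h1
  obtain ⟨y, hy, e⟩ := surj h hι q
  refine ⟨y, ?_, e⟩
  rw [mem_union, mem_sphere_zero_iff_norm, mem_sphere_zero_iff_norm, hy]
  rcases (dist_nonneg (x := x) (y := q)).eq_or_lt with h2 | h2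
  · exact Or.inl (by rw [← h2, zero_div])
  · rcases (h.diam x q).eq_or_lt with h3 | h3
    · exact Or.inr (by rw [h3, mul_div_cancel_right₀ _ hκ.ne'])
    · exact absurd ⟨h2, h3⟩ hq

theorem PolarAux.nc (h : Bl g κ) {n : ℕ} {x : M} {ι : Eu n ≃L[ℝ] E}
    (hι : ∀ a b, g x (ι a) (ι b) = κ ^ 2 * ⟪a, b⟫) {y : Eu n} (hy : y ∈ Bo n) : NC g x (ι y) := by
  obtain ⟨v, hv, ev⟩ := unit h hι hy
  rw [ev]
  exact h.nc hv (by rw [abs_norm]; exact hy.2)

theorem PolarAux.cont_jac (h : RM g) {n : ℕ} (x : M) (ι : Eu n ≃L[ℝ] E) :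
    Continuous fun y => jac g x (ι y) := continuous_iff_continuousAt.2 fun _ =>
  continuousAt_jac h (ctV_const x ι.continuous.continuousAt)

theorem PolarAux.cart (h : Bl g κ) {x : M} {ι : Eu (finrank ℝ E) ≃L[ℝ] E}
    (hι : ∀ a b, g x (ι a) (ι b) = κ ^ 2 * ⟪a, b⟫) {f : M → ℝ≥0∞} (hf : Measurable f) :
    ∫⁻ y, f y ∂(μHE[finrank ℝ E] : Measure M) = ∫⁻ y in Bo (finrank ℝ E),
      ENNReal.ofReal (κ ^ finrank ℝ E * jac g x (ι y)) * f (ex g x (ι y)) := by
  have hκ := h.kpos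
  have h1 := area h.toRM rfl (Ψ := fun y => ex g x (ι y)) isOpen_Bo
    (fun y _ => h.toRM.smP_ex x ι.contDiff.contDiffAt) (fun y hy w hw => by
      rw [dM_psi h.toRM] at hw
      exact ι.map_eq_zero_iff.1 (nc h hι hy _ hw)) (injOn h hι) hf
  have h2 : ∀ᵐ q ∂(μHE[finrank ℝ E] : Measure M),
      q ∈ (fun y => ex g x (ι y)) '' Bo (finrank ℝ E) := by
    filter_upwards [h.ae_om x] with q hq
    obtain ⟨y, hy, e⟩ := surj h hι q
    exact ⟨y, ⟨hy ▸ div_pos hq.1 hκ, hy ▸ (div_lt_iff₀ hκ).2 hq.2⟩, e⟩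
  rw [Measure.restrict_eq_self_of_ae_mem h2] at h1
  simpa only [dens h hι] using h1

/-- `area` for `Ψ = ex g x ∘ ι` on `Bo n`, `jac_sq`, `measurePreserving_homeomorphUnitSphereProd`. -/
theorem Bl.polar (h : Bl g κ) {x : M} {ι : Eu (finrank ℝ E) ≃L[ℝ] E}
    (hι : ∀ a b, g x (ι a) (ι b) = κ ^ 2 * ⟪a, b⟫) {f : M → ℝ≥0∞} (hf : Measurable f) :
    ∫⁻ y, f y ∂(μHE[finrank ℝ E] : Measure M) = ENNReal.ofReal (κ ^ finrank ℝ E) *
      ∫⁻ θ : Metric.sphere (0 : Eu (finrank ℝ E)) 1, ∫⁻ t in Ioo 0 (π / 2),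
        f (geo g x (ι θ) t) * ENNReal.ofReal (FF g x (ι θ) t)
          ∂volume ∂(volume : Measure (Eu (finrank ℝ E))).toSphere := by
  have hκ := h.kpos
  have hm : Measurable fun y => f (ex g x (ι y)) * ENNReal.ofReal (jac g x (ι y)) :=
    (hf.comp ((h.toRM.continuous_ex x).comp ι.continuous).measurable).mul
      (cont_jac h.toRM x ι).measurable.ennreal_ofReal
  rw [cart h hι hf, ← lintegral_congr (f := fun θ : Metric.sphere (0 : Eu (finrank ℝ E)) 1 =>
    ∫⁻ t in Ioo 0 (π / 2), ENNReal.ofReal (t ^ (finrank ℝ E - 1)) *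
      (f (ex g x (ι (t • θ.1))) * ENNReal.ofReal (jac g x (ι (t • θ.1))))) fun θ => ?_,
    ← euclid h.dimpos hm, ← lintegral_const_mul _ hm]
  · refine lintegral_congr fun y => ?_
    rw [ENNReal.ofReal_mul (by positivity), mul_assoc, mul_comm (f _)]
  · refine setLIntegral_congr_fun measurableSet_Ioo fun t ht => ?_
    simp only [FF]
    rw [map_smul, ← h.toRM.geo_eq, abs_of_pos ht.1, ENNReal.ofReal_mul (pow_nonneg ht.1.le _),
      mul_left_comm]

theorem PolarAux.vol_top (h : Bl g κ) : (μHE[finrank ℝ E] : Measure M) univ ≠ ⊤ := by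
  rcases isEmpty_or_nonempty M with hM | ⟨⟨x⟩⟩
  · rw [univ_eq_empty_iff.2 hM, measure_empty]
    exact ENNReal.zero_ne_top
  obtain ⟨ι, hι⟩ := exists_iso h.toRM x h.kpos
  obtain ⟨C, hC, h1⟩ := img_le h hι
  refine ne_top_of_le_ne_top (ENNReal.mul_ne_top hC measure_closedBall_lt_top.ne)
    ((measure_mono fun q _ => ?_).trans (h1 _ subset_rfl))
  obtain ⟨y, hy, e⟩ := surj h hι q
  exact ⟨y, mem_closedBall_zero_iff.2 (hy ▸ (div_le_iff₀ h.kpos).2 (h.diam x q)), e⟩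

theorem PolarAux.vol_pos (h : Bl g κ) (x : M) : (μHE[finrank ℝ E] : Measure M) univ ≠ 0 := by
  obtain ⟨ι, hι⟩ := exists_iso h.toRM x h.kpos
  have hκ := h.kpos
  have := nontriv h.dimpos
  have h1 := cart h hι (f := fun _ => 1) measurable_const
  simp only [mul_one] at h1
  rw [← lintegral_one, h1, ← pos_iff_ne_zero, setLIntegral_pos_iff
    ((cont_jac h.toRM x ι).measurable.const_mul _).ennreal_ofReal]
  obtain ⟨y, hy⟩ := exists_norm_eq (Eu (finrank ℝ E)) (c := π / 4) (by positivity)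
  refine (isOpen_Bo.measure_pos _ ⟨y, by rw [hy]; positivity, by rw [hy]; linarith [pi_pos]⟩).trans_le
    (measure_mono fun y hy => ⟨?_, hy⟩)
  exact (ENNReal.ofReal_pos.2 (mul_pos (pow_pos hκ _) (jac_pos h.toRM (nc h hι hy)))).ne'

theorem Bl.vol_fin (h : Bl g κ) : (μHE[finrank ℝ E] : Measure M) univ ≠ ⊤ ∧
    (μHE[finrank ℝ E] : Measure M) univ ≠ 0 := ⟨vol_top h, h.ne.elim (vol_pos h)⟩

instance finVol [hF : Fact ((μHE[finrank ℝ E] : Measure M) univ ≠ ⊤)] :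
    IsFiniteMeasure (μHE[finrank ℝ E] : Measure M) := ⟨hF.out.lt_top⟩

/-- Tonelli, `polar`, `Fp_geo`, `FF_pos`. -/
theorem Bl.lintegral_nu (h : Bl g κ) {ι : M → Eu (finrank ℝ E) ≃L[ℝ] E}
    (hι : ∀ x a b, g x (ι x a) (ι x b) = κ ^ 2 * ⟪a, b⟫) {φ : M × M → ℝ≥0∞} (hφ : Measurable φ) :
    ∫⁻ p, φ p ∂nu g κ = ∫⁻ x, ENNReal.ofReal (κ ^ finrank ℝ E) *
      ∫⁻ θ : Metric.sphere (0 : Eu (finrank ℝ E)) 1, ∫⁻ t in Ioo 0 (π / 2),
        φ (x, geo g x (ι x θ) t) ∂volume ∂(volume : Measure (Eu (finrank ℝ E))).toSphere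
          ∂(μHE[finrank ℝ E] : Measure M) := by
  have : Fact ((μHE[finrank ℝ E] : Measure M) univ ≠ ⊤) := ⟨vol_top h⟩
  have hd : Measurable fun p => ENNReal.ofReal (Fp g κ p)⁻¹ := h.measurable_Fp.inv.ennreal_ofReal
  have hO : MeasurableSet (Om M κ) := isOpen_Om.measurableSet
  have hm := (hd.mul hφ).indicator hO
  rw [nu, lintegral_withDensity_eq_lintegral_mul _ hd hφ, ← lintegral_indicator hO]
  refine (lintegral_prod _ hm.aemeasurable).trans (lintegral_congr fun x => ?_)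
  refine (h.polar (hι x) (hm.comp measurable_prodMk_left)).trans ?_
  congr 1
  refine lintegral_congr fun θ => setLIntegral_congr_fun measurableSet_Ioo fun t ht => ?_
  have hv : nr g x (ι x θ) = κ := by
    rw [nr_iota h.kpos (hι x), norm_eq_of_mem_sphere θ, mul_one]
  have h1 := h.Fp_geo hv ht 0
  rw [h.toRM.geo_zero, h.toRM.vl_zero, add_zero] at h1
  have h2 := h.FF_pos hv ht
  simp only [Function.comp_apply]
  rw [indicator_of_mem (h.dir_geo hv ht).1, Pi.mul_apply, h1, mul_right_comm,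
    ← ENNReal.ofReal_mul (inv_pos.2 h2).le, inv_mul_cancel₀ h2.ne', ENNReal.ofReal_one, one_mul]

theorem Bl.lintegral_Fp (h : Bl g κ) : ∫⁻ p, ENNReal.ofReal (Fp g κ p) ∂nu g κ =
    (μHE[finrank ℝ E] : Measure M) univ * (μHE[finrank ℝ E] : Measure M) univ := by
  have : Fact ((μHE[finrank ℝ E] : Measure M) univ ≠ ⊤) := ⟨vol_top h⟩
  have hd : Measurable fun p => ENNReal.ofReal (Fp g κ p)⁻¹ := h.measurable_Fp.inv.ennreal_ofReal
  have hO : MeasurableSet (Om M κ) := isOpen_Om.measurableSet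
  have hae : ∀ᵐ p ∂((μHE[finrank ℝ E] : Measure M).prod μHE[finrank ℝ E]), p ∈ Om M κ :=
    (Measure.ae_prod_mem_iff_ae_ae_mem hO).2 (Eventually.of_forall h.ae_om)
  rw [nu, lintegral_withDensity_eq_lintegral_mul _ hd h.measurable_Fp.ennreal_ofReal,
    Measure.restrict_eq_self_of_ae_mem hae, ← Measure.prod_prod, univ_prod_univ, ← lintegral_one]
  refine lintegral_congr fun p => ?_
  have h2 := h.Fp_pos p
  rw [Pi.mul_apply, ← ENNReal.ofReal_mul (inv_pos.2 h2).le, inv_mul_cancel₀ h2.ne',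
    ENNReal.ofReal_one]

end Vale.Agent.P231
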