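import Vale.Agent.P231.Bl

/-! Cut loci have positive reach. -/

open scoped Manifold ContDiff Topology ENNReal RealInnerProductSpace
open Set Filter Real Module

set_option linter.unusedSectionVars false

namespace Vale.Agent.P231

open Vale.Agent.P255 Vale.Agent.P234

variable {E : Type} [NormedAddCommGroup E] [NormedSpace ℝ E] [FiniteDimensional ℝ E]
  {M : Type} [MetricSpace M] [CompactSpace M] [ChartedSpace E M] [IsManifold 𝓘(ℝ, E) ∞ M]
  {g : M → E →L[ℝ] E →L[ℝ] ℝ} {κ : ℝ}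

namespace ReachAux

theorem quad {Θ : E × E → E} {a : E} (h : ContDiffAt ℝ 2 Θ (a, 0))
    (h1 : ∀ᶠ z in 𝓝 a, Θ (z, 0) = z ∧ ∀ w, fderiv ℝ (fun w => Θ (z, w)) 0 w = w) :
    ∃ C > 0, ∀ᶠ p in 𝓝 (a, (0 : E)), ‖Θ p - p.1 - p.2‖ ≤ C * ‖p.2‖ ^ 2 := by
  have h' : ContDiffAt ℝ 1 (fderiv ℝ Θ) (a, 0) := h.fderiv_right (by norm_num)
  obtain ⟨K, t, ht, hK⟩ := h'.exists_lipschitzOnWith
  have h2 : ∀ᶠ p in 𝓝 (a, (0 : E)), DifferentiableAt ℝ Θ p :=
    (h.eventually (by simp)).mono fun p hp => hp.differentiableAt (by simp)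
  have h3 : ∀ᶠ p : E × E in 𝓝 (a, (0 : E)),
      Θ (p.1, 0) = p.1 ∧ ∀ w, fderiv ℝ (fun w => Θ (p.1, w)) 0 w = w :=
    (continuous_fst.tendsto (a, (0 : E))).eventually h1
  obtain ⟨ε, hε, hb⟩ := Metric.eventually_nhds_iff_ball.1 ((h2.and h3).and ht)
  refine ⟨K + 1, by positivity, ?_⟩
  filter_upwards [Metric.ball_mem_nhds _ hε] with p hp
  obtain ⟨z, w⟩ := p
  have hm : ∀ y ∈ Metric.closedBall (0 : E) ‖w‖, (z, y) ∈ Metric.ball (a, (0 : E)) ε := by
    intro y hy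
    rw [Metric.mem_ball, Prod.dist_eq, max_lt_iff] at hp ⊢
    refine ⟨hp.1, lt_of_le_of_lt ?_ hp.2⟩
    simpa using hy
  have hd : ∀ y ∈ Metric.closedBall (0 : E) ‖w‖, HasFDerivAt (fun y => Θ (z, y))
      ((fderiv ℝ Θ (z, y)).comp (ContinuousLinearMap.inr ℝ E E)) y := fun y hy =>
    (hb _ (hm y hy)).1.1.hasFDerivAt.comp y (hasFDerivAt_prodMk_right z y)
  have h0 : (0 : E) ∈ Metric.closedBall (0 : E) ‖w‖ := Metric.mem_closedBall_self (norm_nonneg _)
  have h4 := (hb _ hp).1.2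
  have key := Convex.norm_image_sub_le_of_norm_hasFDerivWithin_le
    (f := fun y => Θ (z, y) - y) (C := K * ‖w‖)
    (fun y hy => ((hd y hy).sub (hasFDerivAt_id y)).hasFDerivWithinAt) (fun y hy => ?_)
    (convex_closedBall (0 : E) ‖w‖) h0 (y := w) (by simp)
  · have e1 : Θ (z, w) - w - (Θ (z, 0) - 0) = Θ (z, w) - z - w := by
      rw [h4.1]; abel
    rw [e1, sub_zero] at key
    simp only
    nlinarith [norm_nonneg w]
  · refine ContinuousLinearMap.opNorm_le_bound _ (by positivity) fun v => ?_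
    have e2 : v = fderiv ℝ Θ (z, 0) (0, v) := by
      have := h4.2 v
      rw [(hd 0 h0).fderiv] at this
      exact this.symm
    have e3 : ((fderiv ℝ Θ (z, y)).comp (ContinuousLinearMap.inr ℝ E E) -
        ContinuousLinearMap.id ℝ E) v = (fderiv ℝ Θ (z, y) - fderiv ℝ Θ (z, 0)) (0, v) := by
      rw [sub_apply, sub_apply, ← e2]
      rfl
    rw [e3]
    refine (ContinuousLinearMap.le_opNorm _ _).trans ?_
    have e4 := hK.norm_sub_le (hb _ (hm y hy)).2 (hb _ (hm 0 h0)).2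
    have e5 : ‖((z, y) : E × E) - (z, 0)‖ ≤ ‖w‖ := by simpa using hy
    have e6 : ‖((0, v) : E × E)‖ = ‖v‖ := by simp
    rw [e6]
    exact mul_le_mul_of_nonneg_right (e4.trans (by gcongr)) (norm_nonneg _)

theorem chart (h : RM g) {e : OpenPartialHomeomorph M E} (he : e ∈ atlas E M) {q₀ : M}
    (hq : q₀ ∈ e.source) : ∃ C > 0, ∀ᶠ p in 𝓝 (e q₀, (0 : E)),
      ‖e (ex g (e.symm p.1) (dS e p.1 p.2)) - p.1 - p.2‖ ≤ C * ‖p.2‖ ^ 2 := by
  refine quad (Θ := fun p : E × E => e (ex g (e.symm p.1) (dS e p.1 p.2))) ?_ ?_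
  · refine (((smV_symm he (β := Prod.fst) (W := Prod.snd) (a := (e q₀, (0 : E))) contDiffAt_fst
      (e.map_source hq) contDiffAt_snd).ex h).chart he ?_).of_le (WithTop.coe_le_coe.2 (le_top (a := (2 : ℕ∞))))
    simp only [map_zero, h.ex_zero, e.left_inv hq]
    exact hq
  · filter_upwards [e.open_target.mem_nhds (e.map_source hq)] with z hz
    refine ⟨by simp only [map_zero, h.ex_zero, e.right_inv hz], fun w => ?_⟩
    have s1 : SmP E (fun w => ex g (e.symm z) (dS e z w)) 0 :=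
      h.smP_ex _ (dS e z).contDiff.contDiffAt
    have s2 : SmP E (fun w => ex g (e.symm z) w) (dS e z 0) := h.smP_ex _ contDiffAt_id
    have s3 := s1.dC_dM he (by simp only [map_zero, h.ex_zero]; exact e.map_target hz) w
    rw [dM_comp s2 (dS e z).differentiableAt, ContinuousLinearMap.fderiv] at s3
    simp only [map_zero, h.ex_zero] at s3
    rw [← s3, h.dM_ex_zero, dC_dS he hz]

end ReachAux

/-- `Lg` from `exists_locInv` at `(q₀, 0)`; `μ = Lg q q'`, `ex g q μ = q'`; `g5` with `a = (π/2) • u` gives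
`g q u μ ≤ C g q μ μ`. `Ξ (z, z') = dC e (e.symm z) (Lg (e.symm z) (e.symm z'))` is smooth, `Ξ (z, z) = 0`,
`∂₂ Ξ (z, z) = id` (`dM_ex_zero`), so `‖Ξ (z, z') - (z' - z)‖ ≤ C ‖z' - z‖²`; `chart_coercive`, `gc_dC`. -/
theorem Bl.reach (h : Bl g κ) {e : OpenPartialHomeomorph M E} (he : e ∈ atlas E M) {q₀ : M}
    (hq : q₀ ∈ e.source) (p : M) : ∃ C, ∀ᶠ z in 𝓝 (q₀, q₀), ∀ u ∈ Lam g κ z.1 p,
      dist z.2 p = π / 2 * κ →
        gc g e (e z.1) (dC e z.1 u) (e z.2 - e z.1) ≤ C * ‖e z.2 - e z.1‖ ^ 2 := by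
  have hr := h.toRM
  have k0 := h.kpos
  obtain ⟨C, hC, h1⟩ := ReachAux.chart hr he hq
  obtain ⟨K, hK, h2⟩ := hr.chart_coercive he hq
  obtain ⟨D, hD, h3⟩ := hr.g5 ((π / 2 * κ) ^ 2)
  choose μ m1 m2 using hr.hopf_rinow
  have t1 : Tendsto (fun z : M × M => z.1) (𝓝 (q₀, q₀)) (𝓝 q₀) := continuous_fst.tendsto _
  have t2 : Tendsto (fun z : M × M => dC e z.1 (μ z.1 z.2)) (𝓝 (q₀, q₀)) (𝓝 0) := by
    refine squeeze_zero_norm' (a := fun z => K * dist z.1 z.2) ?_ ?_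
    · filter_upwards [t1.eventually h2] with z hz
      have := m1 z.1 z.2
      unfold Mn at this
      rw [m2] at this
      rw [this]
      exact (hz _).1
    · have : Continuous fun z : M × M => K * dist z.1 z.2 := by fun_prop
      simpa using this.tendsto (q₀, q₀)
  have t3 := ((e.continuousAt hq).tendsto.comp t1).prodMk_nhds t2
  have t4 : ∀ᶠ z in 𝓝 (q₀, q₀), C * ‖dC e z.1 (μ z.1 z.2)‖ < 1 / 2 := by
    have := t2.norm.const_mul C
    rw [norm_zero, mul_zero] at this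
    exact this.eventually (gt_mem_nhds (by norm_num))
  refine ⟨4 * (D * K ^ 2 + κ * K * C), ?_⟩
  filter_upwards [t3.eventually h1, t4, t1.eventually h2, t1.eventually (e.open_source.mem_nhds hq)]
    with z a1 a2 a3 a4 u hu hd
  obtain ⟨x, y⟩ := z
  simp only [Function.comp] at a1 a2 a3 a4 hu hd ⊢
  rw [e.left_inv a4, dS_dC he a4, m2] at a1
  set w := dC e x (μ x y) with hw
  set ρ := e y - e x - w with hρ
  have b1 : ‖w‖ ≤ 2 * ‖e y - e x‖ := by
    have : ‖w‖ ≤ ‖e y - e x‖ + ‖ρ‖ := by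
      have := norm_sub_le (e y - e x) ρ
      rwa [hρ, sub_sub_cancel] at this
    nlinarith [norm_nonneg w]
  have b2 : ‖w‖ ^ 2 ≤ 4 * ‖e y - e x‖ ^ 2 := by nlinarith [norm_nonneg w]
  have b3 : g x u u = κ ^ 2 := h.sq hu.1
  have b4 : g x u (μ x y) ≤ D * K ^ 2 * ‖w‖ ^ 2 := by
    have c1 : g x ((π / 2) • u) ((π / 2) • u) = (π / 2 * κ) ^ 2 := by
      simp only [map_smul, smul_apply, smul_eq_mul, b3]; ring
    have c2 := h3 x ((π / 2) • u) (μ x y) c1.le
    rw [m2, hu.2, c1, cost, hd, map_smul, smul_apply, smul_eq_mul] at c2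
    have c3 : g x (μ x y) (μ x y) ≤ K ^ 2 * ‖w‖ ^ 2 := by
      rw [← hr.nr_sq, ← mul_pow]
      exact pow_le_pow_left₀ (nr_nonneg _ _) (a3 _).2 2
    have c4 : D * g x (μ x y) (μ x y) ≤ D * K ^ 2 * ‖w‖ ^ 2 := by
      rw [mul_assoc]; gcongr
    have c5 : 0 ≤ D * K ^ 2 * ‖w‖ ^ 2 := by positivity
    by_contra hc
    have := two_le_pi
    nlinarith
  have b5 : gc g e (e x) (dC e x u) ρ ≤ κ * K * C * ‖w‖ ^ 2 := by
    have c1 : dC e x (dS e (e x) ρ) = ρ := by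
      have := dC_dS he (e.map_source a4) ρ
      rwa [e.left_inv a4] at this
    have c2 := (a3 (dS e (e x) ρ)).2
    rw [c1] at c2
    rw [← c1, gc_dC g he a4]
    refine (le_abs_self _).trans ((hr.cs _ _ _).trans ?_)
    rw [hu.1, mul_assoc, mul_assoc]
    exact mul_le_mul_of_nonneg_left (c2.trans (by gcongr)) k0.le
  have b6 : e y - e x = w + ρ := by rw [hρ]; abel
  have b7 : gc g e (e x) (dC e x u) (e y - e x) =
      g x u (μ x y) + gc g e (e x) (dC e x u) ρ := by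
    rw [b6, map_add, hw, gc_dC g he a4]
  have b8 : 0 ≤ D * K ^ 2 + κ * K * C := by positivity
  rw [b7]
  nlinarith

end Vale.Agent.P231
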