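import Vale.Agent.P231.Inv
import Vale.Agent.P231.Orbit

/-! The volume inequality. -/

open scoped Manifold ContDiff Topology ENNReal RealInnerProductSpace
open Set Filter Real Module

set_option linter.unusedSectionVars false

namespace Vale.Agent.P231

open Vale.Agent.P255 Vale.Agent.P234

variable {E : Type} [NormedAddCommGroup E] [NormedSpace ℝ E] [FiniteDimensional ℝ E]
  {M : Type} [MetricSpace M] [CompactSpace M] [ChartedSpace E M] [IsManifold 𝓘(ℝ, E) ∞ M]
  {g : M → E →L[ℝ] E →L[ℝ] ℝ} {κ : ℝ}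
  [MeasurableSpace M] [BorelSpace M]

open MeasureTheory

namespace VolAux

/-- The density integrated over a closed geodesic. -/
noncomputable def AA (g : M → E →L[ℝ] E →L[ℝ] ℝ) (x : M) (v : E) (t : ℝ) : ℝ :=
  ∫ s in (0 : ℝ)..π, FF g (geo g x v s) (vl g x v s) t

/-- The same as a function of two points. -/
noncomputable def PP (g : M → E →L[ℝ] E →L[ℝ] ℝ) (κ : ℝ) (p : M × M) : ℝ≥0∞ :=
  ∫⁻ s in Ioo 0 π, ENNReal.ofReal (Fp g κ (mv g κ s s p))

theorem cont_AA (h : RM g) (x : M) : Continuous fun z : E × ℝ => AA g x z.1 z.2 := by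
  refine intervalIntegral.continuous_parametric_intervalIntegral_of_continuous'
    (continuous_iff_continuousAt.2 fun z => ?_) 0 π
  exact continuousAt_FF h (τ := fun z : (E × ℝ) × ℝ => z.1.2)
    ((ctV_const x (V := fun z : (E × ℝ) × ℝ => z.1.1) (by fun_prop)).flow h
      (τ := fun z => z.2) continuousAt_snd) (by fun_prop)

theorem meas2 (h : Bl g κ) :
    Measurable fun z : (M × M) × ℝ => ENNReal.ofReal (Fp g κ (mv g κ z.2 z.2 z.1)) :=
  (h.measurable_Fp.comp (h.measurable_mv.comp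
    (f := fun z : (M × M) × ℝ => ((z.2, z.2), z.1)) (by fun_prop))).ennreal_ofReal

theorem meas_PP (h : Bl g κ) : Measurable (PP g κ) := (meas2 h).lintegral_prod_right'

theorem PP_geo (h : Bl g κ) {x : M} {v : E} (hv : nr g x v = κ) {t : ℝ} (ht : t ∈ Ioo 0 (π / 2)) :
    PP g κ (x, geo g x v t) = ENNReal.ofReal (AA g x v t) := by
  rw [AA, intervalIntegral.integral_of_le pi_pos.le, integral_Ioc_eq_integral_Ioo,
    ofReal_integral_eq_lintegral_ofReal
      ((continuous_FF_orbit h.toRM x v t).integrableOn_Icc.mono_set Ioo_subset_Icc_self)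
      (Eventually.of_forall fun s => FF_nonneg _ _ _), PP]
  simp only [h.mv_geo hv ht, h.Fp_geo hv ht]

theorem int_PP (h : Bl g κ) : ∫⁻ p, PP g κ p ∂nu g κ = ENNReal.ofReal π *
    (μHE[finrank ℝ E] : Measure M) univ * (μHE[finrank ℝ E] : Measure M) univ := by
  have : Fact ((μHE[finrank ℝ E] : Measure M) univ ≠ ⊤) := ⟨h.vol_fin.1⟩
  have : SFinite (nu g κ) := by unfold nu; infer_instance
  unfold PP
  rw [lintegral_lintegral_swap (meas2 h).aemeasurable, setLIntegral_congr_fun measurableSet_Ioo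
    fun s hs => (h.nu_inv h.measurable_Fp.ennreal_ofReal hs.1.le).trans h.lintegral_Fp,
    setLIntegral_const, Real.volume_Ioo, sub_zero, mul_comm, mul_assoc]

theorem nr_iso (h : Bl g κ) {x : M} {ι : Eu (finrank ℝ E) ≃L[ℝ] E}
    (hι : ∀ a b, g x (ι a) (ι b) = κ ^ 2 * ⟪a, b⟫) (θ : Eu (finrank ℝ E)) :
    nr g x (ι θ) = κ * ‖θ‖ := by
  rw [nr, hι, real_inner_self_eq_norm_sq, ← mul_pow,
    Real.sqrt_sq (mul_nonneg h.kpos.le (norm_nonneg _))]

theorem inner_eq (h : Bl g κ) {x : M} {ι : Eu (finrank ℝ E) ≃L[ℝ] E}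
    (hι : ∀ a b, g x (ι a) (ι b) = κ ^ 2 * ⟪a, b⟫) {φ : M × M → ℝ≥0∞} (hφ : Measurable φ) :
    ∫⁻ y, φ (x, y) * ENNReal.ofReal (Fp g κ (x, y))⁻¹ ∂(μHE[finrank ℝ E] : Measure M) =
      ENNReal.ofReal (κ ^ finrank ℝ E) *
      ∫⁻ θ : Metric.sphere (0 : Eu (finrank ℝ E)) 1, ∫⁻ t in Ioo 0 (π / 2),
        φ (x, geo g x (ι θ) t) ∂volume ∂(volume : Measure (Eu (finrank ℝ E))).toSphere := by
  refine (h.polar hι ((hφ.mul h.measurable_Fp.inv.ennreal_ofReal).comp
    measurable_prodMk_left)).trans ?_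
  refine congrArg _ (lintegral_congr fun θ => setLIntegral_congr_fun measurableSet_Ioo
    fun t ht => ?_)
  have hv : nr g x (ι θ) = κ := by rw [nr_iso h hι, norm_eq_of_mem_sphere, mul_one]
  have h1 := h.Fp_geo hv ht 0
  have h2 := h.FF_pos hv ht
  rw [h.toRM.geo_zero, h.toRM.vl_zero, add_zero] at h1
  simp only [Function.comp, Pi.mul_apply, Pi.inv_apply, h1]
  rw [mul_assoc, ← ENNReal.ofReal_mul (inv_pos.2 h2).le, inv_mul_cancel₀ h2.ne',
    ENNReal.ofReal_one, mul_one]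

theorem F0_nonneg (m b : ℕ) {t : ℝ} (ht : t ∈ Ioo 0 (π / 2)) : 0 ≤ F0 m b t :=
  mul_nonneg (pow_nonneg (sin_nonneg_of_nonneg_of_le_pi ht.1.le (by linarith [ht.2, pi_pos])) _)
    (pow_nonneg (cos_nonneg_of_mem_Icc ⟨by linarith [ht.1, pi_pos], ht.2.le⟩) _)

theorem model (hκ : 0 < κ) (n a : ℕ) : ENNReal.ofReal (κ ^ n) *
    ∫⁻ _ : Metric.sphere (0 : Eu n) 1, ∫⁻ t in Ioo 0 (π / 2),
      ENNReal.ofReal (π * F0 (n - 1) (a - 1) t) ∂volume ∂(volume : Measure (Eu n)).toSphere =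
    ENNReal.ofReal π * ENNReal.ofReal (modelVol n a (π / 2 * κ)) := by
  have c : Continuous fun t => π * F0 (n - 1) (a - 1) t := by unfold F0; fun_prop
  have e : 2 * (π / 2 * κ) / π = κ := by field_simp
  rw [← ofReal_integral_eq_lintegral_ofReal (c.integrableOn_Icc.mono_set Ioo_subset_Icc_self)
      ((ae_restrict_iff' measurableSet_Ioo).2 (Eventually.of_forall fun t ht =>
        mul_nonneg pi_pos.le (F0_nonneg _ _ ht))), lintegral_const,
    ← ofReal_measureReal (μ := (volume : Measure (Eu n)).toSphere),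
    Measure.toSphere_real_apply_univ, finrank_euclideanSpace_fin, integral_const_mul,
    ← integral_Ioc_eq_integral_Ioo, ← intervalIntegral.integral_of_le (by positivity),
    mul_comm (ENNReal.ofReal (π * _)), ← ENNReal.ofReal_mul (by positivity),
    ← ENNReal.ofReal_mul (by positivity), ← ENNReal.ofReal_mul pi_pos.le, modelVol, e]
  unfold F0
  congr 1
  ring

theorem eq_of_le {X : Type} [TopologicalSpace X] [MeasurableSpace X] [OpensMeasurableSpace X]
    {σ : Measure X} [SFinite σ] [σ.IsOpenPosMeasure] {U : Set ℝ} (hU : IsOpen U)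
    {f A : X × ℝ → ℝ≥0∞} (hf : Continuous f) (hA : Continuous A) (h1 : ∀ z, z.2 ∈ U → f z ≤ A z)
    (h2 : ∫⁻ θ, ∫⁻ t in U, f (θ, t) ∂volume ∂σ ≠ ⊤)
    (h3 : ∫⁻ θ, ∫⁻ t in U, A (θ, t) ∂volume ∂σ ≤ ∫⁻ θ, ∫⁻ t in U, f (θ, t) ∂volume ∂σ)
    (θ : X) {t : ℝ} (ht : t ∈ U) : f (θ, t) = A (θ, t) := by
  rw [← lintegral_prod _ hf.measurable.aemeasurable] at h2 h3
  rw [← lintegral_prod _ hA.measurable.aemeasurable] at h3
  rw [← σ.restrict_univ, Measure.prod_restrict] at h2 h3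
  have hO := isOpen_univ.prod (s := (univ : Set X)) hU
  exact Measure.eqOn_open_of_ae_eq (ae_eq_of_ae_le_of_lintegral_le ((ae_restrict_iff'
    hO.measurableSet).2 (Eventually.of_forall fun z hz => h1 z hz.2)) h2
      hA.measurable.aemeasurable h3) hO hf.continuousOn hA.continuousOn ⟨mem_univ _, ht⟩

end VolAux

open VolAux in
/-- With `V` the volume and `Φ p = ∫⁻ s in Ioo 0 π, ofReal (Fp (mv s s p))`: `π V² = ∫ Φ dν` (`lintegral_Fp`,
`nu_inv`, Tonelli) and `∫ π F0 (tt p) dν = π V V₀` (`lintegral_nu`, `toSphere_apply_univ`); `orbit_ge`. In case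
of equality `Φ = π F0` almost everywhere (`lintegral_eq_zero_iff` for the indicator of the exceptional set in
`lintegral_nu`), so for some `x` for almost all `(θ, t)`, and by continuity (`continuousAt_FF`, parametric
interval integrals, `toSphere` is positive on open sets) for all; `orbit_ge`, `rig`. -/
theorem Bl.vol (h : Bl g κ) {a : ℕ} (ha : ∀ x v, nr g x v = κ → finrank ℝ (KK g x v) < a) :
    ENNReal.ofReal (modelVol (finrank ℝ E) a (π / 2 * κ)) ≤ (μHE[finrank ℝ E] : Measure M) univ ∧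
    ((μHE[finrank ℝ E] : Measure M) univ ≤ ENNReal.ofReal (modelVol (finrank ℝ E) a (π / 2 * κ)) →
      ∃ x, Rig g κ x a) := by
  have : Fact ((μHE[finrank ℝ E] : Measure M) univ ≠ ⊤) := ⟨h.vol_fin.1⟩
  choose ι hι using fun x => exists_iso h.toRM x h.kpos
  have hv : ∀ x (θ : Metric.sphere (0 : Eu (finrank ℝ E)) 1), nr g x (ι x θ) = κ := fun x θ => by
    rw [nr_iso h (hι x), norm_eq_of_mem_sphere, mul_one]
  have h0 := int_PP h
  rw [h.lintegral_nu hι (meas_PP h)] at h0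
  simp only [← inner_eq h (hι _) (meas_PP h)] at h0
  have m : Measurable fun x => ∫⁻ y, VolAux.PP g κ (x, y) * ENNReal.ofReal (Fp g κ (x, y))⁻¹
      ∂(μHE[finrank ℝ E] : Measure M) :=
    ((meas_PP h).mul h.measurable_Fp.inv.ennreal_ofReal).lintegral_prod_right'
  have h1 := fun x => (inner_eq h (hι x) (meas_PP h)).trans (congrArg _ (lintegral_congr fun θ =>
    setLIntegral_congr_fun measurableSet_Ioo fun t ht => PP_geo h (hv x θ) ht))
  generalize hψ : (fun x => ∫⁻ y, VolAux.PP g κ (x, y) * ENNReal.ofReal (Fp g κ (x, y))⁻¹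
      ∂(μHE[finrank ℝ E] : Measure M)) = ψ at m
  simp only [congrFun hψ] at h0 h1
  have h2 : ∀ x (z : Metric.sphere (0 : Eu (finrank ℝ E)) 1 × ℝ), z.2 ∈ Ioo 0 (π / 2) →
      ENNReal.ofReal (π * F0 (finrank ℝ E - 1) (a - 1) z.2) ≤
        ENNReal.ofReal (AA g x (ι x z.1) z.2) := fun x z hz =>
    ENNReal.ofReal_le_ofReal (h.orbit_ge ha (hv x z.1) hz).1
  have h3 : ∀ x, ENNReal.ofReal π * ENNReal.ofReal (modelVol (finrank ℝ E) a (π / 2 * κ)) ≤ ψ x :=
    fun x => by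
      rw [← model h.kpos, h1]
      exact mul_le_mul_right (lintegral_mono fun θ => setLIntegral_mono' measurableSet_Ioo
        fun t ht => h2 x (θ, t) ht) _
  have hπ : ENNReal.ofReal π ≠ 0 := (ENNReal.ofReal_pos.2 pi_pos).ne'
  refine ⟨?_, fun hV => ?_⟩
  · have h4 := lintegral_mono (μ := (μHE[finrank ℝ E] : Measure M)) h3
    rwa [h0, lintegral_const, ENNReal.mul_le_mul_iff_left h.vol_fin.2 h.vol_fin.1,
      ENNReal.mul_le_mul_iff_right hπ ENNReal.ofReal_ne_top] at h4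
  have : (ae (μHE[finrank ℝ E] : Measure M)).NeBot :=
    ae_neBot.2 (Measure.measure_univ_ne_zero.1 h.vol_fin.2)
  have hc := ENNReal.mul_ne_top (ENNReal.ofReal_ne_top (r := π))
    (ENNReal.ofReal_ne_top (r := modelVol (finrank ℝ E) a (π / 2 * κ)))
  obtain ⟨x, hx⟩ := (ae_eq_of_ae_le_of_lintegral_le (μ := (μHE[finrank ℝ E] : Measure M))
    (Eventually.of_forall h3) (by rw [lintegral_const]; exact ENNReal.mul_ne_top hc h.vol_fin.1)
    m.aemeasurable (by rw [h0, lintegral_const]; gcongr)).exists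
  have hK : ENNReal.ofReal (κ ^ finrank ℝ E) ≠ 0 := (ENNReal.ofReal_pos.2 (pow_pos h.kpos _)).ne'
  rw [← model h.kpos] at hc
  simp only [← model h.kpos, h1, ENNReal.mul_right_inj hK ENNReal.ofReal_ne_top] at hx
  refine ⟨x, h.rig ha fun v hv' r hr => (h.orbit_ge ha hv' hr).2 ?_⟩
  have h5 : ‖(ι x).symm v‖ = 1 := by
    have := nr_iso h (hι x) ((ι x).symm v)
    rw [ContinuousLinearEquiv.apply_symm_apply, hv'] at this
    exact (mul_eq_left₀ h.kpos.ne').1 this.symm
  have h6 := eq_of_le isOpen_Ioo (ENNReal.continuous_ofReal.comp (by unfold F0; fun_prop))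
    (ENNReal.continuous_ofReal.comp ((cont_AA h.toRM x).comp
      (f := fun z : Metric.sphere (0 : Eu (finrank ℝ E)) 1 × ℝ => (ι x z.1, z.2)) (by fun_prop)))
    (h2 x) (fun e => hc ((congrArg _ e).trans (ENNReal.mul_top hK))) hx.ge ⟨_, mem_sphere_zero_iff_norm.2 h5⟩ hr
  simp only [Function.comp, ContinuousLinearEquiv.apply_symm_apply] at h6
  exact (ENNReal.ofReal_le_ofReal_iff (mul_nonneg pi_pos.le (F0_nonneg _ _ hr))).1 h6.ge

end Vale.Agent.P231
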